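import Mathlib

/-!
The scalar core of the pointwise criterion: from a trace bound and a log-det bound on the diagonal
entries `j i s` of `J_s` to the inequality for `∫_0^∞ s^(ℓ-1) (1 - s J_s)`.
-/

namespace Vale.Agent.P371.Full

open MeasureTheory Finset Set Filter Topology

/-- `∫_0^∞ s^(ℓ-1)/(1+s) ds`. -/
noncomputable def betaC (ℓ : ℝ) : ℝ := ∫ s in Ioi (0 : ℝ), s ^ (ℓ - 1) * (1 / (1 + s))

lemma continuous_rpow_Ioi (a : ℝ) : ContinuousOn (fun s : ℝ => s ^ a) (Ioi (0 : ℝ)) :=
  fun s hs => ((Real.continuousAt_rpow_const s a (Or.inl (ne_of_gt hs)))).continuousWithinAt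

lemma integrableOn_weight {ℓ c : ℝ} (h0 : 0 < ℓ) (h1 : ℓ < 1) {h : ℝ → ℝ}
    (hc : ContinuousOn h (Ici 0)) (hb : ∀ s, 1 ≤ s → |h s| ≤ c / s) :
    IntegrableOn (fun s => s ^ (ℓ - 1) * h s) (Ioi 0) := by
  have hm : ∀ S : Set ℝ, S ⊆ Ioi 0 → MeasurableSet S →
      AEStronglyMeasurable (fun s => s ^ (ℓ - 1) * h s) (volume.restrict S) := fun S hS hSm =>
    (((continuous_rpow_Ioi (ℓ - 1)).mono hS).mul
      (hc.mono (hS.trans Ioi_subset_Ici_self))).aestronglyMeasurable hSm
  rw [← Ioc_union_Ioi_eq_Ioi zero_le_one]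
  refine IntegrableOn.union ?_ ?_
  · obtain ⟨B, hB⟩ := (isCompact_Icc (a := (0 : ℝ)) (b := 1)).exists_bound_of_continuousOn
      (hc.mono fun s hs => hs.1)
    have hi : IntegrableOn (fun s : ℝ => s ^ (ℓ - 1)) (Ioc 0 1) :=
      (intervalIntegrable_iff_integrableOn_Ioc_of_le zero_le_one).mp
        (intervalIntegral.intervalIntegrable_rpow' (by linarith))
    refine Integrable.mono' (Integrable.mul_const hi B)
      (hm _ Ioc_subset_Ioi_self measurableSet_Ioc) ?_
    refine (ae_restrict_iff' measurableSet_Ioc).mpr (Eventually.of_forall fun s hs => ?_)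
    simp only [Real.norm_eq_abs, abs_mul, abs_of_nonneg (Real.rpow_nonneg hs.1.le _)]
    exact mul_le_mul_of_nonneg_left (hB s ⟨hs.1.le, hs.2⟩) (Real.rpow_nonneg hs.1.le _)
  · have hi : IntegrableOn (fun s : ℝ => s ^ (ℓ - 2)) (Ioi 1) :=
      integrableOn_Ioi_rpow_of_lt (by linarith) one_pos
    refine Integrable.mono' (Integrable.const_mul hi c)
      (hm _ (Ioi_subset_Ioi zero_le_one) measurableSet_Ioi) ?_
    refine (ae_restrict_iff' measurableSet_Ioi).mpr (Eventually.of_forall fun s hs => ?_)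
    have hs' : (1 : ℝ) ≤ s := le_of_lt hs
    have hs0 : 0 < s := by linarith
    simp only [Real.norm_eq_abs, abs_mul, abs_of_nonneg (Real.rpow_nonneg hs0.le _)]
    refine (mul_le_mul_of_nonneg_left (hb s hs') (Real.rpow_nonneg hs0.le _)).trans (le_of_eq ?_)
    rw [show ℓ - 2 = (ℓ - 1) + (-1) by ring, Real.rpow_add hs0, Real.rpow_neg_one]
    ring

lemma tendsto_rpow_mul_zero {ℓ c : ℝ} (h1 : ℓ < 1) {g : ℝ → ℝ}
    (hb : ∀ s, 1 ≤ s → |g s| ≤ c / s) :
    Tendsto (fun s => s ^ ℓ * g s) atTop (𝓝 0) := by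
  have h : Tendsto (fun s : ℝ => c * s ^ (ℓ - 1)) atTop (𝓝 0) := by
    have := (tendsto_rpow_neg_atTop (show 0 < 1 - ℓ by linarith)).const_mul c
    simpa using this
  refine squeeze_zero_norm' ((eventually_ge_atTop 1).mono fun s hs => ?_) h
  have hs0 : (0 : ℝ) < s := by linarith
  rw [Real.norm_eq_abs, abs_mul, abs_of_nonneg (Real.rpow_nonneg hs0.le _),
    Real.rpow_sub_one hs0.ne']
  refine (mul_le_mul_of_nonneg_left (hb s hs) (Real.rpow_nonneg hs0.le _)).trans (le_of_eq ?_)
  ring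

/-- `∫_0^∞ s^(ℓ-1) R/(R+s) ds = C R^ℓ`. -/
lemma integral_weight_frac {ℓ R : ℝ} (h0 : 0 < ℓ) (hR : 0 ≤ R) :
    ∫ s in Ioi (0 : ℝ), s ^ (ℓ - 1) * (R / (R + s)) = betaC ℓ * R ^ ℓ := by
  rcases hR.eq_or_lt with rfl | hR
  · simp [Real.zero_rpow h0.ne']
  have := integral_comp_mul_left_Ioi (fun s => s ^ (ℓ - 1) * (R / (R + s))) 0 hR
  rw [mul_zero, smul_eq_mul] at this
  have e : ∀ s ∈ Ioi (0 : ℝ), (R * s) ^ (ℓ - 1) * (R / (R + R * s)) =
      R ^ (ℓ - 1) * (s ^ (ℓ - 1) * (1 / (1 + s))) := by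
    intro s (hs : 0 < s)
    rw [Real.mul_rpow hR.le hs.le, show R + R * s = R * (1 + s) by ring,
      div_mul_eq_div_div, div_self hR.ne']
    ring
  rw [setIntegral_congr_fun measurableSet_Ioi e, integral_const_mul] at this
  unfold betaC
  calc (∫ s in Ioi (0 : ℝ), s ^ (ℓ - 1) * (R / (R + s)))
      = R * (R⁻¹ * ∫ s in Ioi (0 : ℝ), s ^ (ℓ - 1) * (R / (R + s))) := by
        rw [← mul_assoc, mul_inv_cancel₀ hR.ne', one_mul]
    _ = _ := by
        rw [← this, Real.rpow_sub_one hR.ne', ← mul_assoc, mul_div_cancel₀ _ hR.ne', mul_comm]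

variable {n : ℕ}

/-- The primitive of `-j` normalised by `lam = -log s + o(1)`. -/
noncomputable def lam (j : ℝ → ℝ) (s : ℝ) : ℝ :=
  (∫ u in (0 : ℝ)..1, j u) + (∫ u in Ioi (1 : ℝ), (j u - 1 / u)) - ∫ u in (0 : ℝ)..s, j u

lemma hasDerivAt_lam {j : ℝ → ℝ} (hj : Continuous j) (s : ℝ) :
    HasDerivAt (lam j) (-j s) s :=
  ((hj.integral_hasStrictDerivAt 0 s).hasDerivAt).const_sub _

lemma lam_asymp {j : ℝ → ℝ} {ρ c : ℝ} (hj : Continuous j)
    (hb : ∀ s, 1 ≤ s → |j s - 1 / s + ρ / s ^ 2| ≤ c * s ^ (-(5 / 2) : ℝ)) {s : ℝ} (hs : 1 ≤ s) :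
    |lam j s + Real.log s + ρ / s| ≤ c * (2 / 3) * s ^ (-(3 / 2) : ℝ) := by
  have hs0 : 0 < s := by linarith
  have hcont : ContinuousOn (fun u => j u - 1 / u + ρ / u ^ 2) (Ioi 0) := by
    refine (hj.continuousOn.sub ?_).add ?_
    · exact continuousOn_const.div continuousOn_id fun u hu => ne_of_gt hu
    · exact continuousOn_const.div (continuousOn_id.pow 2) fun u hu => pow_ne_zero 2 (ne_of_gt hu)
  have hi52 : ∀ {t : ℝ}, 1 ≤ t → IntegrableOn (fun u : ℝ => c * u ^ (-(5 / 2) : ℝ)) (Ioi t) :=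
    fun ht => (integrableOn_Ioi_rpow_of_lt (by norm_num) (by linarith)).const_mul c
  have hie : IntegrableOn (fun u => j u - 1 / u + ρ / u ^ 2) (Ioi 1) := by
    refine Integrable.mono' (hi52 le_rfl)
      ((hcont.mono (Ioi_subset_Ioi zero_le_one)).aestronglyMeasurable measurableSet_Ioi) ?_
    exact (ae_restrict_iff' measurableSet_Ioi).mpr
      (Eventually.of_forall fun u hu => hb u (le_of_lt hu))
  have hi2 : IntegrableOn (fun u : ℝ => ρ / u ^ 2) (Ioi 1) := by
    refine IntegrableOn.congr_fun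
      ((integrableOn_Ioi_rpow_of_lt (show (-2 : ℝ) < -1 by norm_num) one_pos).const_mul ρ) ?_
      measurableSet_Ioi
    intro u (hu : 1 < u)
    show ρ * u ^ (-2 : ℝ) = ρ / u ^ 2
    rw [Real.rpow_neg (by linarith), div_eq_mul_inv, ← Real.rpow_natCast]; norm_num
  have hi : IntegrableOn (fun u => j u - 1 / u) (Ioi 1) := by
    have := hie.sub hi2
    refine this.congr_fun ?_ measurableSet_Ioi
    intro u _; simp
  have e1 : lam j s = (∫ u in Ioi s, (j u - 1 / u)) - Real.log s := by
    have a1 : (∫ u in (0 : ℝ)..s, j u) =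
        (∫ u in (0 : ℝ)..1, j u) + ∫ u in (1 : ℝ)..s, j u :=
      (intervalIntegral.integral_add_adjacent_intervals (hj.intervalIntegrable _ _)
        (hj.intervalIntegrable _ _)).symm
    have a2 : (∫ u in (1 : ℝ)..s, (j u - 1 / u)) =
        (∫ u in (1 : ℝ)..s, j u) - Real.log s := by
      have h0 : (0 : ℝ) ∉ Set.uIcc (1 : ℝ) s := by
        rw [Set.uIcc_of_le hs]; exact fun h => by linarith [h.1]
      rw [intervalIntegral.integral_sub (hj.intervalIntegrable _ _)
        (intervalIntegral.intervalIntegrable_one_div (fun u hu h => h0 (h ▸ hu)) continuousOn_id),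
        integral_one_div h0, div_one]
    have a3 := intervalIntegral.integral_Ioi_sub_Ioi hi hs
    simp only [lam]
    linarith
  have e2 : (∫ u in Ioi s, ρ / u ^ 2) = ρ / s := by
    have e : ∀ u ∈ Ioi s, ρ / u ^ 2 = ρ * u ^ (-2 : ℝ) := by
      intro u (hu : s < u)
      rw [Real.rpow_neg (by linarith), div_eq_mul_inv, ← Real.rpow_natCast]; norm_num
    rw [setIntegral_congr_fun measurableSet_Ioi e, integral_const_mul,
      integral_Ioi_rpow_of_lt (by norm_num) hs0]
    norm_num
    rw [Real.rpow_neg hs0.le, Real.rpow_one]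
    ring
  have e3 : (∫ u in Ioi s, (j u - 1 / u + ρ / u ^ 2)) = lam j s + Real.log s + ρ / s := by
    rw [integral_add (hi.mono_set (Ioi_subset_Ioi hs)) (hi2.mono_set (Ioi_subset_Ioi hs)), e1, e2]
    ring
  rw [← e3, ← Real.norm_eq_abs]
  refine (norm_integral_le_of_norm_le (hi52 hs) ((ae_restrict_iff' measurableSet_Ioi).mpr
    (Eventually.of_forall fun u hu => hb u (hs.trans (le_of_lt hu))))).trans (le_of_eq ?_)
  rw [integral_const_mul, integral_Ioi_rpow_of_lt (by norm_num) hs0]
  norm_num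
  ring

/-- The scalar criterion. -/
theorem scalar_criterion {ℓ c : ℝ} (h0 : 0 < ℓ) (h1 : ℓ < 1)
    (j : Fin n → ℝ → ℝ) (jR D D' : ℝ → ℝ) (ρ y : Fin n → ℝ) (r : ℝ)
    (hy : ∀ i, 0 ≤ y i) (hρ : ∑ i, ρ i = r) (hc0 : 0 ≤ c)
    (hj : ∀ i, Continuous (j i)) (hjR : Continuous jR)
    (hpos : ∀ i s, 0 ≤ s → 0 < j i s)
    (hexp : ∀ i s, 1 ≤ s → |j i s - 1 / s + ρ i / s ^ 2| ≤ c * s ^ (-(5 / 2) : ℝ))
    (hexpR : ∀ s, 1 ≤ s → |jR s - r / s| ≤ c / s ^ 2)
    (htr : ∀ s, 0 ≤ s → jR s + s * ∑ i, j i s ≤ n)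
    (hD : ∀ s, 0 ≤ s → HasDerivAt D (D' s) s)
    (hD' : ∀ s, 0 ≤ s → D' s ≤ -∑ i, j i s)
    (hDlim : Tendsto (fun s => D s + n * Real.log s) atTop (𝓝 0))
    (hDle : ∀ s, 0 ≤ s → D s ≤ ∑ i, Real.log (j i s)) :
    0 ≤ ℓ * (∫ s in Ioi (0 : ℝ), s ^ (ℓ - 1) * (r - s * jR s))
      - (ℓ + 1) * (∫ s in Ioi (0 : ℝ), s ^ (ℓ - 1) * ∑ i, y i * (1 - s * j i s))
      + betaC ℓ * ∑ i, y i ^ (1 + ℓ) := by
  set L : Fin n → ℝ → ℝ := fun i => lam (j i) with hL
  have hLd : ∀ i s, HasDerivAt (L i) (-j i s) s := fun i s => hasDerivAt_lam (hj i) s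
  have hLc : ∀ i, Continuous (L i) := fun i =>
    continuous_iff_continuousAt.mpr fun s => (hLd i s).continuousAt
  have hLa : ∀ i s, 1 ≤ s → |L i s + Real.log s + ρ i / s| ≤ c * (2 / 3) * s ^ (-(3 / 2) : ℝ) :=
    fun i s hs => lam_asymp (hj i) (hexp i) hs
  have h32 : ∀ s : ℝ, 1 ≤ s → s ^ (-(3 / 2) : ℝ) ≤ 1 / s := by
    intro s hs
    rw [one_div, ← Real.rpow_neg_one]
    exact Real.rpow_le_rpow_of_exponent_le hs (by norm_num)
  have h52 : ∀ s : ℝ, 1 ≤ s → s ^ (-(5 / 2) : ℝ) ≤ 1 / s ^ 2 := by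
    intro s hs
    rw [one_div, ← Real.rpow_natCast, ← Real.rpow_neg (by linarith)]
    exact Real.rpow_le_rpow_of_exponent_le hs (by norm_num)
  have hLa' : ∀ i s, 1 ≤ s → |L i s + Real.log s| ≤ (c + |ρ i|) / s := by
    intro i s hs
    have hs0 : 0 < s := by linarith
    have e : L i s + Real.log s = (L i s + Real.log s + ρ i / s) - ρ i / s := by ring
    rw [e]
    refine (abs_sub _ _).trans ?_
    rw [abs_div, abs_of_pos hs0, add_div]
    refine add_le_add ((hLa i s hs).trans ?_) le_rfl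
    rw [div_eq_mul_one_div c s]
    calc c * (2 / 3) * s ^ (-(3 / 2) : ℝ) ≤ c * 1 * s ^ (-(3 / 2) : ℝ) := by gcongr; norm_num
      _ ≤ c * (1 / s) := by rw [mul_one]; exact mul_le_mul_of_nonneg_left (h32 s hs) hc0
  -- the log-det bound
  have hlog : ∀ s, 0 ≤ s → ∑ i, L i s ≤ ∑ i, Real.log (j i s) := by
    intro s hs
    refine le_trans ?_ (hDle s hs)
    set G : ℝ → ℝ := fun t => (∑ i, L i t) - D t with hG
    have hd : ∀ t, 0 ≤ t → HasDerivAt G ((∑ i, -j i t) - D' t) t := fun t ht =>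
      ((HasDerivAt.fun_sum fun i _ => hLd i t)).sub (hD t ht)
    have hmono : MonotoneOn G (Ici 0) := by
      refine monotoneOn_of_deriv_nonneg (convex_Ici _)
        (fun t ht => (hd t ht).continuousAt.continuousWithinAt) ?_ ?_
      · intro t ht
        rw [interior_Ici] at ht
        exact (hd t (le_of_lt ht)).differentiableAt.differentiableWithinAt
      · intro t ht
        rw [interior_Ici] at ht
        rw [(hd t (le_of_lt ht)).deriv, sum_neg_distrib]
        linarith [hD' t (le_of_lt ht)]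
    have hlim : Tendsto G atTop (𝓝 0) := by
      have h1 : Tendsto (fun t => ∑ i, (L i t + Real.log t)) atTop (𝓝 (∑ i : Fin n, (0 : ℝ))) := by
        refine tendsto_finsetSum _ fun i _ => squeeze_zero_norm'
          ((eventually_ge_atTop 1).mono fun t ht => hLa' i t ht) ?_
        exact tendsto_const_nhds.div_atTop tendsto_id
      have h2 := h1.sub hDlim
      rw [sum_const_zero, sub_zero] at h2
      refine h2.congr fun t => ?_
      simp only [hG, sum_add_distrib, sum_const, card_univ, Fintype.card_fin, nsmul_eq_mul]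
      ring
    have : G s ≤ 0 := ge_of_tendsto hlim
      ((eventually_ge_atTop s).mono fun t ht => hmono hs (hs.trans ht) ht)
    simp only [hG] at this
    linarith
  -- F ≥ 0
  have hF : ∀ s, 0 ≤ s → 0 ≤ r + n * s - ∑ i, Real.exp (-L i s) := by
    intro s hs
    set F : ℝ → ℝ := fun t => r + n * t - ∑ i, Real.exp (-L i t) with hFdef
    have hd : ∀ t, HasDerivAt F (n - ∑ i, Real.exp (-L i t) * j i t) t := by
      intro t
      have h1 : HasDerivAt (fun u : ℝ => r + n * u) (n : ℝ) t := by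
        simpa using ((hasDerivAt_id t).const_mul (n : ℝ)).const_add r
      refine h1.sub (HasDerivAt.fun_sum fun i _ => ?_)
      simpa using (hLd i t).neg.exp
    have hanti : AntitoneOn F (Ici 0) := by
      refine antitoneOn_of_deriv_nonpos (convex_Ici _)
        (fun t _ => (hd t).continuousAt.continuousWithinAt)
        (fun t _ => (hd t).differentiableAt.differentiableWithinAt) ?_
      intro t ht
      rw [interior_Ici] at ht
      have ht0 : (0 : ℝ) ≤ t := le_of_lt ht
      rw [(hd t).deriv, sub_nonpos]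
      have hl := hlog t ht0
      calc (n : ℝ) ≤ ∑ i, (Real.log (j i t) - L i t + 1) := by
            rw [sum_add_distrib, sum_sub_distrib]; simp; linarith
        _ ≤ _ := sum_le_sum fun i _ => by
            refine (Real.add_one_le_exp _).trans (le_of_eq ?_)
            rw [sub_eq_add_neg, Real.exp_add, Real.exp_log (hpos i t ht0), mul_comm]
    have hlim : Tendsto F atTop (𝓝 0) := by
      have hi : ∀ i, Tendsto (fun t => ρ i + t - Real.exp (-L i t)) atTop (𝓝 0) := by
        intro i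
        set e : ℝ → ℝ := fun t => L i t + Real.log t with he
        have hb : Tendsto (fun t : ℝ => c * (2 / 3) * t ^ (-(1 / 2) : ℝ) + ((c + |ρ i|) ^ 2) / t)
            atTop (𝓝 0) := by
          simpa using ((tendsto_rpow_neg_atTop (show (0 : ℝ) < 1 / 2 by norm_num)).const_mul
            (c * (2 / 3))).add (tendsto_const_nhds.div_atTop tendsto_id)
        refine squeeze_zero_norm' ((eventually_ge_atTop (max 1 (c + |ρ i|))).mono fun t ht => ?_) hb
        have ht1 : 1 ≤ t := (le_max_left _ _).trans ht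
        have ht0 : 0 < t := by linarith
        have he1 : |e t| ≤ (c + |ρ i|) / t := hLa' i t ht1
        have he2 : |e t| ≤ 1 := he1.trans ((div_le_one ht0).mpr ((le_max_right _ _).trans ht))
        have hx := Real.abs_exp_sub_one_sub_id_le (x := -e t) (by rwa [abs_neg])
        have heq : ρ i + t - Real.exp (-L i t) =
            t * (e t + ρ i / t) - t * (Real.exp (-e t) - 1 - -e t) := by
          have : Real.exp (-L i t) = t * Real.exp (-e t) := by
            rw [show -L i t = Real.log t + -e t by simp [he], Real.exp_add, Real.exp_log ht0]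
          rw [this]
          field_simp
          ring
        rw [Real.norm_eq_abs, heq]
        refine (abs_sub _ _).trans (add_le_add ?_ ?_)
        · rw [abs_mul, abs_of_pos ht0]
          refine (mul_le_mul_of_nonneg_left (hLa i t ht1) ht0.le).trans (le_of_eq ?_)
          rw [show (-(1 / 2) : ℝ) = -(3 / 2) + 1 by norm_num, Real.rpow_add_one ht0.ne']
          ring
        · rw [abs_mul, abs_of_pos ht0]
          refine (mul_le_mul_of_nonneg_left hx ht0.le).trans ?_
          have : e t ^ 2 ≤ ((c + |ρ i|) / t) ^ 2 := by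
            rw [← sq_abs (e t)]; exact pow_le_pow_left₀ (abs_nonneg _) he1 2
          calc t * (-e t) ^ 2 ≤ t * ((c + |ρ i|) / t) ^ 2 := by rw [neg_sq]; gcongr
            _ = _ := by field_simp
      have := tendsto_finsetSum Finset.univ fun i _ => hi i
      rw [sum_const_zero] at this
      refine this.congr fun t => ?_
      simp [hFdef, sum_sub_distrib, sum_add_distrib, hρ]
    exact le_of_tendsto hlim ((eventually_ge_atTop s).mono fun t ht => hanti hs (hs.trans ht) ht)
  -- the functions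
  set a1 : ℝ → ℝ := fun s => r - s * jR s with ha1
  set a2 : ℝ → ℝ := fun s => ∑ i, y i * (1 - s * j i s) with ha2
  set a3 : ℝ → ℝ := fun s => ∑ i, y i * (y i / (y i + s)) with ha3
  set g : ℝ → ℝ := fun s => ∑ i, y i * (Real.log (y i + s) + L i s) with hg
  have hfrac : ∀ i, ContinuousOn (fun s => y i * (y i / (y i + s))) (Ici (0 : ℝ)) := by
    intro i
    rcases (hy i).eq_or_lt with h | h
    · simp [← h, continuousOn_const]
    · exact continuousOn_const.mul (continuousOn_const.div (by fun_prop) fun s hs =>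
        ne_of_gt (add_pos_of_pos_of_nonneg h hs))
  have hgc : ContinuousOn g (Ici 0) := by
    refine continuousOn_finsetSum _ fun i _ => ?_
    rcases (hy i).eq_or_lt with h | h
    · simp [← h, continuousOn_const]
    · exact continuousOn_const.mul ((ContinuousOn.log (by fun_prop) fun s hs =>
        ne_of_gt (add_pos_of_pos_of_nonneg h hs)).add (hLc i).continuousOn)
  have h1s : ∀ i s, 1 ≤ s → |1 - s * j i s| ≤ (c + |ρ i|) / s := by
    intro i s hs
    have hs0 : 0 < s := by linarith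
    have e : 1 - s * j i s = -(s * (j i s - 1 / s + ρ i / s ^ 2)) + ρ i / s := by field_simp; ring
    rw [e]
    refine (abs_add_le _ _).trans ?_
    rw [abs_neg, abs_mul, abs_of_pos hs0, abs_div (ρ i), abs_of_pos hs0, add_div]
    refine add_le_add ?_ le_rfl
    refine (mul_le_mul_of_nonneg_left ((hexp i s hs).trans
      (mul_le_mul_of_nonneg_left (h52 s hs) hc0)) hs0.le).trans (le_of_eq ?_)
    field_simp
  have ha1b : ∀ s, 1 ≤ s → |a1 s| ≤ c / s := by
    intro s hs
    have hs0 : 0 < s := by linarith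
    have e : a1 s = -(s * (jR s - r / s)) := by simp only [ha1]; field_simp; ring
    rw [e, abs_neg, abs_mul, abs_of_pos hs0]
    refine (mul_le_mul_of_nonneg_left (hexpR s hs) hs0.le).trans (le_of_eq ?_)
    field_simp
  have ha2b : ∀ s, 1 ≤ s → |a2 s| ≤ (∑ i, y i * (c + |ρ i|)) / s := by
    intro s hs
    rw [sum_div]
    refine (abs_sum_le_sum_abs _ _).trans (sum_le_sum fun i _ => ?_)
    rw [abs_mul, abs_of_nonneg (hy i), mul_div_assoc]
    exact mul_le_mul_of_nonneg_left (h1s i s hs) (hy i)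
  have ha3b : ∀ s, 1 ≤ s → |a3 s| ≤ (∑ i, y i * y i) / s := by
    intro s hs
    have hs0 : 0 < s := by linarith
    rw [sum_div]
    refine (abs_sum_le_sum_abs _ _).trans (sum_le_sum fun i _ => ?_)
    have := hy i
    rw [abs_of_nonneg (by positivity), mul_div_assoc]
    gcongr
    linarith
  have hgb : ∀ s, 1 ≤ s → |g s| ≤ (∑ i, y i * (y i + (c + |ρ i|))) / s := by
    intro s hs
    have hs0 : 0 < s := by linarith
    rw [sum_div]
    refine (abs_sum_le_sum_abs _ _).trans (sum_le_sum fun i _ => ?_)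
    rw [abs_mul, abs_of_nonneg (hy i), mul_div_assoc]
    refine mul_le_mul_of_nonneg_left ?_ (hy i)
    have hq : 0 < (y i + s) / s := div_pos (by linarith [hy i]) hs0
    have e : Real.log (y i + s) + L i s = Real.log ((y i + s) / s) + (L i s + Real.log s) := by
      rw [Real.log_div (by linarith [hy i]) hs0.ne']; ring
    rw [e, add_div (y i) (c + |ρ i|) s]
    refine (abs_add_le _ _).trans (add_le_add ?_ (hLa' i s hs))
    rw [abs_of_nonneg (Real.log_nonneg (by rw [le_div_iff₀ hs0]; linarith [hy i]))]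
    refine (Real.log_le_sub_one_of_pos hq).trans (le_of_eq ?_)
    field_simp
    ring
  have i1 := integrableOn_weight h0 h1
    (show ContinuousOn a1 (Ici 0) from (by fun_prop : Continuous a1).continuousOn) ha1b
  have i2 := integrableOn_weight h0 h1
    (show ContinuousOn a2 (Ici 0) from (by fun_prop : Continuous a2).continuousOn) ha2b
  have i3 := integrableOn_weight h0 h1
    (show ContinuousOn a3 (Ici 0) from continuousOn_finsetSum _ fun i _ => hfrac i) ha3b
  have ig := integrableOn_weight h0 h1 hgc hgb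
  -- the derivative of `-s^ℓ g`
  set η : ℝ → ℝ := fun s => (a1 s - a2 s) + g s with hη
  have hηnn : ∀ s, 0 < s → 0 ≤ η s := by
    intro s hs
    have hlj := hlog s hs.le
    have ht := htr s hs.le
    set z : Fin n → ℝ := fun i => y i + s with hz
    have hz0 : ∀ i, 0 < z i := fun i => by simp only [hz]; linarith [hy i]
    have A1 : ∀ i, -Real.exp (-L i s) ≤ z i * (Real.log (z i) + L i s) - z i := by
      intro i
      have he : Real.exp (-L i s) = z i * Real.exp (-(Real.log (z i) + L i s)) := by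
        rw [neg_add, Real.exp_add, Real.exp_neg (Real.log (z i)), Real.exp_log (hz0 i), ← mul_assoc,
          mul_inv_cancel₀ (hz0 i).ne', one_mul]
      have := mul_le_mul_of_nonneg_left (Real.add_one_le_exp (-(Real.log (z i) + L i s))) (hz0 i).le
      rw [← he] at this
      linarith [this]
    have A2 : ∀ i, Real.log (j i s) + 1 ≤ j i s * z i - Real.log (z i) := by
      intro i
      have := Real.log_le_sub_one_of_pos (mul_pos (hpos i s hs.le) (hz0 i))
      rw [Real.log_mul (hpos i s hs.le).ne' (hz0 i).ne'] at this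
      linarith
    have S1 : 0 ≤ r + n * s + ∑ i, (z i * (Real.log (z i) + L i s) - z i) := by
      have := sum_le_sum fun i (_ : i ∈ Finset.univ) => A1 i
      rw [sum_neg_distrib] at this
      linarith [hF s hs.le]
    have S2 : 0 ≤ (∑ i, (j i s * z i - Real.log (z i))) - jR s - s * (∑ i, j i s) - ∑ i, L i s := by
      have := sum_le_sum fun i (_ : i ∈ Finset.univ) => A2 i
      rw [sum_add_distrib, sum_const, card_univ, Fintype.card_fin, nsmul_eq_mul, mul_one] at this
      linarith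
    have key : η s = (r + n * s + ∑ i, (z i * (Real.log (z i) + L i s) - z i)) +
        s * ((∑ i, (j i s * z i - Real.log (z i))) - jR s - s * (∑ i, j i s) - ∑ i, L i s) := by
      simp only [hη, ha1, ha2, hg, hz]
      simp only [mul_sub, mul_sum, ← mul_assoc, add_mul, mul_add, sum_add_distrib,
        sum_sub_distrib, sum_const, card_univ, Fintype.card_fin, nsmul_eq_mul, mul_one]
      have e : ∑ x, s * y x * j x s = ∑ x, s * j x s * y x :=
        sum_congr rfl fun x _ => mul_right_comm _ _ _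
      ring_nf
      linarith
    rw [key]
    exact add_nonneg S1 (mul_nonneg hs.le S2)
  have hderiv : ∀ s ∈ Ioi (0 : ℝ), HasDerivAt (fun t => -(t ^ ℓ * g t))
      ((s ^ (ℓ - 1) * a3 s - s ^ (ℓ - 1) * a2 s) - ℓ * (s ^ (ℓ - 1) * g s)) s := by
    intro s (hs : 0 < s)
    have hg' : HasDerivAt g (∑ i, y i * (1 / (y i + s) + -j i s)) s :=
      HasDerivAt.fun_sum fun i _ =>
        ((((hasDerivAt_id s).const_add (y i)).log (by simp; linarith [hy i])).add (hLd i s)).const_mul _
    refine ((Real.hasDerivAt_rpow_const (Or.inl hs.ne')).mul hg').neg.congr_deriv ?_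
    have e : s ^ ℓ = s ^ (ℓ - 1) * s := by rw [← Real.rpow_add_one hs.ne']; ring_nf
    rw [e]
    have e' : s * (∑ i, y i * (1 / (y i + s) + -j i s)) = a2 s - a3 s := by
      simp only [ha2, ha3, mul_sum, ← sum_sub_distrib]
      refine sum_congr rfl fun i _ => ?_
      have : y i + s ≠ 0 := by linarith [hy i]
      field_simp
      ring
    linear_combination (-(s ^ (ℓ - 1))) * e'
  have hint : IntegrableOn
      (fun s => (s ^ (ℓ - 1) * a3 s - s ^ (ℓ - 1) * a2 s) - ℓ * (s ^ (ℓ - 1) * g s)) (Ioi 0) :=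
    (i3.sub i2).sub (ig.const_mul ℓ)
  have hftc := integral_Ioi_of_hasDerivAt_of_tendsto
    (f := fun t => -(t ^ ℓ * g t))
    (((Real.continuous_rpow_const h0.le).continuousWithinAt.mul
      (hgc 0 (Set.mem_Ici.mpr le_rfl))).neg) hderiv hint
    (by simpa using (tendsto_rpow_mul_zero h1 hgb).neg)
  rw [Real.zero_rpow h0.ne'] at hftc
  simp only [zero_mul, neg_zero, sub_self] at hftc
  have hA3 : (∫ s in Ioi (0 : ℝ), s ^ (ℓ - 1) * a3 s) = betaC ℓ * ∑ i, y i ^ (1 + ℓ) := by
    simp only [ha3, mul_sum]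
    rw [integral_finsetSum]
    · refine sum_congr rfl fun i _ => ?_
      simp only [← mul_assoc, mul_comm _ (y i)]
      simp only [mul_assoc]
      rw [integral_const_mul, integral_weight_frac h0 (hy i),
        show y i ^ (1 + ℓ) = y i * y i ^ ℓ by
          rw [Real.rpow_add' (hy i) (by linarith), Real.rpow_one]]
      ring
    · intro i _
      exact integrableOn_weight h0 h1 (c := y i * y i) (hfrac i) fun s hs => by
        have := hy i
        have hs0 : 0 < s := by linarith
        rw [abs_of_nonneg (by positivity), mul_div_assoc]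
        gcongr
        linarith
  have hη0 : 0 ≤ ∫ s in Ioi (0 : ℝ), s ^ (ℓ - 1) * η s :=
    setIntegral_nonneg measurableSet_Ioi fun s hs =>
      mul_nonneg (Real.rpow_nonneg (le_of_lt hs) _) (hηnn s hs)
  have hηe : (∫ s in Ioi (0 : ℝ), s ^ (ℓ - 1) * η s) =
      (∫ s in Ioi (0 : ℝ), s ^ (ℓ - 1) * a1 s) - (∫ s in Ioi (0 : ℝ), s ^ (ℓ - 1) * a2 s) +
        ∫ s in Ioi (0 : ℝ), s ^ (ℓ - 1) * g s := by
    simp only [hη, mul_add, mul_sub]
    have i12 : IntegrableOn (fun s => s ^ (ℓ - 1) * a1 s - s ^ (ℓ - 1) * a2 s) (Ioi 0) :=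
      i1.sub i2
    rw [integral_add i12 ig, integral_sub i1 i2]
  have i32 : IntegrableOn (fun s => s ^ (ℓ - 1) * a3 s - s ^ (ℓ - 1) * a2 s) (Ioi 0) :=
    i3.sub i2
  have igl : IntegrableOn (fun s => ℓ * (s ^ (ℓ - 1) * g s)) (Ioi 0) := ig.const_mul ℓ
  rw [integral_sub i32 igl, integral_sub i3 i2, integral_const_mul, hA3] at hftc
  simp only [ha1, ha2] at hηe hη0 hftc ⊢
  have := mul_nonneg h0.le hη0
  rw [hηe, mul_add, mul_sub] at this
  linarith

end Vale.Agent.P371.Full
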