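import Vale.Agent.P371.Full.JMatrix

/-!
Large-`s` expansion of `J_s`: `J_s = s⁻¹ - s⁻² (Q - A²) + O(s^(-5/2))`, uniformly for bounded `A`.
-/

namespace Vale.Agent.P371.Full

open MeasureTheory Finset Matrix Set
open scoped ComplexOrder ComplexConjugate Matrix.Norms.L2Operator

variable {N : ℕ}

/-- If `Y (1 + D) = 1` and `‖D‖ ≤ 1/2` then `Y² = 1 - 2D + 3D²` up to `22 ‖D‖³`. -/
lemma norm_inv_sq_expand {D Y : CMat N} (hY : Y * (1 + D) = 1) {d : ℝ} (hD : ‖D‖ ≤ d)
    (hd : d ≤ 1 / 2) :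
    ‖Y * Y - (1 - (2 : ℝ) • D + (3 : ℝ) • (D * D))‖ ≤ 22 * d ^ 3 := by
  have hd0 : 0 ≤ d := (norm_nonneg D).trans hD
  have hYn : ‖Y‖ ≤ 2 := by
    have e : Y = 1 - Y * D := by
      rw [Matrix.mul_add, Matrix.mul_one] at hY
      exact eq_sub_of_add_eq hY
    have h1 : ‖Y‖ ≤ 1 + ‖Y‖ * d := by
      calc ‖Y‖ = ‖1 - Y * D‖ := congrArg _ e
        _ ≤ ‖(1 : CMat N)‖ + ‖Y * D‖ := norm_sub_le _ _
        _ ≤ 1 + ‖Y‖ * d := add_le_add norm_one_le ((norm_mul_le _ _).trans
            (mul_le_mul_of_nonneg_left hD (norm_nonneg _)))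
    nlinarith [norm_nonneg Y]
  have e1 : (1 + D) * (1 + D) * (1 - (2 : ℝ) • D + (3 : ℝ) • (D * D)) =
      1 + ((4 : ℝ) • (D * D * D) + (3 : ℝ) • (D * D * D * D)) := by
    simp only [add_mul, mul_add, mul_sub, mul_smul_comm, one_mul, mul_one,
      mul_assoc]
    module
  have hYY : Y * Y * ((1 + D) * (1 + D)) = 1 := by
    rw [mul_assoc, ← mul_assoc Y (1 + D), hY, one_mul, hY]
  have e2 : Y * Y - (1 - (2 : ℝ) • D + (3 : ℝ) • (D * D)) =
      -(Y * Y * ((4 : ℝ) • (D * D * D) + (3 : ℝ) • (D * D * D * D))) := by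
    have h := congrArg (fun M => Y * Y * M) e1
    simp only [← mul_assoc (Y * Y) ((1 + D) * (1 + D)), hYY, one_mul] at h
    rw [h]
    noncomm_ring
  rw [e2, norm_neg]
  have h3 : ‖D * D * D‖ ≤ d ^ 3 := by
    refine (norm_mul_le _ _).trans ?_
    rw [pow_succ d 2, sq]
    exact mul_le_mul ((norm_mul_le _ _).trans (mul_le_mul hD hD (norm_nonneg _) hd0)) hD
      (norm_nonneg _) (mul_nonneg hd0 hd0)
  have h4 : ‖D * D * D * D‖ ≤ d ^ 3 * (1 / 2) := (norm_mul_le _ _).trans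
    (mul_le_mul h3 (hD.trans hd) (norm_nonneg _) (pow_nonneg hd0 3))
  calc _ ≤ ‖Y * Y‖ * ‖(4 : ℝ) • (D * D * D) + (3 : ℝ) • (D * D * D * D)‖ := norm_mul_le _ _
    _ ≤ 4 * (4 * d ^ 3 + 3 * (d ^ 3 * (1 / 2))) := by
      refine mul_le_mul ?_ ?_ (norm_nonneg _) (by norm_num)
      · exact (norm_mul_le _ _).trans (by nlinarith [norm_nonneg Y])
      · refine (norm_add_le _ _).trans (add_le_add ?_ ?_)
        · rw [norm_smul, Real.norm_of_nonneg (by norm_num : (0 : ℝ) ≤ 4)]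
          exact mul_le_mul_of_nonneg_left h3 (by norm_num)
        · rw [norm_smul, Real.norm_of_nonneg (by norm_num : (0 : ℝ) ≤ 3)]
          exact mul_le_mul_of_nonneg_left h4 (by norm_num)
    _ = 22 * d ^ 3 := by ring

/-- `J_s = s⁻¹ - s⁻² (Q - A²) + O(s^(-5/2))`. -/
theorem jmat_expand (q : Fin N → ℝ) (hq : ∀ i, 0 < q i) (a : ℝ) :
    ∃ c s0, 1 ≤ s0 ∧ 0 ≤ c ∧ ∀ A, Dom q A → ‖A‖ ≤ a → ∀ s, s0 ≤ s →
      ‖jmat q A s - (1 / s) • (1 : CMat N) + (1 / s ^ 2) • (rdiag q - A * A)‖ ≤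
        c * s ^ (-(5 / 2) : ℝ) := by
  set b : ℝ := (∑ i, q i) + max a 0 with hb
  have hsum : 0 ≤ ∑ i, q i := sum_nonneg fun i _ => (hq i).le
  have hb0 : 0 ≤ b := add_nonneg hsum (le_max_right _ _)
  have hqb : ∀ i, q i ≤ b := fun i => by
    have := single_le_sum (fun j _ => (hq j).le) (Finset.mem_univ i)
    linarith [le_max_right a 0]
  refine ⟨b ^ 2 + 22 * b ^ 3, max 1 (4 * b ^ 2), le_max_left _ _, by positivity,
    fun A hA hAa s hs => ?_⟩
  have hs1 : 1 ≤ s := (le_max_left _ _).trans hs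
  have hs0 : 0 < s := one_pos.trans_le hs1
  set r := Real.sqrt s with hr
  have hr0 : 0 < r := Real.sqrt_pos.mpr hs0
  have hr2 : r * r = s := Real.mul_self_sqrt hs0.le
  have hr1 : 1 ≤ r := Real.one_le_sqrt.mpr hs1
  set ε : ℝ := r⁻¹ with hε
  have hε0 : 0 < ε := inv_pos.mpr hr0
  have hε1 : ε ≤ 1 := inv_le_one_of_one_le₀ hr1
  have hεε : ε * ε = 1 / s := by rw [hε, ← mul_inv, hr2, one_div]
  have hbε : b * ε ≤ 1 / 2 := by
    have h4 : 4 * b ^ 2 ≤ s := (le_max_right _ _).trans hs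
    rw [hε, ← div_eq_mul_inv, div_le_iff₀ hr0]
    nlinarith [hr2, hr0]
  -- the diagonal part
  set p : Fin N → ℝ := fun i => Real.sqrt (1 + q i / s) - 1 with hp
  set P := rdiag p with hP
  have hp0 : ∀ i, 0 ≤ p i ∧ p i ≤ b / 2 * (1 / s) ∧
      |q i / s - 2 * p i| ≤ b ^ 2 / 4 * (1 / s) ^ 2 := by
    intro i
    have hu : 0 ≤ q i / s := (div_pos (hq i) hs0).le
    have hub : q i / s ≤ b * (1 / s) := by
      rw [mul_one_div]; exact div_le_div_of_nonneg_right (hqb i) hs0.le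
    have hw : Real.sqrt (1 + q i / s) ^ 2 = 1 + q i / s := Real.sq_sqrt (by linarith)
    have hw1 : 1 ≤ Real.sqrt (1 + q i / s) := Real.one_le_sqrt.mpr (by linarith)
    have hw2 : 2 * p i ≤ q i / s := by simp only [hp]; nlinarith
    have hw0 : 0 ≤ p i := by simp only [hp]; linarith
    refine ⟨hw0, by linarith, ?_⟩
    have e : q i / s - 2 * p i = p i * p i := by simp only [hp]; nlinarith
    rw [e, abs_of_nonneg (mul_nonneg hw0 hw0)]
    calc p i * p i ≤ (b / 2 * (1 / s)) * (b / 2 * (1 / s)) := by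
            gcongr <;> linarith
      _ = _ := by ring
  have hPn : ‖P‖ ≤ b / 2 * (1 / s) := norm_rdiag_le (by positivity) fun i => by
    rw [abs_of_nonneg (hp0 i).1]; exact (hp0 i).2.1
  have hkap : ε • kap q s = 1 + P := by
    rw [kap, hP, rdiag_smul, ← rdiag_one, rdiag_add]
    refine congrArg rdiag (funext fun i => ?_)
    simp only [hp, hε, hr]
    rw [add_sub_cancel, inv_mul_eq_div, ← Real.sqrt_div' _ hs0.le]
    congr 1
    rw [add_div, div_self hs0.ne', add_comm]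
  set R := ε • A with hR
  have hRn : ‖R‖ ≤ ε * max a 0 := by
    rw [hR, norm_smul, Real.norm_eq_abs, abs_of_pos hε0]
    exact mul_le_mul_of_nonneg_left (hAa.trans (le_max_left _ _)) hε0.le
  set C : CMat N := (rdiag fun i => q i / s - 2 * p i) + (3 : ℝ) • (P * P) with hC
  have hCn : ‖C‖ ≤ b ^ 2 * (1 / s) ^ 2 := by
    refine (norm_add_le _ _).trans ?_
    have h1 : ‖rdiag fun i => q i / s - 2 * p i‖ ≤ b ^ 2 / 4 * (1 / s) ^ 2 :=
      norm_rdiag_le (by positivity) fun i => (hp0 i).2.2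
    have h2 : ‖(3 : ℝ) • (P * P)‖ ≤ 3 * ((b / 2 * (1 / s)) * (b / 2 * (1 / s))) := by
      rw [norm_smul, Real.norm_eq_abs, abs_of_pos (by norm_num : (0:ℝ) < 3)]
      exact mul_le_mul_of_nonneg_left ((norm_mul_le _ _).trans
        (mul_le_mul hPn hPn (norm_nonneg _) (by positivity))) (by norm_num)
    linarith [show b ^ 2 / 4 * (1 / s) ^ 2 + 3 * ((b / 2 * (1 / s)) * (b / 2 * (1 / s))) =
      b ^ 2 * (1 / s) ^ 2 by ring]
  set L : CMat N := (-2 : ℝ) • R + (3 : ℝ) • (P * R + R * P) with hL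
  set T : CMat N := (1 / s) • (1 : CMat N) - (1 / s ^ 2) • (rdiag q - A * A) with hT
  set g : ℝ → CMat N := fun t =>
    t • ((1 / s) • L) + (3 * t ^ 2 - 1) • ((1 / s) • (R * R)) with hg
  have hgi : IntervalIntegrable g volume (-1) 1 := (by fun_prop : Continuous g).intervalIntegrable _ _
  have hg0 : ∫ t in (-1 : ℝ)..1, g t = 0 := by
    simp only [hg]
    rw [intervalIntegral.integral_add ((by fun_prop : Continuous _).intervalIntegrable _ _)
      ((by fun_prop : Continuous _).intervalIntegrable _ _),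
      intervalIntegral.integral_smul_const, intervalIntegral.integral_smul_const,
      intervalIntegral.integral_sub ((by fun_prop : Continuous _).intervalIntegrable _ _)
      ((by fun_prop : Continuous _).intervalIntegrable _ _),
      intervalIntegral.integral_const_mul, integral_id, integral_pow]
    norm_num
  have hFi : IntervalIntegrable (fun t => (xmat q A s t)⁻¹ * (xmat q A s t)⁻¹) volume (-1) 1 :=
    (hA.continuousOn_sq_inv hs0.le).intervalIntegrable
  have key : ∀ t ∈ Icc (-1 : ℝ) 1,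
      ‖(xmat q A s t)⁻¹ * (xmat q A s t)⁻¹ - g t - T‖ ≤
        (1 / s) * (b ^ 2 * (1 / s) ^ 2 + 22 * (b * ε) ^ 3) := by
    intro t ht
    set X := xmat q A s t with hX
    set D := P + t • R with hD
    have hXD : X = r • (1 + D) := by
      rw [hD, ← add_assoc, ← hkap, smul_add, hR, smul_smul, smul_smul, smul_smul, hε,
        mul_inv_cancel₀ hr0.ne', one_smul, show r * t * r⁻¹ = t by field_simp, hX, xmat]
    set Y := r • X⁻¹ with hYdef
    have hY : Y * (1 + D) = 1 := by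
      rw [hYdef, Matrix.smul_mul, ← Matrix.mul_smul, ← hXD,
        Matrix.nonsing_inv_mul _ (hA.isUnit_xmat hs0.le ht)]
    have hF : X⁻¹ * X⁻¹ = (1 / s) • (Y * Y) := by
      rw [hYdef, Matrix.smul_mul, Matrix.mul_smul, smul_smul, smul_smul, mul_assoc, hr2,
        one_div_mul_cancel hs0.ne', one_smul]
    have hDn : ‖D‖ ≤ b * ε := by
      refine (norm_add_le _ _).trans ?_
      have h1 : ‖t • R‖ ≤ ε * max a 0 := by
        rw [norm_smul, Real.norm_eq_abs]
        exact (mul_le_of_le_one_left (norm_nonneg _) (abs_le.mpr ⟨ht.1, ht.2⟩)).trans hRn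
      have h2 : 1 / s ≤ ε := by rw [← hεε]; exact mul_le_of_le_one_left hε0.le hε1
      have h3 : b / 2 * (1 / s) ≤ b / 2 * ε := mul_le_mul_of_nonneg_left h2 (by linarith)
      have h4 : ‖P‖ ≤ (∑ i, q i) * ε := norm_rdiag_le (mul_nonneg hsum hε0.le) fun i => by
        rw [abs_of_nonneg (hp0 i).1]
        have hu : q i / s ≤ (∑ i, q i) * ε := by
          rw [div_eq_mul_one_div]
          exact mul_le_mul (single_le_sum (fun j _ => (hq j).le) (Finset.mem_univ i)) h2
            (by positivity) hsum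
        have := (hp0 i).2.2
        have hw : 2 * p i ≤ q i / s := by
          have hw' : Real.sqrt (1 + q i / s) ^ 2 = 1 + q i / s :=
            Real.sq_sqrt (by have := div_pos (hq i) hs0; linarith)
          simp only [hp]
          nlinarith [sq_nonneg (Real.sqrt (1 + q i / s) - 1)]
        linarith [(hp0 i).1]
      calc ‖P‖ + ‖t • R‖ ≤ (∑ i, q i) * ε + ε * max a 0 := add_le_add h4 h1
        _ = b * ε := by rw [hb]; ring
    have hE := norm_inv_sq_expand hY hDn hbε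
    have hqs : (1 / s ^ 2) • rdiag q = (1 / s) • rdiag fun i => q i / s := by
      rw [rdiag_smul, rdiag_smul]
      refine congrArg rdiag (funext fun i => ?_)
      field_simp
    have hC' : C = (rdiag fun i => q i / s) - (2 : ℝ) • P + (3 : ℝ) • (P * P) := by
      rw [hC, hP, rdiag_smul, rdiag_sub]
    have e : X⁻¹ * X⁻¹ - g t - T =
        (1 / s) • ((Y * Y - (1 - (2 : ℝ) • D + (3 : ℝ) • (D * D))) + C) := by
      have hRR : (1 / s ^ 2) • (A * A) = (1 / s) • (R * R) := by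
        rw [hR, Matrix.smul_mul, Matrix.mul_smul, smul_smul, smul_smul, mul_assoc, hεε]
        congr 1
        ring
      rw [hF, hC', hT, smul_sub (1 / s ^ 2), hqs, hRR]
      simp only [hg, hD, hL, add_mul, mul_add, smul_mul_assoc, mul_smul_comm]
      module
    rw [e, norm_smul, Real.norm_eq_abs, abs_of_pos (by positivity)]
    exact mul_le_mul_of_nonneg_left ((norm_add_le _ _).trans
      ((add_le_add hE hCn).trans (add_comm _ _).le)) (by positivity)
  have e : jmat q A s - (1 / s) • (1 : CMat N) + (1 / s ^ 2) • (rdiag q - A * A) =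
      (1 / 2 : ℝ) • ∫ t in (-1 : ℝ)..1, ((xmat q A s t)⁻¹ * (xmat q A s t)⁻¹ - g t - T) := by
    rw [intervalIntegral.integral_sub (hFi.sub hgi) intervalIntegrable_const,
      intervalIntegral.integral_sub hFi hgi, hg0, sub_zero, intervalIntegral.integral_const,
      smul_sub]
    simp only [jmat, hT]
    norm_num [smul_smul]
    module
  rw [e, norm_smul, Real.norm_eq_abs, abs_of_pos (by norm_num : (0:ℝ) < 1 / 2)]
  have hI := intervalIntegral.norm_integral_le_of_norm_le_const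
    (a := (-1 : ℝ)) (b := 1) (C := (1 / s) * (b ^ 2 * (1 / s) ^ 2 + 22 * (b * ε) ^ 3))
    (f := fun t => (xmat q A s t)⁻¹ * (xmat q A s t)⁻¹ - g t - T) fun t ht => by
      rw [Set.uIoc_of_le (by norm_num)] at ht
      exact key t (Ioc_subset_Icc_self ht)
  refine (mul_le_mul_of_nonneg_left hI (by norm_num)).trans ?_
  have hrp : s ^ (-(5 / 2) : ℝ) = ε ^ 5 := by
    rw [hε, hr, Real.sqrt_eq_rpow, ← Real.rpow_neg hs0.le, ← Real.rpow_natCast,
      ← Real.rpow_mul hs0.le]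
    norm_num
  rw [hrp, ← hεε]
  norm_num
  have h6 : ε ^ 6 ≤ ε ^ 5 := pow_le_pow_of_le_one hε0.le hε1 (by norm_num)
  nlinarith [mul_le_mul_of_nonneg_left h6 (sq_nonneg b)]

end Vale.Agent.P371.Full
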