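import Vale.Agent.P371.Full.CritScalar
import Vale.Agent.P371.Full.JExpand

/-!
The pointwise matrix criterion.
-/

namespace Vale.Agent.P371.Full

open MeasureTheory Finset Matrix Filter Topology Set
open scoped ComplexOrder ComplexConjugate Matrix.Norms.L2Operator

variable {N : ℕ} {q : Fin N → ℝ} {A : CMat N}

/-- `tr (B P)` where `P = ∫_0^∞ s^(ℓ-1) (1 - s J_s) ds`. -/
noncomputable def pairing (ℓ : ℝ) (q : Fin N → ℝ) (A B : CMat N) : ℝ :=
  ∫ s in Ioi (0 : ℝ), s ^ (ℓ - 1) * (rtr B 1 - s * rtr B (jmat q A s))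

lemma bound_extend {f : ℝ → ℝ} (hf : ContinuousOn f (Ici 1)) {c s0 e : ℝ} (hs0 : 1 ≤ s0)
    (hc : 0 ≤ c) (he : e ≤ 0) (hb : ∀ s, s0 ≤ s → |f s| ≤ c * s ^ e) :
    ∃ c', 0 ≤ c' ∧ ∀ s, 1 ≤ s → |f s| ≤ c' * s ^ e := by
  obtain ⟨B, hB⟩ := (isCompact_Icc (a := (1 : ℝ)) (b := s0)).exists_bound_of_continuousOn
    (hf.mono fun s hs => hs.1)
  have hB0 : 0 ≤ B := (norm_nonneg _).trans (hB 1 ⟨le_rfl, hs0⟩)
  have h0 : 0 < s0 := by linarith
  refine ⟨c + B * s0 ^ (-e), by positivity, fun s hs => ?_⟩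
  have hs' : 0 < s := by linarith
  rcases le_or_gt s0 s with h | h
  · refine (hb s h).trans (mul_le_mul_of_nonneg_right ?_ (Real.rpow_nonneg hs'.le _))
    exact le_add_of_nonneg_right (by positivity)
  · calc |f s| ≤ B := by simpa using hB s ⟨hs, h.le⟩
      _ = B * s0 ^ (-e) * s0 ^ e := by
          rw [mul_assoc, ← Real.rpow_add h0, neg_add_cancel, Real.rpow_zero, mul_one]
      _ ≤ B * s0 ^ (-e) * s ^ e :=
          mul_le_mul_of_nonneg_left (Real.rpow_le_rpow_of_nonpos hs' h.le he) (by positivity)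
      _ ≤ _ := mul_le_mul_of_nonneg_right (le_add_of_nonneg_left hc) (Real.rpow_nonneg hs'.le _)

lemma rtr_rdiag (V : CMat N) (y : Fin N → ℝ) (M : CMat N) :
    rtr (V * rdiag y * Vᴴ) M = ∑ i, y i * ((Vᴴ * M * V) i i).re := by
  rw [rtr_apply, Matrix.mul_assoc, Matrix.mul_assoc, trace_mul_comm, Matrix.mul_assoc,
    Matrix.mul_assoc, trace, Complex.re_sum]
  refine sum_congr rfl fun i _ => ?_
  rw [Matrix.diag, rdiag, Matrix.diagonal_mul, Complex.re_ofReal_mul, ← Matrix.mul_assoc]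

lemma rtr_one_eq (V : CMat N) (hV : Vᴴ * V = 1) (M : CMat N) :
    rtr 1 M = ∑ i, ((Vᴴ * M * V) i i).re := by
  have h := rtr_rdiag V (fun _ => 1) M
  rw [rdiag_one, Matrix.mul_one, mul_eq_one_comm.mp hV] at h
  simpa using h

lemma hasDerivAt_kap (hq : ∀ i, 0 < q i) {s : ℝ} (hs : 0 ≤ s) :
    HasDerivAt (kap q) ((1 / 2 : ℝ) • (kap q s)⁻¹) s := by
  have hk : ∀ i, 0 < Real.sqrt (q i + s) := fun i => Real.sqrt_pos.mpr (by linarith [hq i])
  have h : HasDerivAt (fun u i => Real.sqrt (q i + u)) (fun i => 1 / (2 * Real.sqrt (q i + s))) s :=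
    hasDerivAt_pi.mpr fun i => ((hasDerivAt_id s).const_add (q i)).sqrt (by simp; linarith [hq i])
  let D : (Fin N → ℝ) →L[ℝ] CMat N := LinearMap.toContinuousLinearMap
    { toFun := rdiag
      map_add' := fun d e => (rdiag_add d e).symm
      map_smul' := fun c d => (rdiag_smul c d).symm }
  refine (D.hasFDerivAt.comp_hasDerivAt s h).congr_deriv ?_
  rw [kap, rdiag_inv fun i => (hk i).ne', rdiag_smul]
  show rdiag _ = rdiag _
  refine congrArg rdiag (funext fun i => ?_)
  field_simp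

lemma log_det_xmat_limit (q : Fin N → ℝ) (A : CMat N) (t : ℝ) :
    Tendsto (fun s => Real.log (xmat q A s t).det.re - (N / 2 : ℝ) * Real.log s) atTop (𝓝 0) := by
  set G : ℝ → CMat N := fun u => rdiag (fun i => Real.sqrt (u * q i + 1)) + (t * Real.sqrt u) • A
  have hG : Continuous G := (Continuous.matrix_diagonal (continuous_pi fun i =>
    Complex.continuous_ofReal.comp (by fun_prop))).add ((by fun_prop : Continuous fun u : ℝ => t * Real.sqrt u).smul continuous_const)
  have hG0 : G 0 = 1 := by simp [G, rdiag_one]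
  have hl : Tendsto (fun s : ℝ => (G (1 / s)).det.re) atTop (𝓝 1) := by
    have h := ((Complex.continuous_re.comp hG.matrix_det).tendsto 0).comp
      (show Tendsto (fun s : ℝ => 1 / s) atTop (𝓝 0) from
        tendsto_const_nhds.div_atTop tendsto_id)
    simpa [Function.comp_def, hG0] using h
  have hlog : Tendsto (fun s : ℝ => Real.log (G (1 / s)).det.re) atTop (𝓝 0) := by
    simpa using hl.log one_ne_zero
  refine hlog.congr' ?_
  filter_upwards [eventually_ge_atTop 1, hl.eventually_const_lt (show (0 : ℝ) < 1 by norm_num),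
    eventually_ge_atTop (1 + ∑ i, |q i|)] with s hs hpos hsq
  have hs0 : 0 < s := by linarith
  have hqs : ∀ i, 0 ≤ q i + s := fun i => by
    have := single_le_sum (f := fun j => |q j|) (fun _ _ => abs_nonneg _) (mem_univ i)
    linarith [neg_abs_le (q i)]
  have hss : 0 < Real.sqrt s := Real.sqrt_pos.mpr hs0
  have e : xmat q A s t = ((Real.sqrt s : ℝ) : ℂ) • G (1 / s) := by
    rw [show ((Real.sqrt s : ℝ) : ℂ) • G (1 / s) = Real.sqrt s • G (1 / s) from
      (Complex.coe_smul _ _), smul_add, rdiag_smul, smul_smul, xmat, kap]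
    congr 1
    · refine congrArg rdiag (funext fun i => ?_)
      rw [← Real.sqrt_mul hs0.le]
      congr 1
      field_simp
    · rw [← mul_assoc, mul_comm _ t, mul_assoc, ← Real.sqrt_mul hs0.le,
        mul_one_div_cancel hs0.ne', Real.sqrt_one, mul_one]
  rw [e, det_smul, Fintype.card_fin, ← Complex.ofReal_pow, Complex.re_ofReal_mul,
    Real.log_mul (by positivity) hpos.ne', Real.log_pow, Real.log_sqrt hs0.le]
  ring

lemma jmat_asymp (h : Dom q A) :
    ∃ c, 0 ≤ c ∧ ∀ s, 1 ≤ s → ∀ B : CMat N,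
      |rtr B (jmat q A s) - rtr B 1 / s + rtr B (rdiag q - A * A) / s ^ 2| ≤
          ‖rtr B‖ * c * s ^ (-(5 / 2) : ℝ) ∧
      |rtr B (jmat q A s) - rtr B 1 / s| ≤ ‖rtr B‖ * c / s ^ 2 := by
  set J : ℝ → CMat N := fun s => jmat q A (max s 0) with hJ
  have hJc : Continuous J := continuous_jmat continuous_const (by fun_prop) (fun _ => h)
    fun s => le_max_right s 0
  have hJe : ∀ s, 0 ≤ s → J s = jmat q A s := fun s hs => by simp [hJ, max_eq_left hs]
  set R := rdiag q - A * A with hR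
  obtain ⟨c, s0, hs0, hc, hexp⟩ := jmat_expand q h.pos ‖A‖
  have hb : ∀ s, s0 ≤ s → ‖J s - (1 / s) • (1 : CMat N) + (1 / s ^ 2) • R‖ ≤
      c * s ^ (-(5 / 2) : ℝ) := fun s hs => by
    rw [hJe s (by linarith)]; exact hexp A h le_rfl s hs
  obtain ⟨c', hc', hb'⟩ := bound_extend
    (f := fun s => ‖J s - (1 / s) • (1 : CMat N) + (1 / s ^ 2) • R‖)
    (by
      refine (((hJc.continuousOn).sub ?_).add ?_).norm
      · exact (continuousOn_const.div continuousOn_id fun s (hs : (1 : ℝ) ≤ s) =>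
          (show s ≠ 0 by linarith)).smul continuousOn_const
      · exact (continuousOn_const.div (continuousOn_id.pow 2) fun s (hs : (1 : ℝ) ≤ s) =>
          pow_ne_zero 2 (show s ≠ 0 by linarith)).smul continuousOn_const)
    hs0 hc (by norm_num : (-(5 / 2) : ℝ) ≤ 0) fun s hs => by rw [abs_norm]; exact hb s hs
  simp only [abs_norm] at hb'
  refine ⟨c' + ‖R‖, by positivity, fun s hs B => ?_⟩
  have hs' : 0 < s := by linarith
  have h52 : s ^ (-(5 / 2) : ℝ) ≤ 1 / s ^ 2 := by
    rw [one_div, ← Real.rpow_natCast, ← Real.rpow_neg hs'.le]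
    exact Real.rpow_le_rpow_of_exponent_le hs (by norm_num)
  have hbs := hb' s hs
  rw [hJe s hs'.le] at hbs
  have h2 := ((rtr B).le_opNorm _).trans (mul_le_mul_of_nonneg_left hbs (norm_nonneg (rtr B)))
  rw [map_add, map_sub, _root_.map_smul, _root_.map_smul, Real.norm_eq_abs, smul_eq_mul,
    smul_eq_mul, ← mul_div_right_comm, ← mul_div_right_comm, one_mul, one_mul, ← mul_assoc] at h2
  have hR0 : 0 ≤ ‖rtr B‖ * ‖R‖ := by positivity
  refine ⟨h2.trans (mul_le_mul_of_nonneg_right ?_ (Real.rpow_nonneg hs'.le _)), ?_⟩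
  · rw [mul_add]; linarith
  · have h3 : |rtr B R / s ^ 2| ≤ ‖rtr B‖ * ‖R‖ / s ^ 2 := by
      rw [abs_div, abs_of_pos (pow_pos hs' 2)]
      gcongr
      exact (rtr B).le_opNorm R
    have h4 : ‖rtr B‖ * c' * s ^ (-(5 / 2) : ℝ) ≤ ‖rtr B‖ * c' / s ^ 2 := by
      rw [div_eq_mul_one_div (‖rtr B‖ * c')]
      exact mul_le_mul_of_nonneg_left h52 (by positivity)
    rw [mul_add, add_div]
    have := abs_sub (rtr B (jmat q A s) - rtr B 1 / s + rtr B R / s ^ 2) (rtr B R / s ^ 2)
    rw [add_sub_cancel_right] at this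
    linarith

lemma trace_bound' (h : Dom q A) {s : ℝ} (hs : 0 ≤ s) :
    rtr (rdiag q - A * A) (jmat q A s) + s * rtr 1 (jmat q A s) ≤ N := by
  refine le_trans (le_of_eq ?_) (h.trace_bound hs)
  have e : kap q s * kap q s = rdiag q + s • 1 := by
    rw [kap, rdiag_mul, ← rdiag_one, rdiag_smul, rdiag_add]
    exact congrArg rdiag (funext fun i => by
      rw [Real.mul_self_sqrt (by linarith [h.pos i]), mul_one])
  simp only [rtr_apply, e, Matrix.add_mul, Matrix.sub_mul, Matrix.one_mul, Matrix.smul_mul,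
    trace_add, trace_sub, trace_smul, Complex.add_re, Complex.sub_re, Complex.real_smul,
    Complex.re_ofReal_mul]
  ring

lemma hasDerivAt_logdets (h : Dom q A) {s : ℝ} (hs : 0 ≤ s) :
    HasDerivAt (fun s => -Real.log (xmat q A s 1).det.re - Real.log (xmat q A s (-1)).det.re)
      (-((1 / 2) * rtr (kap q s)⁻¹ ((xmat q A s 1)⁻¹ + (xmat q A s (-1))⁻¹))) s := by
  have hd : ∀ t ∈ Icc (-1 : ℝ) 1, HasDerivAt (fun u => Real.log (xmat q A u t).det.re)
      ((1 / 2) * rtr (kap q s)⁻¹ (xmat q A s t)⁻¹) s := by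
    intro t ht
    refine (hasDerivAt_log_det (M := fun u => xmat q A u t)
      ((hasDerivAt_kap h.pos hs).add_const (t • A)) (h.xmat_posDef hs ht)).congr_deriv ?_
    rw [Matrix.mul_smul, trace_smul, Complex.real_smul, Complex.re_ofReal_mul, trace_mul_comm,
      rtr_apply]
  refine ((hd 1 ⟨by norm_num, le_rfl⟩).neg.sub (hd (-1) ⟨le_rfl, by norm_num⟩)).congr_deriv ?_
  rw [map_add]
  ring


/-- The pointwise criterion. -/
theorem criterion {ℓ : ℝ} (h0 : 0 < ℓ) (h1 : ℓ < 1) (h : Dom q A) (V : CMat N) (hV : Vᴴ * V = 1)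
    (y : Fin N → ℝ) (hy : ∀ i, 0 ≤ y i) :
    0 ≤ ℓ * pairing ℓ q A (rdiag q - A * A) - (ℓ + 1) * pairing ℓ q A (V * rdiag y * Vᴴ) +
      betaC ℓ * ∑ i, y i ^ (1 + ℓ) := by
  set J : ℝ → CMat N := fun s => jmat q A (max s 0) with hJ
  have hJc : Continuous J := continuous_jmat continuous_const (by fun_prop) (fun _ => h)
    fun s => le_max_right s 0
  have hJe : ∀ s, 0 ≤ s → J s = jmat q A s := fun s hs => by simp [hJ, max_eq_left hs]
  set R := rdiag q - A * A with hR
  set L : Fin N → (CMat N →L[ℝ] ℝ) := fun i => rtr (V * rdiag (Pi.single i 1) * Vᴴ) with hL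
  have hLi : ∀ i M, L i M = ((Vᴴ * M * V) i i).re := fun i M => by
    rw [hL, rtr_rdiag]; simp [Pi.single_apply]
  obtain ⟨c, hc, hexp⟩ := jmat_asymp h
  set C := ((∑ i, ‖L i‖) + ‖rtr R‖) * c with hC
  have hC1 : ∀ i, ‖L i‖ * c ≤ C := fun i => by
    refine mul_le_mul_of_nonneg_right ?_ hc
    exact (single_le_sum (f := fun j => ‖L j‖) (fun _ _ => norm_nonneg _) (mem_univ i)).trans
      (le_add_of_nonneg_right (norm_nonneg _))
  have hr : rtr R 1 = ∑ i, L i R := by
    simp only [hLi]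
    rw [← rtr_one_eq V hV, rtr_apply, rtr_apply, Matrix.mul_one, Matrix.one_mul]
  have key := scalar_criterion (c := C) h0 h1 (fun i s => L i (J s)) (fun s => rtr R (J s))
    (fun s => -Real.log (xmat q A s 1).det.re - Real.log (xmat q A s (-1)).det.re)
    (fun s => -((1 / 2) * rtr (kap q s)⁻¹ ((xmat q A s 1)⁻¹ + (xmat q A s (-1))⁻¹)))
    (fun i => L i R) y (rtr R 1) hy hr.symm (by positivity)
    (fun i => (L i).continuous.comp hJc) ((rtr R).continuous.comp hJc)
    ?_ ?_ ?_ ?_ ?_ ?_ ?_ ?_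
  · have e1 : (∫ s in Ioi (0 : ℝ), s ^ (ℓ - 1) * (rtr R 1 - s * rtr R (J s))) =
        pairing ℓ q A R := by
      refine setIntegral_congr_fun measurableSet_Ioi fun s (hs : 0 < s) => ?_
      simp only [hJe s hs.le]
    have e2 : (∫ s in Ioi (0 : ℝ), s ^ (ℓ - 1) * ∑ i, y i * (1 - s * L i (J s))) =
        pairing ℓ q A (V * rdiag y * Vᴴ) := by
      refine setIntegral_congr_fun measurableSet_Ioi fun s (hs : 0 < s) => ?_
      simp only [rtr_rdiag, hJe s hs.le, hLi, Matrix.mul_one, hV]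
      refine congrArg (s ^ (ℓ - 1) * ·) ?_
      simp only [Matrix.one_apply_eq, Complex.one_re, mul_one, mul_sum, ← sum_sub_distrib]
      exact sum_congr rfl fun i _ => by ring
    rw [e1, e2] at key
    exact key
  · intro i s hs
    rw [hLi, hJe s hs]
    exact diag_re_pos ((h.det_jmat hs).1.conjTranspose_mul_mul_same
      (mulVec_injective_iff_isUnit.mpr (IsUnit.of_mul_eq_one_right _ hV))) i
  · intro i s hs
    have h3 : L i 1 = 1 := by rw [hLi, Matrix.mul_one, hV]; simp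
    have h2 := (hexp s hs (V * rdiag (Pi.single i 1) * Vᴴ)).1
    change |L i (jmat q A s) - L i 1 / s + L i R / s ^ 2| ≤ ‖L i‖ * c * _ at h2
    rw [h3] at h2
    rw [hJe s (by linarith)]
    exact h2.trans (mul_le_mul_of_nonneg_right (hC1 i) (Real.rpow_nonneg (by linarith) _))
  · intro s hs
    rw [hJe s (by linarith)]
    refine (hexp s hs R).2.trans ?_
    gcongr
    exact mul_le_mul_of_nonneg_right (le_add_of_nonneg_left (sum_nonneg fun _ _ => norm_nonneg _)) hc
  · intro s hs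
    have h2 := trace_bound' h hs
    simp only [hLi, hJe s hs, ← rtr_one_eq V hV]
    exact h2
  · intro s hs; exact hasDerivAt_logdets h hs
  · intro s hs
    have h2 := h.trace_jmat_le hs
    simp only [hLi, hJe s hs, ← rtr_one_eq V hV]
    linarith
  · have := ((log_det_xmat_limit q A 1).add (log_det_xmat_limit q A (-1))).neg
    rw [add_zero, neg_zero] at this
    refine this.congr fun s => ?_
    ring
  · intro s hs
    refine (h.det_jmat hs).2.trans ?_
    have hp := (h.det_jmat hs).1.conjTranspose_mul_mul_same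
      (mulVec_injective_iff_isUnit.mpr (IsUnit.of_mul_eq_one_right _ hV))
    simp only [hLi, hJe s hs]
    rw [← Real.log_prod fun i _ => (diag_re_pos hp i).ne']
    refine Real.log_le_log (det_re_pos (h.det_jmat hs).1) ?_
    have h3 := det_re_le_prod_diag hp
    rwa [det_mul_right_comm, hV, Matrix.one_mul] at h3

end Vale.Agent.P371.Full
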