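import Mathlib

/-!
Definitions and module interfaces for the sharp one-dimensional Lieb-Thirring inequality,
`1/2 < γ < 3/2`, matrix potentials.
-/

namespace Vale.Agent.P371.Full

open MeasureTheory Finset Matrix
open scoped ComplexOrder ComplexConjugate Matrix.Norms.L2Operator

/-- Complex square matrices. -/
abbrev CMat (N : ℕ) := Matrix (Fin N) (Fin N) ℂ

variable {m N : ℕ}

/-- `tr (A ^ p)` of a Hermitian matrix, via its eigenvalues (`0` if `A` is not Hermitian). -/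
noncomputable def trRpow (A : CMat m) (p : ℝ) : ℝ :=
  if h : A.IsHermitian then ∑ i, h.eigenvalues i ^ p else 0

/-- A potential: measurable, pointwise positive semidefinite, `∫ tr (W ^ (γ + 1/2)) < ∞`. -/
structure IsPotential (γ : ℝ) (W : ℝ → CMat m) : Prop where
  measurable : ∀ a b, Measurable fun x => W x a b
  posSemidef : ∀ x, (W x).PosSemidef
  integrable : Integrable fun x => trRpow (W x) (γ + 1 / 2)

/-- `∫ tr (W ^ (γ + 1/2))`. -/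
noncomputable def potentialNorm (γ : ℝ) (W : ℝ → CMat m) : ℝ :=
  ∫ x, trRpow (W x) (γ + 1 / 2)

/-- An orthonormal family in `L²(ℝ; ℂ^m)` of `C¹` functions with derivatives in `L²`. -/
structure IsTrialFamily (ψ : Fin N → ℝ → EuclideanSpace ℂ (Fin m)) : Prop where
  contDiff : ∀ j, ContDiff ℝ 1 (ψ j)
  memLp : ∀ j, MemLp (ψ j) 2 volume
  memLp_deriv : ∀ j, MemLp (deriv (ψ j)) 2 volume
  orthonormal : ∀ j k, ∫ x, inner ℂ (ψ j x) (ψ k x) = if j = k then 1 else 0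

/-- The sesquilinear form of `-d²/dx² - W`. -/
noncomputable def formEntry (W : ℝ → CMat m) (f g : ℝ → EuclideanSpace ℂ (Fin m)) : ℂ :=
  (∫ x, inner ℂ (deriv f x) (deriv g x)) - ∫ x, ∑ a, ∑ b, conj (f x a) * W x a b * g x b

/-- The quotients whose supremum is `L_γ(m)`: `∑ e_j ^ γ / ∫ tr W^(γ+1/2)` over potentials and
finite orthonormal families on which the form of `-d²/dx² - W` is `diag (-e_j)`, `e_j > 0`. -/
def ltRatios (γ : ℝ) (m : ℕ) : Set ℝ :=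
  {r | ∃ W : ℝ → CMat m, IsPotential γ W ∧ 0 < potentialNorm γ W ∧
    ∃ (N : ℕ) (ψ : Fin N → ℝ → EuclideanSpace ℂ (Fin m)) (e : Fin N → ℝ), IsTrialFamily ψ ∧
      (∀ j, 0 < e j) ∧
      (∀ j k, formEntry W (ψ j) (ψ k) = if j = k then -(e j : ℂ) else 0) ∧
      r = (∑ j, e j ^ γ) / potentialNorm γ W}

/-- The quotients whose supremum is the one-bound-state constant `L_γ^{(1)}`. -/
def oneStateRatios (γ : ℝ) : Set ℝ :=
  {r | ∃ W : ℝ → CMat 1, IsPotential γ W ∧ 0 < potentialNorm γ W ∧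
    ∃ (ψ : Fin 1 → ℝ → EuclideanSpace ℂ (Fin 1)) (e : ℝ), IsTrialFamily ψ ∧ 0 < e ∧
      formEntry W (ψ 0) (ψ 0) = -(e : ℂ) ∧
      r = e ^ γ / potentialNorm γ W}

/-- Keller's closed formula `2 ((γ-1/2)/(γ+1/2))^(γ-1/2) Γ(γ+1)/(2 √π Γ(γ+3/2))`. -/
noncomputable def oneStateConst (γ : ℝ) : ℝ :=
  2 * ((γ - 1 / 2) / (γ + 1 / 2)) ^ (γ - 1 / 2) *
    (Real.Gamma (γ + 1) / (2 * Real.sqrt Real.pi * Real.Gamma (γ + 3 / 2)))

/-- `∫_{-1}^1 (1 - τ²)^ℓ`. -/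
noncomputable def sphInt (ℓ : ℝ) : ℝ := ∫ τ in (-1 : ℝ)..1, (1 - τ ^ 2) ^ ℓ

/-- The one-bound-state constant as it comes out of the calibration. -/
noncomputable def calibConst (γ : ℝ) : ℝ :=
  (γ - 1 / 2) ^ (γ - 1 / 2) / ((γ + 1 / 2) ^ (γ + 1 / 2) * sphInt (γ - 1 / 2))

/-- Interface: a solution of the matrix Riccati equation `A' = Q - A² - W` leading from `√Q` to
`-√Q` forces `tr Q^γ ≤ L^{(1)}_γ ∫ tr W^(γ+1/2)`. -/
def RiccatiTrace : Prop :=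
  ∀ (γ : ℝ), 1 / 2 < γ → γ < 3 / 2 → ∀ (N : ℕ) (X0 : ℝ), 0 < X0 →
    ∀ (Q K : CMat N) (A W : ℝ → CMat N), K.PosDef → K * K = Q →
      Continuous W → (∀ x, (W x).PosSemidef) → (∀ x, (A x).IsHermitian) →
      A (-X0) = K → A X0 = -K →
      (∀ x, HasDerivAt A (Q - A x * A x - W x) x) →
      (∀ x, (K - A x).PosSemidef ∧ (K + A x).PosSemidef) →
      trRpow Q γ ≤ calibConst γ * ∫ x in (-X0)..X0, trRpow (W x) (γ + 1 / 2)

/-- Interface: existence of the multiplier `Q` and of its Riccati path. -/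
def MultiplierExists : Prop :=
  ∀ (N : ℕ) (X0 : ℝ), 0 < X0 → ∀ (Wt : CMat N → ℝ → CMat N),
    Continuous (Function.uncurry Wt) → (∀ Q x, (Wt Q x).PosSemidef) →
    (∃ M, ∀ Q x, ‖Wt Q x‖ ≤ M) → (∀ Q x, X0 ≤ |x| → Wt Q x = 0) →
    (∀ Q (v : Fin N → ℂ), v ≠ 0 → ∃ x, 0 < (star v ⬝ᵥ Wt Q x *ᵥ v).re) →
    ∃ (Q K : CMat N) (A : ℝ → CMat N), K.PosDef ∧ K * K = Q ∧ (∀ x, (A x).IsHermitian) ∧
      (∀ x, x ≤ -X0 → A x = K) ∧ (∀ x, X0 ≤ x → A x = -K) ∧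
      (∀ x, HasDerivAt A (Q - A x * A x - Wt Q x) x) ∧
      (∀ x, (K - A x).PosSemidef ∧ (K + A x).PosSemidef)

/-- Interface: the Lieb-Thirring upper bound. -/
def UpperBound : Prop :=
  ∀ (γ : ℝ), 1 / 2 < γ → γ < 3 / 2 → ∀ (m : ℕ), ∀ r ∈ ltRatios γ m, r ≤ calibConst γ

end Vale.Agent.P371.Full
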