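import Mathlib

/-!
Determinant inequalities: Hadamard, monotonicity, Oppenheim; the derivative of `det` along a curve.
-/

namespace Vale.Agent.P371.Full

open Finset Matrix
open scoped ComplexOrder MatrixOrder

variable {n : Type*} [Fintype n] [DecidableEq n]

set_option linter.unusedSectionVars false

lemma diag_re_pos {M : Matrix n n ℂ} (hM : M.PosDef) (i : n) : 0 < (M i i).re :=
  (Complex.lt_def.mp (hM.diag_pos (i := i))).1

lemma det_re_eq_prod {M : Matrix n n ℂ} (hM : M.IsHermitian) :
    M.det.re = ∏ i, hM.eigenvalues i := by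
  rw [hM.det_eq_prod_eigenvalues]
  simp [← Complex.ofReal_prod]

lemma det_im_eq_zero {M : Matrix n n ℂ} (hM : M.IsHermitian) : M.det.im = 0 := by
  rw [hM.det_eq_prod_eigenvalues]
  simp [← Complex.ofReal_prod]

lemma det_re_pos {M : Matrix n n ℂ} (hM : M.PosDef) : 0 < M.det.re :=
  (Complex.lt_def.mp hM.det_pos).1

lemma re_mul_of_im_eq_zero {z w : ℂ} (hz : z.im = 0) : (z * w).re = z.re * w.re := by
  simp [Complex.mul_re, hz]

/-- A positive semidefinite matrix whose trace is at most its size has determinant at most one. -/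
lemma det_re_le_one {M : Matrix n n ℂ} (hM : M.PosDef) (ht : M.trace.re ≤ Fintype.card n) :
    M.det.re ≤ 1 := by
  have hd := hM.1.trace_eq_sum_eigenvalues
  have hd' : M.trace.re = ∑ i, hM.1.eigenvalues i := by
    rw [hd]; simp [Complex.re_sum]
  have h : Real.log M.det.re ≤ 0 := by
    rw [det_re_eq_prod hM.1, Real.log_prod fun i _ => (hM.eigenvalues_pos i).ne']
    refine (sum_le_sum fun i _ => Real.log_le_sub_one_of_pos (hM.eigenvalues_pos i)).trans ?_
    rw [sum_sub_distrib, ← hd']
    simpa using ht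
  exact (Real.log_nonpos_iff (det_re_pos hM).le).mp h

/-- Hadamard's inequality. -/
theorem det_re_le_prod_diag {M : Matrix n n ℂ} (hM : M.PosDef) :
    M.det.re ≤ ∏ i, (M i i).re := by
  set d : n → ℝ := fun i => (Real.sqrt (M i i).re)⁻¹ with hd
  have hd0 : ∀ i, 0 < d i := fun i => inv_pos.mpr (Real.sqrt_pos.mpr (diag_re_pos hM i))
  set D : Matrix n n ℂ := diagonal fun i => (d i : ℂ) with hD
  have hDH : Dᴴ = D := by simp [hD]
  have hDdet : D.det = ((∏ i, d i : ℝ) : ℂ) := by simp [hD, det_diagonal]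
  have hu : IsUnit D := by
    rw [Matrix.isUnit_iff_isUnit_det, hDdet, isUnit_iff_ne_zero]
    exact_mod_cast (prod_pos fun i _ => hd0 i).ne'
  have hP : (D * M * D).PosDef := by
    have := hM.conjTranspose_mul_mul_same (B := D) (mulVec_injective_iff_isUnit.mpr hu)
    rwa [hDH] at this
  have ht : (D * M * D).trace.re = Fintype.card n := by
    simp only [trace, Matrix.diag, hD, Matrix.mul_diagonal, Matrix.diagonal_mul, Complex.re_sum]
    refine (sum_congr rfl fun i _ => (?_ : _ = (1 : ℝ))).trans (by simp)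
    have := diag_re_pos hM i
    have hs := Real.mul_self_sqrt this.le
    simp only [Complex.mul_re, Complex.mul_im, Complex.ofReal_re, Complex.ofReal_im, hd]
    field_simp
    linarith [hs, sq (Real.sqrt (M i i).re)]
  have h := det_re_le_one hP ht.le
  rw [det_mul, det_mul, hDdet, mul_comm ((∏ i, d i : ℝ) : ℂ) M.det, mul_assoc,
    re_mul_of_im_eq_zero (det_im_eq_zero hM.1), ← Complex.ofReal_mul, Complex.ofReal_re,
    ← prod_mul_distrib] at h
  have e : ∏ i, d i * d i = (∏ i, (M i i).re)⁻¹ := by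
    rw [← prod_inv_distrib]
    refine prod_congr rfl fun i _ => ?_
    simp only [hd]
    rw [← mul_inv, Real.mul_self_sqrt (diag_re_pos hM i).le]
  rw [e, mul_inv_le_iff₀ (prod_pos fun i _ => diag_re_pos hM i), one_mul] at h
  exact h

/-- Adding a positive semidefinite matrix does not decrease the determinant. -/
theorem det_re_le_det_add {X E : Matrix n n ℂ} (hX : X.PosDef) (hE : E.PosSemidef) :
    X.det.re ≤ (X + E).det.re := by
  set S := CFC.sqrt X with hS
  have hSS : S * S = X := CFC.sqrt_mul_sqrt_self X hX.posSemidef.nonneg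
  have hSh : Sᴴ = S := (Matrix.nonneg_iff_posSemidef.mp (CFC.sqrt_nonneg X)).1
  have hSdet : IsUnit S.det := by
    rw [isUnit_iff_ne_zero]
    intro h
    have := det_re_pos hX
    rw [← hSS, det_mul, h] at this
    simp at this
  set F := S⁻¹ * E * S⁻¹ with hF
  have hFp : F.PosSemidef := by
    have := hE.conjTranspose_mul_mul_same S⁻¹
    rwa [conjTranspose_nonsing_inv, hSh] at this
  have e : X + E = S * (1 + F) * S := by
    simp only [hF, Matrix.mul_add, Matrix.add_mul, Matrix.mul_one, hSS]
    congr 1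
    simp only [Matrix.mul_assoc, Matrix.nonsing_inv_mul _ hSdet, Matrix.mul_one]
    rw [← Matrix.mul_assoc, Matrix.mul_nonsing_inv _ hSdet, Matrix.one_mul]
  have h1 : 1 ≤ (1 + F).det.re := by
    have hh := hFp.1.spectral_theorem
    simp only [Unitary.conjStarAlgAut_apply] at hh
    set V : Matrix n n ℂ := (hFp.1.eigenvectorUnitary : Matrix n n ℂ)
    have hV : V * star V = 1 := Unitary.coe_mul_star_self hFp.1.eigenvectorUnitary
    have hV' : V.det * (star V).det = 1 := by rw [← det_mul, hV, det_one]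
    have e1 : 1 + F = V * (1 + diagonal (RCLike.ofReal ∘ hFp.1.eigenvalues)) * star V := by
      rw [Matrix.mul_add, Matrix.add_mul, Matrix.mul_one, hV, ← hh]
    rw [e1, det_mul, det_mul, mul_right_comm, hV', one_mul, ← diagonal_one, diagonal_add,
      det_diagonal]
    have e2 : ∀ i, (1 : ℂ) + (RCLike.ofReal ∘ hFp.1.eigenvalues) i =
        ((1 + hFp.1.eigenvalues i : ℝ) : ℂ) := fun i => by simp
    rw [prod_congr rfl fun i _ => e2 i, ← Complex.ofReal_prod, Complex.ofReal_re]
    refine one_le_prod (fun i _ => ?_)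
    exact le_add_of_nonneg_right (hFp.eigenvalues_nonneg i)
  have e' : (X + E).det.re = X.det.re * (1 + F).det.re := by
    rw [e, det_mul, det_mul, mul_right_comm, ← det_mul, hSS,
      re_mul_of_im_eq_zero (det_im_eq_zero hX.1)]
  rw [e']
  exact le_mul_of_one_le_right (det_re_pos hX).le h1

lemma posSemidef_row_outer (u : Fin 1 → n → ℂ) {c : ℝ} (hc : 0 ≤ c) :
    ((c : ℂ) • ((Matrix.of u)ᴴ * Matrix.of u)).PosSemidef :=
  (posSemidef_conjTranspose_mul_self _).smul (by simpa using hc)

/-- Oppenheim's inequality. -/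
theorem oppenheim : ∀ {k : ℕ} {F B : Matrix (Fin k) (Fin k) ℂ}, F.PosSemidef →
    (∀ i, 0 < (F i i).re) → B.PosDef → B.det.re * ∏ i, (F i i).re ≤ (F ⊙ B).det.re := by
  intro k
  induction k with
  | zero => intro F B _ _ _; simp
  | succ k ih =>
    intro F B hF hFd hB
    let e : Fin 1 ⊕ Fin k ≃ Fin (k + 1) := (finSumFinEquiv).trans (finCongr (by omega))
    have key : ∀ M : Matrix (Fin (k + 1)) (Fin (k + 1)) ℂ, M 0 0 ≠ 0 →
        M.det = M 0 0 * (Matrix.of fun i j : Fin k =>
          M i.succ j.succ - M i.succ 0 * (M 0 0)⁻¹ * M 0 j.succ).det := by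
      intro M h0
      set A : Matrix (Fin 1) (Fin 1) ℂ := Matrix.of fun _ _ => M 0 0 with hA
      have hdA : A.det = M 0 0 := by simp [hA]
      let : Invertible A := Matrix.invertibleOfIsUnitDet A (by rw [hdA]; exact h0.isUnit)
      have hAi : A⁻¹ = Matrix.of fun _ _ => (M 0 0)⁻¹ := by
        refine Matrix.inv_eq_right_inv ?_
        ext i j
        fin_cases i; fin_cases j
        simp [hA, Matrix.mul_apply, h0]
      have hM : M.submatrix e e = fromBlocks A (Matrix.of fun _ j => M 0 j.succ)
          (Matrix.of fun i _ => M i.succ 0) (Matrix.of fun i j => M i.succ j.succ) := by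
        have e1 : ∀ i : Fin 1, e (Sum.inl i) = 0 := fun i => by
          apply Fin.ext; simp [e, finSumFinEquiv]
        have e2 : ∀ i : Fin k, e (Sum.inr i) = i.succ := fun i => by
          apply Fin.ext; simp [e, finSumFinEquiv]
        ext (i | i) (j | j) <;> simp [hA, e1, e2]
      rw [← det_submatrix_equiv_self e M, hM, det_fromBlocks₁₁, hdA, invOf_eq_nonsing_inv, hAi]
      congr 2
      ext i j
      simp [Matrix.mul_apply]
    have hb0 := diag_re_pos hB 0
    have hf0 := hFd 0
    have hB00 : B 0 0 = ((B 0 0).re : ℂ) := (hB.1.coe_re_apply_self 0).symm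
    have hF00 : F 0 0 = ((F 0 0).re : ℂ) := (hF.1.coe_re_apply_self 0).symm
    set B1 : Matrix (Fin k) (Fin k) ℂ := B.submatrix Fin.succ Fin.succ with hB1
    set B2 : Matrix (Fin k) (Fin k) ℂ :=
      Matrix.of fun i j : Fin k => B i.succ j.succ - B i.succ 0 * (B 0 0)⁻¹ * B 0 j.succ with hB2
    set F1 : Matrix (Fin k) (Fin k) ℂ := F.submatrix Fin.succ Fin.succ with hF1
    set F2 : Matrix (Fin k) (Fin k) ℂ :=
      Matrix.of fun i j : Fin k => F i.succ j.succ - F i.succ 0 * (F 0 0)⁻¹ * F 0 j.succ with hF2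
    -- congruence `v = (-(F 0 1) / F 00, 1)` gives positivity of the Schur complements
    have schur : ∀ M : Matrix (Fin (k + 1)) (Fin (k + 1)) ℂ, M.PosSemidef →
        0 < (M 0 0).re →
        (Matrix.of fun i j : Fin k =>
          M i.succ j.succ - M i.succ 0 * (M 0 0)⁻¹ * M 0 j.succ).PosSemidef := by
      intro M hM h0
      have h00 : M 0 0 ≠ 0 := fun h => by simp [h] at h0
      have hr : M 0 0 = ((M 0 0).re : ℂ) := (hM.1.coe_re_apply_self 0).symm
      set C : Matrix (Fin (k + 1)) (Fin k) ℂ := Matrix.of fun a j =>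
        Fin.cases (-((M 0 0)⁻¹ * M 0 j.succ)) (fun i => if i = j then 1 else 0) a with hC
      have := hM.conjTranspose_mul_mul_same C
      convert this using 1
      ext i j
      have h1 : ∀ a, (M * C) a j = M a j.succ - M a 0 * ((M 0 0)⁻¹ * M 0 j.succ) := fun a => by
        simp [Matrix.mul_apply, Fin.sum_univ_succ, hC]
        ring
      rw [Matrix.mul_assoc, Matrix.mul_apply, Fin.sum_univ_succ]
      simp only [h1, conjTranspose_apply]
      simp [hC, Matrix.of_apply]
      field_simp
      ring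
    have hB2psd : B2.PosSemidef := schur B hB.posSemidef hb0
    have hBdet : B.det = B 0 0 * B2.det := key B (fun h => by simp [h] at hb0)
    have hB2pd : B2.PosDef := hB2psd.posDef_iff_det_ne_zero.mpr fun h => by
      have := det_re_pos hB
      rw [hBdet, h] at this
      simp at this
    have hF2psd : F2.PosSemidef := schur F hF hf0
    have hF1psd : F1.PosSemidef := hF.submatrix _
    have hF1d : ∀ i, 0 < (F1 i i).re := fun i => hFd i.succ
    have h1 := ih hF1psd hF1d hB2pd
    have hpos : 0 < B2.det.re * ∏ i, (F1 i i).re :=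
      mul_pos (det_re_pos hB2pd) (prod_pos fun i _ => hF1d i)
    have hXpd : (F1 ⊙ B2).PosDef :=
      (hF1psd.hadamard hB2psd).posDef_iff_det_ne_zero.mpr fun h => by
        rw [h] at h1; simp at h1; linarith
    set O : Matrix (Fin k) (Fin k) ℂ :=
      (((B 0 0).re⁻¹ : ℝ) : ℂ) • ((Matrix.of fun (_ : Fin 1) j => B 0 (Fin.succ j))ᴴ *
        Matrix.of fun (_ : Fin 1) j => B 0 (Fin.succ j)) with hO
    have hOp : O.PosSemidef := posSemidef_row_outer _ (inv_nonneg.mpr hb0.le)
    have hprod : (F ⊙ B) 0 0 ≠ 0 := by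
      simp only [hadamard_apply]
      rw [hB00, hF00, ← Complex.ofReal_mul]
      exact_mod_cast (mul_pos hf0 hb0).ne'
    have hS : (Matrix.of fun i j : Fin k => (F ⊙ B) i.succ j.succ -
        (F ⊙ B) i.succ 0 * ((F ⊙ B) 0 0)⁻¹ * (F ⊙ B) 0 j.succ) = F1 ⊙ B2 + F2 ⊙ O := by
      ext i j
      have hBi : star (B 0 i.succ) = B i.succ 0 := hB.1.apply i.succ 0
      simp only [hadamard_apply, Matrix.add_apply, hB2, hF1, hF2, hO, submatrix_apply,
        Matrix.of_apply, Matrix.smul_apply, Matrix.mul_apply, conjTranspose_apply,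
        Fin.sum_univ_one, smul_eq_mul, Complex.ofReal_inv, ← hB00, hBi, mul_inv]
      ring
    have h2 := det_re_le_det_add hXpd (hF2psd.hadamard hOp)
    have e3 : (F ⊙ B).det.re = (F 0 0).re * (B 0 0).re * (F1 ⊙ B2 + F2 ⊙ O).det.re := by
      rw [key _ hprod, hS, hadamard_apply]
      conv_lhs => rw [hF00, hB00, ← Complex.ofReal_mul, Complex.re_ofReal_mul]
    have e4 : B.det.re = (B 0 0).re * B2.det.re := by
      rw [hBdet]; conv_lhs => rw [hB00, Complex.re_ofReal_mul]
    rw [e3, e4, Fin.prod_univ_succ]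
    calc (B 0 0).re * B2.det.re * ((F 0 0).re * ∏ i : Fin k, (F i.succ i.succ).re)
        = (F 0 0).re * (B 0 0).re * (B2.det.re * ∏ i, (F1 i i).re) := by
          simp only [hF1, submatrix_apply]; ring
      _ ≤ _ := mul_le_mul_of_nonneg_left (h1.trans h2) (mul_pos hf0 hb0).le

section deriv

open scoped Matrix.Norms.L2Operator

variable {k : ℕ}

lemma differentiable_det : Differentiable ℝ fun M : Matrix (Fin k) (Fin k) ℂ => M.det := by
  have h : ∀ i j, Differentiable ℝ fun M : Matrix (Fin k) (Fin k) ℂ => M i j := fun i j =>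
    (LinearMap.toContinuousLinearMap
      { toFun := fun M : Matrix (Fin k) (Fin k) ℂ => M i j
        map_add' := fun _ _ => rfl
        map_smul' := fun _ _ => rfl }).differentiable
  simp only [Matrix.det_apply']
  fun_prop

/-- Jacobi's formula. -/
theorem hasDerivAt_det {M : ℝ → Matrix (Fin k) (Fin k) ℂ} {M' : Matrix (Fin k) (Fin k) ℂ}
    {x : ℝ} (hM : HasDerivAt M M' x) (hu : IsUnit (M x).det) :
    HasDerivAt (fun y => (M y).det) ((M x).det * ((M x)⁻¹ * M').trace) x := by
  have hF := (differentiable_det (M x)).hasFDerivAt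
  refine (hF.comp_hasDerivAt x hM).congr_deriv ?_
  have hl : HasDerivAt (fun r : ℝ => M x + r • M') M' 0 := by
    simpa using ((hasDerivAt_id (0 : ℝ)).smul_const M').const_add (M x)
  have h1 := (show HasFDerivAt (fun N : Matrix (Fin k) (Fin k) ℂ => N.det) _ (M x + (0 : ℝ) • M')
    from by simpa using hF).comp_hasDerivAt (0 : ℝ) hl
  refine h1.unique ?_
  set G := (M x)⁻¹ * M'
  set P := (det (1 + (Polynomial.X : Polynomial ℂ) • G.map Polynomial.C)).divX.divX
  have e : (fun r : ℝ => (M x + r • M').det) =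
      fun r : ℝ => (M x).det * (1 + G.trace * (r : ℂ) + P.eval (r : ℂ) * (r : ℂ) ^ 2) := by
    funext r
    rw [← Matrix.det_one_add_smul, ← det_mul, Matrix.mul_add, Matrix.mul_one, Matrix.mul_smul,
      ← Matrix.mul_assoc, Matrix.mul_nonsing_inv _ hu, Matrix.one_mul]
    rfl
  show HasDerivAt (fun r : ℝ => (M x + r • M').det) _ _
  rw [e]
  have hp : HasDerivAt (fun z : ℂ => (M x).det * (1 + G.trace * z + P.eval z * z ^ 2))
      ((M x).det * G.trace) 0 := by
    have := ((((hasDerivAt_id (0 : ℂ)).const_mul G.trace).const_add 1).add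
      ((P.hasDerivAt 0).mul ((hasDerivAt_id (0 : ℂ)).pow 2))).const_mul (M x).det
    simpa using this
  simpa using (hp.comp_ofReal (z := (0 : ℝ)))

/-- Derivative of `log det` along a curve of positive definite matrices. -/
theorem hasDerivAt_log_det {M : ℝ → Matrix (Fin k) (Fin k) ℂ} {M' : Matrix (Fin k) (Fin k) ℂ}
    {x : ℝ} (hM : HasDerivAt M M' x) (hp : (M x).PosDef) :
    HasDerivAt (fun y => Real.log (M y).det.re) ((M x)⁻¹ * M').trace.re x := by
  have hu : IsUnit (M x).det := by
    rw [isUnit_iff_ne_zero]; exact fun h => by simpa [h] using det_re_pos hp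
  have h := Complex.reCLM.hasFDerivAt.comp_hasDerivAt x (hasDerivAt_det hM hu)
  refine ((show HasDerivAt (fun y => (M y).det.re) _ x from h).log (det_re_pos hp).ne').congr_deriv ?_
  simp only [Complex.reCLM_apply]
  rw [re_mul_of_im_eq_zero (det_im_eq_zero hp.1), mul_div_cancel_left₀ _ (det_re_pos hp).ne']

end deriv

end Vale.Agent.P371.Full
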