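import Vale.Agent.P371.Full.Defs
import Vale.Agent.P371.Full.Det

/-!
The matrix `J_s = ½ ∫_{-1}^1 (κ_s + t A)^{-2} dt`, `κ_s = √(Q + s)` with `Q` diagonal, and the
facts about it that feed the scalar criterion.
-/

namespace Vale.Agent.P371.Full

open MeasureTheory Finset Matrix Filter Topology Set
open scoped ComplexOrder ComplexConjugate Matrix.Norms.L2Operator

variable {N : ℕ}

/-- A real diagonal matrix. -/
noncomputable def rdiag (d : Fin N → ℝ) : CMat N := diagonal fun i => (d i : ℂ)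

lemma rdiag_conjTranspose (d : Fin N → ℝ) : (rdiag d)ᴴ = rdiag d := by
  simp [rdiag]

lemma rdiag_mul (d e : Fin N → ℝ) : rdiag d * rdiag e = rdiag fun i => d i * e i := by
  simp [rdiag]

lemma rdiag_one : rdiag (fun _ : Fin N => (1 : ℝ)) = 1 := by simp [rdiag]

lemma rdiag_add (d e : Fin N → ℝ) : rdiag d + rdiag e = rdiag fun i => d i + e i := by
  simp [rdiag]

lemma rdiag_smul (c : ℝ) (d : Fin N → ℝ) : c • rdiag d = rdiag fun i => c * d i := by
  ext i j
  rcases eq_or_ne i j with rfl | h <;> simp [rdiag, *]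

lemma rdiag_sub (d e : Fin N → ℝ) : rdiag d - rdiag e = rdiag fun i => d i - e i := by
  simp [rdiag]

lemma rdiag_posSemidef {d : Fin N → ℝ} (h : ∀ i, 0 ≤ d i) : (rdiag d).PosSemidef :=
  posSemidef_diagonal_iff.mpr fun i => Complex.zero_le_real.mpr (h i)

lemma rdiag_posDef {d : Fin N → ℝ} (h : ∀ i, 0 < d i) : (rdiag d).PosDef :=
  posDef_diagonal_iff.mpr fun i => Complex.zero_lt_real.mpr (h i)

lemma rdiag_inv {d : Fin N → ℝ} (h : ∀ i, d i ≠ 0) : (rdiag d)⁻¹ = rdiag fun i => (d i)⁻¹ := by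
  refine Matrix.inv_eq_right_inv ?_
  rw [rdiag_mul, ← rdiag_one]
  exact congrArg rdiag (funext fun i => mul_inv_cancel₀ (h i))

lemma norm_rdiag_le {d : Fin N → ℝ} {b : ℝ} (hb : 0 ≤ b) (h : ∀ i, |d i| ≤ b) :
    ‖rdiag d‖ ≤ b := by
  rw [rdiag, l2_opNorm_diagonal]
  exact (pi_norm_le_iff_of_nonneg hb).mpr fun i => by simpa using h i

lemma norm_one_le : ‖(1 : CMat N)‖ ≤ 1 := by
  rw [← rdiag_one]; exact norm_rdiag_le zero_le_one fun _ => by simp

/-- `κ_s = √(Q + s)`. -/
noncomputable def kap (q : Fin N → ℝ) (s : ℝ) : CMat N := rdiag fun i => Real.sqrt (q i + s)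

/-- `κ_s + t A`. -/
noncomputable def xmat (q : Fin N → ℝ) (A : CMat N) (s t : ℝ) : CMat N := kap q s + t • A

/-- `J_s`. -/
noncomputable def jmat (q : Fin N → ℝ) (A : CMat N) (s : ℝ) : CMat N :=
  (1 / 2 : ℝ) • ∫ t in (-1 : ℝ)..1, (xmat q A s t)⁻¹ * (xmat q A s t)⁻¹

/-- `Re tr (B M)` as a continuous linear functional of `M`. -/
noncomputable def rtr (B : CMat N) : CMat N →L[ℝ] ℝ :=
  LinearMap.toContinuousLinearMap
    { toFun := fun M => (trace (B * M)).re
      map_add' := fun M M' => by simp [Matrix.mul_add]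
      map_smul' := fun c M => by simp }

lemma rtr_apply (B M : CMat N) : rtr B M = (trace (B * M)).re := rfl

/-- The domain: `-√Q < A < √Q`. -/
structure Dom (q : Fin N → ℝ) (A : CMat N) : Prop where
  pos : ∀ i, 0 < q i
  plus : (kap q 0 + A).PosDef
  minus : (kap q 0 - A).PosDef

variable {q : Fin N → ℝ} {A : CMat N}

lemma Dom.herm (h : Dom q A) : A.IsHermitian := by
  have := h.plus.1
  have e : A = (kap q 0 + A) - kap q 0 := by abel
  rw [e]
  exact this.sub (rdiag_conjTranspose _)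

lemma kap_sub_posSemidef (q : Fin N → ℝ) {s : ℝ} (hs : 0 ≤ s) :
    (kap q s - kap q 0).PosSemidef := by
  rw [kap, kap, rdiag_sub]
  exact rdiag_posSemidef fun i => sub_nonneg.mpr (Real.sqrt_le_sqrt (by linarith))

lemma Dom.xmat_posDef (h : Dom q A) {s t : ℝ} (hs : 0 ≤ s) (ht : t ∈ Icc (-1 : ℝ) 1) :
    (xmat q A s t).PosDef := by
  have e : xmat q A s t = (((1 + t) / 2) • (kap q 0 + A) + ((1 - t) / 2) • (kap q 0 - A)) +
      (kap q s - kap q 0) := by
    rw [xmat]
    module
  rw [e]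
  refine PosDef.add_posSemidef ?_ (kap_sub_posSemidef q hs)
  rcases (show -1 ≤ t from ht.1).lt_or_eq with h1 | h1
  · refine (h.plus.smul (show (0 : ℝ) < (1 + t) / 2 by linarith)).add_posSemidef
      (h.minus.posSemidef.smul (show (0 : ℝ) ≤ (1 - t) / 2 by linarith [ht.2]))
  · rw [← h1]
    norm_num
    exact h.minus

lemma Dom.isUnit_xmat (h : Dom q A) {s t : ℝ} (hs : 0 ≤ s) (ht : t ∈ Icc (-1 : ℝ) 1) :
    IsUnit (xmat q A s t).det :=
  (Matrix.isUnit_iff_isUnit_det _).mp (h.xmat_posDef hs ht).isUnit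

lemma continuous_kap (q : Fin N → ℝ) : Continuous (kap q) :=
  Continuous.matrix_diagonal (continuous_pi fun i =>
    Complex.continuous_ofReal.comp (by fun_prop))

lemma hasDerivAt_inv {M : ℝ → CMat N} {M' : CMat N} {x : ℝ} (hM : HasDerivAt M M' x)
    (hu : IsUnit (M x).det) :
    HasDerivAt (fun y => (M y)⁻¹) (-((M x)⁻¹ * M' * (M x)⁻¹)) x := by
  obtain ⟨u, hu'⟩ := (Matrix.isUnit_iff_isUnit_det (M x)).mpr hu
  have h := (hasFDerivAt_ringInverse (𝕜 := ℝ) u)
  rw [hu'] at h
  have h2 := h.comp_hasDerivAt x hM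
  simp only [_root_.neg_apply, ContinuousLinearMap.mulLeftRight_apply] at h2
  have e : (↑u⁻¹ : CMat N) = (M x)⁻¹ := by rw [← hu', Matrix.coe_units_inv]
  rw [e] at h2
  refine h2.congr_of_eventuallyEq (Eventually.of_forall fun y => ?_)
  exact (Matrix.nonsing_inv_eq_ringInverse (A := M y))

lemma continuousAt_inv {X : Type*} [TopologicalSpace X] {M : X → CMat N} {x : X}
    (hM : ContinuousAt M x) (hu : IsUnit (M x).det) : ContinuousAt (fun y => (M y)⁻¹) x := by
  obtain ⟨u, hu'⟩ := (Matrix.isUnit_iff_isUnit_det (M x)).mpr hu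
  have h : ContinuousAt Ring.inverse (M x) := hu' ▸ NormedRing.inverse_continuousAt u
  exact (h.comp hM).congr
    (Eventually.of_forall fun y => (Matrix.nonsing_inv_eq_ringInverse (A := M y)).symm)

lemma continuous_jmat {P : Type*} [TopologicalSpace P] [FirstCountableTopology P]
    {a : P → CMat N} {σ : P → ℝ} (ha : Continuous a) (hσ : Continuous σ)
    (hd : ∀ p, Dom q (a p)) (hs : ∀ p, 0 ≤ σ p) : Continuous fun p => jmat q (a p) (σ p) := by
  set τ : ℝ → ℝ := fun t => max (-1) (min t 1) with hτ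
  have hτm : ∀ t, τ t ∈ Icc (-1 : ℝ) 1 := fun t => ⟨le_max_left _ _, max_le (by norm_num) (min_le_right _ _)⟩
  have hc : Continuous fun z : P × ℝ => (xmat q (a z.1) (σ z.1) (τ z.2))⁻¹ := by
    refine continuous_iff_continuousAt.mpr fun z => continuousAt_inv ?_ ((hd z.1).isUnit_xmat (hs _) (hτm _))
    exact ((((continuous_kap q).comp (hσ.comp continuous_fst))).add
      ((show Continuous fun z : P × ℝ => τ z.2 by fun_prop).smul (ha.comp continuous_fst))).continuousAt
  have h := intervalIntegral.continuous_parametric_intervalIntegral_of_continuous' (μ := volume)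
    (f := fun p t => (xmat q (a p) (σ p) (τ t))⁻¹ * (xmat q (a p) (σ p) (τ t))⁻¹)
    (by exact hc.mul hc) (-1) 1
  refine (h.const_smul (1 / 2 : ℝ)).congr fun p => ?_
  refine congrArg (fun M : CMat N => (1 / 2 : ℝ) • M) (intervalIntegral.integral_congr fun t ht => ?_)
  rw [Set.uIcc_of_le (by norm_num)] at ht
  simp [hτ, max_eq_right ht.1, min_eq_left ht.2]

lemma Dom.continuousOn_sq_inv (h : Dom q A) {s : ℝ} (hs : 0 ≤ s) :
    ContinuousOn (fun t => (xmat q A s t)⁻¹ * (xmat q A s t)⁻¹) (Set.uIcc (-1 : ℝ) 1) := by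
  rw [Set.uIcc_of_le (by norm_num)]
  intro t ht
  have h1 := continuousAt_inv (M := fun t => xmat q A s t) (x := t)
    (show ContinuousAt (fun t : ℝ => kap q s + t • A) t by fun_prop) (h.isUnit_xmat hs ht)
  exact (h1.mul h1).continuousWithinAt

lemma Dom.clm_jmat {E : Type*} [NormedAddCommGroup E] [NormedSpace ℝ E] [CompleteSpace E]
    (h : Dom q A) {s : ℝ} (hs : 0 ≤ s) (L : CMat N →L[ℝ] E) :
    L (jmat q A s) = (1 / 2 : ℝ) • ∫ t in (-1 : ℝ)..1, L ((xmat q A s t)⁻¹ * (xmat q A s t)⁻¹) := by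
  rw [jmat, map_smul, ← L.intervalIntegral_comp_comm ((h.continuousOn_sq_inv hs).intervalIntegrable)]

lemma hasDerivAt_xmat (q : Fin N → ℝ) (A : CMat N) (s t : ℝ) :
    HasDerivAt (fun u => xmat q A s u) A t := by
  simpa [xmat] using ((hasDerivAt_id t).smul_const A).const_add (kap q s)

lemma Dom.xmat_inv_herm (h : Dom q A) {s t : ℝ} (hs : 0 ≤ s) (ht : t ∈ Icc (-1 : ℝ) 1) :
    ((xmat q A s t)⁻¹)ᴴ = (xmat q A s t)⁻¹ := by
  rw [conjTranspose_nonsing_inv, (h.xmat_posDef hs ht).1.eq]

lemma re_trace_conjTranspose_mul_ge (M : CMat N) :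
    (trace (M * M)).re ≤ (trace (Mᴴ * M)).re := by
  have h := (Complex.le_def.mp (posSemidef_conjTranspose_mul_self (M - Mᴴ)).trace_nonneg).1
  simp only [conjTranspose_sub, conjTranspose_conjTranspose, Matrix.sub_mul, Matrix.mul_sub,
    trace_sub, Complex.sub_re, Complex.zero_re] at h
  have e1 : (trace (Mᴴ * Mᴴ)).re = (trace (M * M)).re := by
    rw [← conjTranspose_mul, trace_conjTranspose, Complex.star_def, Complex.conj_re]
  have e2 : trace (M * Mᴴ) = trace (Mᴴ * M) := trace_mul_comm _ _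
  rw [e1, e2] at h
  linarith

/-- (a) `tr (J_s (Q + s - A²)) ≤ N`. -/
lemma Dom.trace_bound (h : Dom q A) {s : ℝ} (hs : 0 ≤ s) :
    rtr (kap q s * kap q s - A * A) (jmat q A s) ≤ N := by
  rw [h.clm_jmat hs]
  set T := kap q s * kap q s - A * A
  set f : ℝ → ℝ := fun t => rtr 1 ((A + t • kap q s) * (xmat q A s t)⁻¹) with hf
  set f' : ℝ → ℝ := fun t => rtr 1 (kap q s * (xmat q A s t)⁻¹ +
      (A + t • kap q s) * -((xmat q A s t)⁻¹ * A * (xmat q A s t)⁻¹)) with hf'
  have hI : ∀ t ∈ Icc (-1 : ℝ) 1, HasDerivAt f (f' t) t := by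
    intro t ht
    refine (rtr 1).hasFDerivAt.comp_hasDerivAt t ?_
    have h1 : HasDerivAt (fun u : ℝ => A + u • kap q s) (kap q s) t := by
      simpa using ((hasDerivAt_id t).smul_const (kap q s)).const_add A
    exact h1.mul (hasDerivAt_inv (hasDerivAt_xmat q A s t) (h.isUnit_xmat hs ht))
  have hf'c : ContinuousOn f' (Icc (-1 : ℝ) 1) := by
    intro t ht
    have h1 := continuousAt_inv (M := fun t => xmat q A s t) (x := t)
      (hasDerivAt_xmat q A s t).continuousAt (h.isUnit_xmat hs ht)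
    exact ((rtr 1).continuous.continuousAt.comp ((continuousAt_const.mul h1).add
      ((show ContinuousAt (fun u : ℝ => A + u • kap q s) t by fun_prop).mul
        ((h1.mul continuousAt_const).mul h1).neg))).continuousWithinAt
  have hle : ∀ t ∈ Icc (-1 : ℝ) 1,
      rtr T ((xmat q A s t)⁻¹ * (xmat q A s t)⁻¹) ≤ f' t := by
    intro t ht
    set X := xmat q A s t with hX
    set H := X⁻¹ with hH
    have hu := h.isUnit_xmat hs ht
    have hXH : X * H = 1 := Matrix.mul_nonsing_inv _ hu
    have hHX : H * X = 1 := Matrix.nonsing_inv_mul _ hu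
    have hk : kap q s = X - t • A := by simp [hX, xmat]
    have hkH : kap q s * H = 1 - t • (A * H) := by
      rw [hk, Matrix.sub_mul, hXH, Matrix.smul_mul]
    have hHk : H * kap q s = 1 - t • (H * A) := by
      rw [hk, Matrix.mul_sub, hHX, Matrix.mul_smul]
    have hM : (A * H)ᴴ = H * A := by
      rw [conjTranspose_mul, h.herm.eq, h.xmat_inv_herm hs ht]
    have key := mul_le_mul_of_nonneg_left (re_trace_conjTranspose_mul_ge (A * H))
      (show 0 ≤ 1 - t * t by nlinarith [ht.1, ht.2])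
    rw [hM] at key
    have e1 : trace (T * (H * H)) = trace ((H * kap q s) * (kap q s * H)) - trace (H * A * (A * H)) := by
      simp only [T, Matrix.sub_mul, trace_sub, Matrix.mul_assoc]
      rw [← trace_mul_comm (kap q s * (kap q s * H)) H, ← trace_mul_comm (A * (A * H)) H]
      simp only [Matrix.mul_assoc]
    have e2 : (A + t • kap q s) * -(H * A * H) =
        -((A * H) * (A * H)) - t • ((kap q s * H) * (A * H)) := by
      simp only [Matrix.add_mul, Matrix.smul_mul, Matrix.mul_neg, Matrix.mul_assoc]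
      abel
    have e3 : trace (H * A) = trace (A * H) := trace_mul_comm _ _
    simp only [hf', rtr_apply, ← hX, ← hH, e1, Matrix.one_mul, e2, hkH, hHk, Matrix.sub_mul,
      Matrix.mul_sub, Matrix.mul_one, Matrix.smul_mul, Matrix.mul_smul, smul_sub, smul_smul,
      trace_add, trace_sub, trace_neg, trace_smul, trace_one, e3, Complex.add_re, Complex.sub_re,
      Complex.neg_re, Complex.real_smul, Complex.re_ofReal_mul, Fintype.card_fin,
      Complex.natCast_re]
    nlinarith [key]
  have hi1 : IntervalIntegrable (fun t => rtr T ((xmat q A s t)⁻¹ * (xmat q A s t)⁻¹)) volume (-1) 1 :=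
    ((rtr T).continuous.comp_continuousOn (h.continuousOn_sq_inv hs)).intervalIntegrable
  have hi2 : IntervalIntegrable f' volume (-1) 1 := hf'c.intervalIntegrable_of_Icc (by norm_num)
  have hm := intervalIntegral.integral_mono_on (by norm_num) hi1 hi2 hle
  have hftc := intervalIntegral.integral_eq_sub_of_hasDerivAt
    (f := f) (f' := f') (a := -1) (b := 1)
    (fun t ht => hI t (by rwa [Set.uIcc_of_le (by norm_num)] at ht)) hi2
  have v1 : f 1 = N := by
    have hu := h.isUnit_xmat hs (t := 1) ⟨by norm_num, le_rfl⟩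
    have e : A + kap q s = xmat q A s 1 := by simp [xmat, add_comm]
    simp [hf, rtr_apply, e, Matrix.mul_nonsing_inv _ hu]
  have v2 : f (-1) = -N := by
    have hu := h.isUnit_xmat hs (t := -1) ⟨le_rfl, by norm_num⟩
    have e : A + -kap q s = -xmat q A s (-1) := by simp [xmat]
    simp [hf, rtr_apply, e, Matrix.mul_nonsing_inv _ hu]
  rw [hftc, v1, v2] at hm
  rw [smul_eq_mul]
  linarith

lemma hermitian_sum_le {H : CMat N} (hH : Hᴴ = H) {k : Fin N → ℝ} (hk : ∀ i, 0 < k i) :
    (trace (H * H)).re ≤ (trace (rdiag (fun i => (k i)⁻¹) * H * rdiag k * H)).re := by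
  have e : ∀ a b, H b a = conj (H a b) := fun a b => by
    conv_lhs => rw [← hH]
    rfl
  have e1 : (trace (H * H)).re = ∑ a, ∑ b, Complex.normSq (H a b) := by
    simp only [trace, Matrix.diag, Matrix.mul_apply, Complex.re_sum]
    refine sum_congr rfl fun a _ => sum_congr rfl fun b _ => ?_
    rw [e a b, Complex.mul_conj, Complex.ofReal_re]
  have e2 : (trace (rdiag (fun i => (k i)⁻¹) * H * rdiag k * H)).re =
      ∑ a, ∑ b, k b / k a * Complex.normSq (H a b) := by
    simp only [trace, Matrix.diag, rdiag]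
    rw [Complex.re_sum]
    refine sum_congr rfl fun a _ => ?_
    rw [Matrix.mul_apply, Complex.re_sum]
    refine sum_congr rfl fun b _ => ?_
    rw [Matrix.mul_diagonal, Matrix.diagonal_mul, e a b,
      show (((k a)⁻¹ : ℝ) : ℂ) * H a b * (k b : ℂ) * conj (H a b) =
        ((k b / k a : ℝ) : ℂ) * (H a b * conj (H a b)) by push_cast; ring,
      Complex.mul_conj, Complex.re_ofReal_mul, Complex.ofReal_re]
  rw [e1, e2]
  have hs : ∀ a b, Complex.normSq (H b a) = Complex.normSq (H a b) := fun a b => by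
    rw [e a b, Complex.normSq_conj]
  have h2 : ∑ a, ∑ b, k b / k a * Complex.normSq (H a b) =
      ∑ a, ∑ b, k a / k b * Complex.normSq (H a b) := by
    rw [sum_comm]
    exact sum_congr rfl fun a _ => sum_congr rfl fun b _ => by rw [hs]
  have h3 : ∀ a b, 2 * Complex.normSq (H a b) ≤
      k b / k a * Complex.normSq (H a b) + k a / k b * Complex.normSq (H a b) := by
    intro a b
    rw [← add_mul]
    refine mul_le_mul_of_nonneg_right ?_ (Complex.normSq_nonneg _)
    have ha := hk a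
    have hb := hk b
    rw [div_add_div _ _ ha.ne' hb.ne', le_div_iff₀ (mul_pos ha hb)]
    nlinarith [sq_nonneg (k a - k b)]
  have h4 := sum_le_sum fun a (_ : a ∈ Finset.univ) => sum_le_sum fun b (_ : b ∈ Finset.univ) => h3 a b
  simp only [← mul_sum, sum_add_distrib] at h4
  linarith

/-- (b) `tr J_s ≤ ½ tr (κ⁻¹ (P₊ + P₋))`. -/
lemma Dom.trace_jmat_le (h : Dom q A) {s : ℝ} (hs : 0 ≤ s) :
    rtr 1 (jmat q A s) ≤
      (1 / 2) * rtr (kap q s)⁻¹ ((xmat q A s 1)⁻¹ + (xmat q A s (-1))⁻¹) := by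
  rw [h.clm_jmat hs, smul_eq_mul]
  refine mul_le_mul_of_nonneg_left ?_ (by norm_num)
  set L := rtr (kap q s)⁻¹
  set f : ℝ → ℝ := fun t => L (t • (xmat q A s t)⁻¹) with hf
  set f' : ℝ → ℝ := fun t => L ((xmat q A s t)⁻¹ * kap q s * (xmat q A s t)⁻¹) with hf'
  have hI : ∀ t ∈ Icc (-1 : ℝ) 1, HasDerivAt f (f' t) t := by
    intro t ht
    have hu := h.isUnit_xmat hs ht
    refine L.hasFDerivAt.comp_hasDerivAt t ?_
    refine ((hasDerivAt_id t).smul (hasDerivAt_inv (hasDerivAt_xmat q A s t) hu)).congr_deriv ?_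
    have hk : kap q s = xmat q A s t - t • A := by simp [xmat]
    rw [hk, Matrix.mul_sub, Matrix.sub_mul, Matrix.nonsing_inv_mul _ hu, Matrix.one_mul]
    simp only [id, one_smul, Matrix.mul_smul, Matrix.smul_mul, smul_neg]
    abel
  have hf'c : ContinuousOn f' (Icc (-1 : ℝ) 1) := by
    intro t ht
    have h1 := continuousAt_inv (M := fun t => xmat q A s t) (x := t)
      (hasDerivAt_xmat q A s t).continuousAt (h.isUnit_xmat hs ht)
    exact (L.continuous.continuousAt.comp ((h1.mul continuousAt_const).mul h1)).continuousWithinAt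
  have hi2 : IntervalIntegrable f' volume (-1) 1 := hf'c.intervalIntegrable_of_Icc (by norm_num)
  have hle : ∀ t ∈ Icc (-1 : ℝ) 1,
      rtr 1 ((xmat q A s t)⁻¹ * (xmat q A s t)⁻¹) ≤ f' t := by
    intro t ht
    have hk : ∀ i, 0 < Real.sqrt (q i + s) := fun i => Real.sqrt_pos.mpr (by linarith [h.pos i])
    simp only [hf', L, rtr_apply, Matrix.one_mul]
    rw [kap, rdiag_inv fun i => (hk i).ne', ← Matrix.mul_assoc, ← Matrix.mul_assoc]
    exact hermitian_sum_le (h.xmat_inv_herm hs ht) hk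
  have hi1 : IntervalIntegrable (fun t => rtr 1 ((xmat q A s t)⁻¹ * (xmat q A s t)⁻¹)) volume (-1) 1 :=
    ((rtr 1).continuous.comp_continuousOn (h.continuousOn_sq_inv hs)).intervalIntegrable
  refine (intervalIntegral.integral_mono_on (by norm_num) hi1 hi2 hle).trans (le_of_eq ?_)
  rw [intervalIntegral.integral_eq_sub_of_hasDerivAt (f := f) (f' := f')
    (fun t ht => hI t (by rwa [Set.uIcc_of_le (by norm_num)] at ht)) hi2]
  simp only [hf, one_smul, neg_smul, map_neg, map_add]
  ring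

/-- `½ ∫_{-1}^1 (c + t x)^(-2) dt = 1/(c² - x²)`. -/
lemma avg_inv_sq {c x : ℝ} (hx : |x| < c) :
    (1 / 2 : ℝ) * ∫ t in (-1 : ℝ)..1, ((c + t * x) ^ 2)⁻¹ = (c ^ 2 - x ^ 2)⁻¹ := by
  have hpos : ∀ t ∈ Icc (-1 : ℝ) 1, 0 < c + t * x := fun t ht => by
    have hh := abs_lt.mp hx
    have : |t * x| ≤ |x| := by
      rw [abs_mul]; exact mul_le_of_le_one_left (abs_nonneg _) (abs_le.mpr ⟨ht.1, ht.2⟩)
    linarith [neg_abs_le (t * x)]
  have hc : 0 < c := lt_of_le_of_lt (abs_nonneg x) hx
  have h1 := hpos 1 ⟨by norm_num, le_rfl⟩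
  have h2 := hpos (-1) ⟨le_rfl, by norm_num⟩
  rw [intervalIntegral.integral_eq_sub_of_hasDerivAt (f := fun t => t / c / (c + t * x))]
  · have a1 : c + x ≠ 0 := by linarith
    have a2 : c - x ≠ 0 := by linarith
    rw [show c ^ 2 - x ^ 2 = (c + x) * (c - x) by ring, one_mul, neg_one_mul, ← sub_eq_add_neg]
    field_simp
    ring
  · intro t ht
    rw [Set.uIcc_of_le (by norm_num)] at ht
    have := hpos t ht
    refine (((hasDerivAt_id t).div_const c).div (((hasDerivAt_id t).mul_const x).const_add c)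
      this.ne').congr_deriv ?_
    simp only [id]
    field_simp
    ring
  · refine ContinuousOn.intervalIntegrable_of_Icc (by norm_num) ?_
    exact ContinuousOn.inv₀ (by fun_prop) fun t ht => (pow_pos (hpos t ht) 2).ne'

/-- (c) `det J_s · det (κ + A) · det (κ - A) ≥ 1`, and `J_s` is positive definite. -/
lemma Dom.det_jmat (h : Dom q A) {s : ℝ} (hs : 0 ≤ s) :
    (jmat q A s).PosDef ∧
      -Real.log (xmat q A s 1).det.re - Real.log (xmat q A s (-1)).det.re ≤
        Real.log (jmat q A s).det.re := by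
  set k : Fin N → ℝ := fun i => Real.sqrt (q i + s) with hk
  have hk0 : ∀ i, 0 < k i := fun i => Real.sqrt_pos.mpr (by linarith [h.pos i])
  set d := rdiag fun i => Real.sqrt (k i) with hd
  set di := rdiag fun i => (Real.sqrt (k i))⁻¹ with hdi
  have hs0 : ∀ i, Real.sqrt (k i) ≠ 0 := fun i => (Real.sqrt_pos.mpr (hk0 i)).ne'
  have hddi : d * di = 1 := by
    rw [hd, hdi, rdiag_mul, ← rdiag_one]; exact congrArg rdiag (funext fun i => mul_inv_cancel₀ (hs0 i))
  have hdid : di * d = 1 := by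
    rw [hd, hdi, rdiag_mul, ← rdiag_one]; exact congrArg rdiag (funext fun i => inv_mul_cancel₀ (hs0 i))
  have hdd : d * d = kap q s := by
    rw [hd, rdiag_mul, kap]; exact congrArg rdiag (funext fun i => Real.mul_self_sqrt (hk0 i).le)
  have hdi2 : di * di = (kap q s)⁻¹ := by
    rw [kap, rdiag_inv fun i => (hk0 i).ne', hdi, rdiag_mul]
    refine congrArg rdiag (funext fun i => ?_)
    rw [← mul_inv, Real.mul_self_sqrt (hk0 i).le]
  have hdiH : diᴴ = di := rdiag_conjTranspose _
  have hS : (di * A * di).IsHermitian := by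
    have := Matrix.isHermitian_conjTranspose_mul_mul di h.herm
    rwa [hdiH] at this
  set x := hS.eigenvalues with hx
  set U : CMat N := (hS.eigenvectorUnitary : CMat N) with hU
  have hUU : U * Uᴴ = 1 := Unitary.coe_mul_star_self hS.eigenvectorUnitary
  have hUU' : Uᴴ * U = 1 := Unitary.coe_star_mul_self hS.eigenvectorUnitary
  have hSe : di * A * di = U * rdiag x * Uᴴ := by
    have e := hS.spectral_theorem
    simp only [Unitary.conjStarAlgAut_apply] at e
    exact e
  set G := d * U with hG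
  set Gi := Uᴴ * di with hGi
  have hGGi : G * Gi = 1 := by
    rw [hG, hGi, Matrix.mul_assoc, ← Matrix.mul_assoc U, hUU, Matrix.one_mul, hddi]
  have hGiG : Gi * G = 1 := by
    rw [hG, hGi, Matrix.mul_assoc, ← Matrix.mul_assoc di, hdid, Matrix.one_mul, hUU']
  have hXt : ∀ t, xmat q A s t = G * rdiag (fun i => 1 + t * x i) * Gᴴ := by
    intro t
    have eA : A = G * rdiag x * Gᴴ := by
      have : d * (di * A * di) * d = A := by
        simp only [Matrix.mul_assoc, hdid, Matrix.mul_one]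
        rw [← Matrix.mul_assoc, hddi, Matrix.one_mul]
      rw [← this, hSe, hG, conjTranspose_mul, hd, rdiag_conjTranspose]
      simp only [Matrix.mul_assoc]
    have e1 : rdiag (fun i => 1 + t * x i) = 1 + t • rdiag x := by
      rw [rdiag_smul, ← rdiag_one, rdiag_add]
    rw [e1, Matrix.mul_add, Matrix.add_mul, Matrix.mul_one, Matrix.mul_smul, Matrix.smul_mul, ← eA,
      hG, conjTranspose_mul, hd, rdiag_conjTranspose, ← hd, Matrix.mul_assoc,
      ← Matrix.mul_assoc U, hUU, Matrix.one_mul, hdd, xmat]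
  have hx1 : ∀ i, |x i| < 1 := by
    have hpos : ∀ t ∈ Icc (-1 : ℝ) 1, ∀ i, 0 < 1 + t * x i := by
      intro t ht i
      have hp := (h.xmat_posDef hs ht).conjTranspose_mul_mul_same (B := Giᴴ)
        (mulVec_injective_iff_isUnit.mpr (IsUnit.of_mul_eq_one Gᴴ (by
          rw [← conjTranspose_mul, hGGi, conjTranspose_one])))
      rw [conjTranspose_conjTranspose, hXt, ← Matrix.mul_assoc, ← Matrix.mul_assoc, hGiG,
        Matrix.one_mul, Matrix.mul_assoc, ← conjTranspose_mul, hGiG, conjTranspose_one,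
        Matrix.mul_one] at hp
      exact Complex.zero_lt_real.mp (posDef_diagonal_iff.mp hp i)
    intro i
    have a := hpos 1 ⟨by norm_num, le_rfl⟩ i
    have b := hpos (-1) ⟨le_rfl, by norm_num⟩ i
    rw [abs_lt]
    constructor <;> linarith
  have hxt : ∀ t ∈ Icc (-1 : ℝ) 1, ∀ i, 0 < 1 + t * x i := fun t ht i => by
    have : |t * x i| < 1 := by
      rw [abs_mul]
      exact lt_of_le_of_lt (mul_le_of_le_one_left (abs_nonneg _) (abs_le.mpr ⟨ht.1, ht.2⟩)) (hx1 i)
    linarith [(abs_lt.mp this).1]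
  set B := Gi * Giᴴ with hB
  set φ : CMat N := Matrix.of fun a b =>
    (((1 / 2 : ℝ) * ∫ t in (-1 : ℝ)..1, ((1 + t * x a) * (1 + t * x b))⁻¹ : ℝ) : ℂ) with hφ
  have hinv : ∀ t ∈ Icc (-1 : ℝ) 1,
      (xmat q A s t)⁻¹ = Giᴴ * rdiag (fun i => (1 + t * x i)⁻¹) * Gi := by
    intro t ht
    refine Matrix.inv_eq_right_inv ?_
    rw [hXt]
    simp only [Matrix.mul_assoc]
    rw [← Matrix.mul_assoc Gᴴ, ← conjTranspose_mul, hGiG, conjTranspose_one, Matrix.one_mul,
      ← Matrix.mul_assoc (rdiag _) (rdiag _), rdiag_mul]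
    rw [show (fun i => (1 + t * x i) * (1 + t * x i)⁻¹) = fun _ => (1 : ℝ) from
      funext fun i => mul_inv_cancel₀ (hxt t ht i).ne', rdiag_one, Matrix.one_mul, hGGi]
  have hJ : Gᴴ * jmat q A s * G = Matrix.hadamard φ B := by
    ext a b
    let L : CMat N →L[ℝ] ℂ := LinearMap.toContinuousLinearMap
      { toFun := fun M => (Gᴴ * M * G) a b
        map_add' := fun M M' => by simp [Matrix.mul_add, Matrix.add_mul]
        map_smul' := fun c M => by simp }
    show L (jmat q A s) = _
    rw [h.clm_jmat hs]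
    have e : ∀ t ∈ Set.uIcc (-1 : ℝ) 1, L ((xmat q A s t)⁻¹ * (xmat q A s t)⁻¹) =
        ((((1 + t * x a) * (1 + t * x b))⁻¹ : ℝ) : ℂ) * B a b := by
      intro t ht
      rw [Set.uIcc_of_le (by norm_num)] at ht
      show (Gᴴ * ((xmat q A s t)⁻¹ * (xmat q A s t)⁻¹) * G) a b = _
      rw [hinv t ht]
      have e' : Gᴴ * (Giᴴ * rdiag (fun i => (1 + t * x i)⁻¹) * Gi *
          (Giᴴ * rdiag (fun i => (1 + t * x i)⁻¹) * Gi)) * G =
          rdiag (fun i => (1 + t * x i)⁻¹) * B * rdiag (fun i => (1 + t * x i)⁻¹) := by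
        simp only [hB, Matrix.mul_assoc, hGiG, Matrix.mul_one]
        rw [← Matrix.mul_assoc Gᴴ, ← conjTranspose_mul, hGiG, conjTranspose_one, Matrix.one_mul]
      rw [e', rdiag, Matrix.mul_diagonal, Matrix.diagonal_mul, mul_inv]
      push_cast
      ring
    rw [intervalIntegral.integral_congr e, intervalIntegral.integral_mul_const,
      intervalIntegral.integral_ofReal, Matrix.hadamard_apply, hφ, Matrix.of_apply,
      Complex.real_smul]
    push_cast
    ring
  have hφd : ∀ i, φ i i = (((1 - x i ^ 2)⁻¹ : ℝ) : ℂ) := by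
    intro i
    simp only [hφ, Matrix.of_apply]
    congr 1
    have h1 := avg_inv_sq (c := 1) (hx1 i)
    rw [one_pow] at h1
    rw [← h1]
    simp only [sq]
  have hφp : φ.PosSemidef := by
    refine PosSemidef.of_dotProduct_mulVec_nonneg ?_ fun v => ?_
    · ext a b
      simp only [hφ, conjTranspose_apply, Matrix.of_apply, Complex.star_def, Complex.conj_ofReal]
      simp only [mul_comm (1 + _ * x b)]
    · have hc : ∀ a, ContinuousOn (fun t : ℝ => (1 + t * x a)⁻¹) (Set.uIcc (-1 : ℝ) 1) := by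
        intro a
        rw [Set.uIcc_of_le (by norm_num)]
        exact ContinuousOn.inv₀ (by fun_prop) fun t ht => (hxt t ht a).ne'
      set w : ℝ → ℂ := fun t => ∑ a, (((1 + t * x a)⁻¹ : ℝ) : ℂ) * v a with hw
      have e : star v ⬝ᵥ φ *ᵥ v =
          (((1 / 2 : ℝ) * ∫ t in (-1 : ℝ)..1, Complex.normSq (w t) : ℝ) : ℂ) := by
        rw [Complex.ofReal_mul, ← intervalIntegral.integral_ofReal]
        have e0 : ∀ t, ((Complex.normSq (w t) : ℝ) : ℂ) = ∑ a, ∑ b, star (v a) *
            ((((1 + t * x a) * (1 + t * x b))⁻¹ : ℝ) : ℂ) * v b := by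
          intro t
          rw [Complex.normSq_eq_conj_mul_self, hw, map_sum, Finset.sum_mul_sum]
          refine sum_congr rfl fun a _ => sum_congr rfl fun b _ => ?_
          rw [map_mul, Complex.conj_ofReal, mul_inv, Complex.ofReal_mul, Complex.star_def]
          ring
        have hint : ∀ a b, IntervalIntegrable
            (fun t : ℝ => star (v a) * ((((1 + t * x a) * (1 + t * x b))⁻¹ : ℝ) : ℂ) * v b)
            volume (-1) 1 := by
          intro a b
          refine ContinuousOn.intervalIntegrable ?_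
          refine (continuousOn_const.mul ?_).mul continuousOn_const
          refine Complex.continuous_ofReal.comp_continuousOn ?_
          simpa only [mul_inv] using! (hc a).mul (hc b)
        simp only [e0]
        have hint2 : ∀ a, IntervalIntegrable (fun t : ℝ => ∑ b, star (v a) *
            ((((1 + t * x a) * (1 + t * x b))⁻¹ : ℝ) : ℂ) * v b) volume (-1) 1 := fun a => by
          simpa only [Finset.sum_fn] using IntervalIntegrable.sum Finset.univ fun b _ => hint a b
        rw [intervalIntegral.integral_finsetSum fun a _ => hint2 a]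
        simp only [dotProduct, Matrix.mulVec, hφ, Matrix.of_apply, mul_sum, Pi.star_apply]
        refine sum_congr rfl fun a _ => ?_
        rw [intervalIntegral.integral_finsetSum fun b _ => hint a b, mul_sum]
        refine sum_congr rfl fun b _ => ?_
        rw [intervalIntegral.integral_mul_const, intervalIntegral.integral_const_mul,
          intervalIntegral.integral_ofReal]
        push_cast
        ring
      rw [e]
      exact Complex.zero_le_real.mpr (mul_nonneg (by norm_num)
        (intervalIntegral.integral_nonneg (by norm_num) fun t _ => Complex.normSq_nonneg _))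
  have hdet1 : Gi.det * G.det = 1 := by rw [← det_mul, hGiG, det_one]
  have hGiu : IsUnit Gi := IsUnit.of_mul_eq_one G hGiG
  have hBp : B.PosDef := by
    have := (PosDef.one (n := Fin N) (R := ℂ)).conjTranspose_mul_mul_same (B := Giᴴ)
      (mulVec_injective_iff_isUnit.mpr hGiu.star)
    simpa [hB] using this
  have hφd' : ∀ i, 0 < (φ i i).re := fun i => by
    rw [hφd, Complex.ofReal_re, inv_pos]
    nlinarith [hx1 i, abs_lt.mp (hx1 i)]
  have hopp := oppenheim hφp hφd' hBp
  have hpp : 0 < B.det.re * ∏ i, (φ i i).re :=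
    mul_pos (det_re_pos hBp) (prod_pos fun i _ => hφd' i)
  have hHp : (Matrix.hadamard φ B).PosDef :=
    (hφp.hadamard hBp.posSemidef).posDef_iff_det_ne_zero.mpr fun h0 => by
      rw [h0] at hopp; simp at hopp; linarith
  have hJe : jmat q A s = Giᴴ * Matrix.hadamard φ B * Gi := by
    rw [← hJ]
    simp only [Matrix.mul_assoc, hGGi, Matrix.mul_one]
    rw [← Matrix.mul_assoc, ← conjTranspose_mul, hGGi, conjTranspose_one, Matrix.one_mul]
  have hJp : (jmat q A s).PosDef := by
    rw [hJe]; exact hHp.conjTranspose_mul_mul_same (mulVec_injective_iff_isUnit.mpr hGiu)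
  refine ⟨hJp, ?_⟩
  -- determinants
  set g : ℝ := Complex.normSq G.det with hg
  have hgpos : 0 < g := Complex.normSq_pos.mpr (right_ne_zero_of_mul (hdet1 ▸ one_ne_zero))
  have hXdet : ∀ t, (xmat q A s t).det.re = g * ∏ i, (1 + t * x i) := by
    intro t
    rw [hXt, det_mul, det_mul, det_conjTranspose, rdiag, det_diagonal, mul_right_comm,
      Complex.star_def, Complex.mul_conj, ← Complex.ofReal_prod, ← Complex.ofReal_mul,
      Complex.ofReal_re]
  have hBdet : B.det.re = g⁻¹ := by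
    rw [hB, det_mul, det_conjTranspose, Complex.star_def, Complex.mul_conj, Complex.ofReal_re, hg,
      eq_inv_of_mul_eq_one_left hdet1, Complex.normSq_inv]
  have hJdet : (jmat q A s).det.re = g⁻¹ * (Matrix.hadamard φ B).det.re := by
    rw [hJe, det_mul, det_mul, det_conjTranspose, mul_right_comm, Complex.star_def, ← Complex.normSq_eq_conj_mul_self,
      Complex.re_ofReal_mul, hg, eq_inv_of_mul_eq_one_left hdet1, Complex.normSq_inv]
  have hp1 : 0 < ∏ i, (1 + 1 * x i) := prod_pos fun i _ => hxt 1 ⟨by norm_num, le_rfl⟩ i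
  have hp2 : 0 < ∏ i, (1 + -1 * x i) := prod_pos fun i _ => hxt (-1) ⟨le_rfl, by norm_num⟩ i
  have hprod : ∏ i, (φ i i).re = ((∏ i, (1 + 1 * x i)) * ∏ i, (1 + -1 * x i))⁻¹ := by
    rw [← prod_mul_distrib, ← prod_inv_distrib]
    refine prod_congr rfl fun i _ => ?_
    rw [hφd, Complex.ofReal_re]
    ring_nf
  rw [hBdet, hprod] at hopp
  rw [hXdet, hXdet, hJdet]
  have hlow : 0 < g⁻¹ * (g⁻¹ * ((∏ i, (1 + 1 * x i)) * ∏ i, (1 + -1 * x i))⁻¹) := by positivity
  refine le_trans (le_of_eq ?_) (Real.log_le_log hlow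
    (mul_le_mul_of_nonneg_left hopp (inv_nonneg.mpr hgpos.le)))
  rw [Real.log_mul hgpos.ne' hp1.ne', Real.log_mul hgpos.ne' hp2.ne',
    Real.log_mul (by positivity) (by positivity), Real.log_mul (by positivity) (by positivity),
    Real.log_inv g, Real.log_inv, Real.log_mul hp1.ne' hp2.ne']
  ring

end Vale.Agent.P371.Full
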