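import Vale.Agent.P371.PathTouch
import Vale.Agent.P371.Brouwer
import Vale.Agent.P371.Full.Defs

/-!
Existence of the multiplier `Q = K²` and of its Riccati path.

The flow `A' = K² - min (A², R²) - W` is globally Lipschitz. Brouwer gives `X = -A_K(X₀)` for
`K` the clamp of `X` to `[0, R]`; for `R` above `X₀ sup ‖W‖` the clamp and the cap are inactive.
-/

namespace Vale.Agent.P371.Full.Multiplier

section opNorm

open Matrix
open scoped Matrix.Norms.L2Operator

lemma qf_le_opNorm {N : ℕ} {S : CMat N} {C : ℝ} (h : ‖S‖ ≤ C) (v : Fin N → ℂ) :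
    Path.qf S v ≤ C * Path.nsq v := by
  have h1 : Path.qf S v =
      (inner ℂ ((EuclideanSpace.equiv (Fin N) ℂ).symm v)
        ((EuclideanSpace.equiv (Fin N) ℂ).symm (S *ᵥ v))).re := by
    simp [Path.qf, EuclideanSpace.inner_eq_star_dotProduct, dotProduct_comm]
  have h2 : Path.nsq v = ‖(EuclideanSpace.equiv (Fin N) ℂ).symm v‖ ^ 2 := by
    rw [Path.nsq_eq, EuclideanSpace.norm_sq_eq]; simp
  rw [h1, h2]
  refine (Complex.re_le_norm _).trans ((norm_inner_le_norm _ _).trans ?_)
  have h3 := l2_opNorm_mulVec S ((EuclideanSpace.equiv (Fin N) ℂ).symm v)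
  calc _ ≤ ‖(EuclideanSpace.equiv (Fin N) ℂ).symm v‖ *
        (‖S‖ * ‖(EuclideanSpace.equiv (Fin N) ℂ).symm v‖) :=
        mul_le_mul_of_nonneg_left (by simpa using h3) (norm_nonneg _)
    _ ≤ ‖(EuclideanSpace.equiv (Fin N) ℂ).symm v‖ *
        (C * ‖(EuclideanSpace.equiv (Fin N) ℂ).symm v‖) := by gcongr
    _ = _ := by ring

end opNorm

open Finset Matrix Filter Topology Set Vale.Agent.P371.Path
open scoped Matrix.Norms.Frobenius ComplexOrder ComplexConjugate

variable {N : ℕ}

/-- `min (a², R²)`. -/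
noncomputable def cap (R a : ℝ) : ℝ := min (a ^ 2) (R ^ 2)

/-- Clamp to `[0, R]`. -/
noncomputable def clampR (R a : ℝ) : ℝ := max 0 (min a R)

lemma cap_eq {R : ℝ} (hR : 0 ≤ R) (a : ℝ) : cap R a = max (-R) (min a R) ^ 2 := by
  rcases le_total a (-R) with h | h
  · rw [max_eq_left ((min_le_left _ _).trans h), cap, min_eq_right (by nlinarith)]
    ring
  · rcases le_total a R with h' | h'
    · rw [min_eq_left h', max_eq_right h, cap, min_eq_left (by nlinarith)]
    · rw [min_eq_right h', max_eq_right (by linarith), cap, min_eq_right (by nlinarith)]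

lemma cap_lip {R : ℝ} (hR : 0 ≤ R) (a b : ℝ) : |cap R a - cap R b| ≤ 2 * R * |a - b| := by
  rw [cap_eq hR, cap_eq hR]
  set g := fun a : ℝ => max (-R) (min a R)
  have hb : ∀ a, |g a| ≤ R := fun a =>
    abs_le.mpr ⟨le_max_left _ _, max_le (by linarith) (min_le_right _ _)⟩
  have hl : |g a - g b| ≤ |a - b| := by
    have h1 := abs_max_sub_max_le_max (-R) (min a R) (-R) (min b R)
    have h2 := abs_min_sub_min_le_max a R b R
    simp only [sub_self, abs_zero] at h1 h2
    exact h1.trans (max_le (abs_nonneg _) (h2.trans (max_le le_rfl (abs_nonneg _))))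
  rw [show g a ^ 2 - g b ^ 2 = (g a + g b) * (g a - g b) by ring, abs_mul]
  exact mul_le_mul ((abs_add_le _ _).trans (by linarith [hb a, hb b])) hl (abs_nonneg _)
    (by linarith)

lemma abs_cap_le (R a : ℝ) : |cap R a| ≤ R ^ 2 := by
  rw [abs_of_nonneg (le_min (sq_nonneg _) (sq_nonneg _))]
  exact min_le_right _ _

lemma clampR_lip (R a b : ℝ) : |clampR R a - clampR R b| ≤ 1 * |a - b| := by
  have h1 := abs_max_sub_max_le_max (0 : ℝ) (min a R) 0 (min b R)
  have h2 := abs_min_sub_min_le_max a R b R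
  simp only [sub_self, abs_zero] at h1 h2
  rw [one_mul]
  exact h1.trans (max_le (abs_nonneg _) (h2.trans (max_le le_rfl (abs_nonneg _))))

lemma clampR_mem {R : ℝ} (hR : 0 ≤ R) (a : ℝ) : 0 ≤ clampR R a ∧ clampR R a ≤ R :=
  ⟨le_max_left _ _, max_le hR (min_le_right _ _)⟩

variable (R X0 : ℝ) (W : CMat N → ℝ → CMat N)

/-- The capped Riccati field. -/
noncomputable def field (K : CMat N) (x : ℝ) (A : CMat N) : CMat N :=
  K * K - cfc (cap R) (hp A) - W (K * K) x

/-- `A` solves the capped equation on `[-X0, X0]` starting from `K`. -/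
def IsSol (K : CMat N) (A : ℝ → CMat N) : Prop :=
  A (-X0) = K ∧ ∀ x ∈ Icc (-X0) X0, HasDerivWithinAt A (field R W K x (A x)) (Icc (-X0) X0) x

variable {R X0 W}

lemma field_lip (hR : 0 ≤ R) (K : CMat N) (x : ℝ) :
    LipschitzWith (2 * R).toNNReal (field R W K x) := by
  refine LipschitzWith.of_dist_le_mul fun A B => ?_
  rw [Real.coe_toNNReal _ (by positivity), dist_eq_norm, dist_eq_norm]
  have : field R W K x A - field R W K x B = -(cfc (cap R) (hp A) - cfc (cap R) (hp B)) := by
    simp only [field]; abel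
  rw [this, norm_neg]
  exact (norm_cfc_sub_cfc_le (cap_lip hR) (hp_isHermitian A) (hp_isHermitian B)).trans
    (mul_le_mul_of_nonneg_left (norm_hp_sub_le A B) (by positivity))

lemma exists_sol (hR : 0 ≤ R) (hX : 0 < X0) (hW : Continuous (Function.uncurry W))
    (K : CMat N) : ∃ A, IsSol R X0 W K A := by
  have hWK : Continuous fun x => W (K * K) x :=
    hW.comp (continuous_const.prodMk continuous_id)
  obtain ⟨B, hB⟩ := isCompact_Icc.exists_bound_of_continuousOn
    (hWK.continuousOn (s := Icc (-X0) X0))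
  set L := ‖K * K‖ + Real.sqrt N * R ^ 2 + max B 0
  have hL : 0 ≤ L := by positivity
  have hPL : IsPicardLindelof (field R W K)
      (⟨-X0, le_rfl, by linarith⟩ : Icc (-X0) X0) K (L * (2 * X0)).toNNReal 0 L.toNNReal
      (2 * R).toNNReal :=
    { lipschitzOnWith := fun t _ => (field_lip hR K t).lipschitzOnWith
      continuousOn := fun A _ => by
        unfold field
        exact (continuous_const.sub hWK).continuousOn
      norm_le := fun t ht A _ => by
        rw [Real.coe_toNNReal _ hL]
        exact (norm_sub_le _ _).trans (add_le_add ((norm_sub_le _ _).trans (add_le_add le_rfl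
          (norm_cfc_le (hp_isHermitian A) (abs_cap_le R)))) ((hB t ht).trans (le_max_left _ _)))
      mul_max_le := by
        rw [Real.coe_toNNReal _ hL, Real.coe_toNNReal _ (by positivity)]
        simp only [NNReal.coe_zero, sub_zero, sub_self, sub_neg_eq_add]
        rw [max_eq_left (by linarith)]
        linarith }
  exact hPL.exists_eq_forall_mem_Icc_hasDerivWithinAt₀

lemma IsSol.continuousOn {K : CMat N} {A : ℝ → CMat N} (h : IsSol R X0 W K A) :
    ContinuousOn A (Icc (-X0) X0) := fun x hx => (h.2 x hx).continuousWithinAt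

lemma gronwallBound_linear (δ K ε x : ℝ) :
    gronwallBound δ K ε x = δ * gronwallBound 1 K 0 x + ε * gronwallBound 0 K 1 x := by
  unfold gronwallBound
  split_ifs <;> ring

/-- The end value depends continuously on the parameter. -/
lemma continuous_endValue (hR : 0 ≤ R) (hX : 0 < X0) (hW : Continuous (Function.uncurry W))
    (S : CMat N → ℝ → CMat N) (hS : ∀ K, IsSol R X0 W K (S K)) :
    Continuous fun K => S K X0 := by
  refine continuous_iff_continuousAt.mpr fun K0 => ?_
  set g1 := gronwallBound 1 ((2 * R).toNNReal : ℝ) 0 (2 * X0)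
  set g2 := gronwallBound 0 ((2 * R).toNNReal : ℝ) 1 (2 * X0)
  refine Metric.tendsto_nhds.mpr fun e he => ?_
  set D := e / (|g1| + |g2| + 1) with hDdef
  have hD : 0 < D := by positivity
  set G : CMat N × ℝ → CMat N := fun p => p.1 * p.1 - W (p.1 * p.1) p.2
  have hG : Continuous G := (continuous_fst.mul continuous_fst).sub
    (hW.comp ((continuous_fst.mul continuous_fst).prodMk continuous_snd))
  have hev : ∀ᶠ K in 𝓝 K0, ∀ x ∈ Icc (-X0) X0, dist (G (K, x)) (G (K0, x)) < D := by
    refine isCompact_Icc.eventually_forall_of_forall_eventually fun x _ => ?_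
    have hc : Continuous fun p : CMat N × ℝ => dist (G (p.1, p.2)) (G (K0, p.2)) :=
      (hG.comp (continuous_fst.prodMk continuous_snd)).dist
        (hG.comp (continuous_const.prodMk continuous_snd))
    exact hc.continuousAt.eventually_lt continuousAt_const (by simpa using hD)
  filter_upwards [hev, Metric.ball_mem_nhds K0 hD] with K hK hK0
  have hIci : ∀ {A : ℝ → CMat N} {A' : CMat N} {t : ℝ}, t ∈ Ico (-X0) X0 →
      HasDerivWithinAt A A' (Icc (-X0) X0) t → HasDerivWithinAt A A' (Ici t) t :=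
    fun ht h => h.mono_of_mem_nhdsWithin
      (mem_of_superset (Icc_mem_nhdsGE ht.2) (Icc_subset_Icc ht.1 le_rfl))
  have := dist_le_of_approx_trajectories_ODE (v := fun t => field R W K0 t) (εf := D) (εg := 0)
    (δ := D) (fun t => field_lip hR K0 t) (hS K).continuousOn
    (fun t ht => hIci ht ((hS K).2 t (Ico_subset_Icc_self ht)))
    (fun t ht => by
      have := (hK t (Ico_subset_Icc_self ht)).le
      rw [dist_eq_norm] at this ⊢
      refine le_of_eq_of_le (congrArg norm ?_) this
      show K * K - cfc (cap R) (hp (S K t)) - W (K * K) t -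
        (K0 * K0 - cfc (cap R) (hp (S K t)) - W (K0 * K0) t) =
          (K * K - W (K * K) t) - (K0 * K0 - W (K0 * K0) t)
      abel)
    (hS K0).continuousOn
    (fun t ht => hIci ht ((hS K0).2 t (Ico_subset_Icc_self ht)))
    (fun t _ => (dist_self _).le)
    (by rw [(hS K).1, (hS K0).1]; exact (Metric.mem_ball.mp hK0).le)
    X0 (right_mem_Icc.mpr (by linarith))
  rw [show X0 - -X0 = 2 * X0 by ring, gronwallBound_linear, add_zero] at this
  refine this.trans_lt ?_
  calc D * g1 + D * g2 ≤ D * (|g1| + |g2|) := by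
        nlinarith [le_abs_self g1, le_abs_self g2]
    _ < D * (|g1| + |g2| + 1) := by linarith
    _ = e := div_mul_cancel₀ _ (by positivity)

/-- Brouwer: a parameter `K = clamp X` with `X = -A_K(X₀)`. -/
lemma exists_fixedPoint (hR : 0 ≤ R) (hX : 0 < X0) (hW : Continuous (Function.uncurry W)) :
    ∃ (X : CMat N) (A : ℝ → CMat N),
      IsSol R X0 W (cfc (clampR R) (hp X)) A ∧ X = -A X0 := by
  choose S hS using exists_sol hR hX hW
  have hcl : Continuous fun X : CMat N => cfc (clampR R) (hp X) :=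
    (LipschitzWith.of_dist_le_mul (K := 1) fun A B => by
      rw [dist_eq_norm, dist_eq_norm, NNReal.coe_one]
      exact (norm_cfc_sub_cfc_le (clampR_lip R) (hp_isHermitian A) (hp_isHermitian B)).trans
        (by simpa using norm_hp_sub_le A B)).continuous
  have hP := continuous_endValue hR hX hW S hS
  obtain ⟨B, hB⟩ := (isCompact_closedBall (0 : CMat N) (Real.sqrt N * R)).exists_bound_of_continuousOn
    hP.continuousOn
  obtain ⟨X, -, hX'⟩ := brouwer (E := CMat N) (isCompact_closedBall (0 : CMat N) (max B 0))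
    (convex_closedBall _ _) ⟨0, Metric.mem_closedBall_self (le_max_right _ _)⟩
    (fun X => -S (cfc (clampR R) (hp X)) X0) (hP.comp hcl).neg.continuousOn
    (fun X _ => by
      rw [mem_closedBall_zero_iff, norm_neg]
      refine (hB _ ?_).trans (le_max_left _ _)
      rw [mem_closedBall_zero_iff]
      exact norm_cfc_le (hp_isHermitian X) fun a => by
        rw [abs_of_nonneg (clampR_mem hR a).1]; exact (clampR_mem hR a).2)
  exact ⟨X, _, hS _, hX'.symm⟩

lemma isHermitian_sol (hWh : ∀ Q x, (W Q x).IsHermitian) {K : CMat N} (hK : K.IsHermitian)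
    {A : ℝ → CMat N} (h : IsSol R X0 W K A) :
    ∀ x ∈ Icc (-X0) X0, (A x).IsHermitian := by
  have hf : ∀ x B, (field R W K x B).IsHermitian := fun x B => by
    refine ((?_ : (K * K).IsHermitian).sub ?_).sub (hWh _ _)
    · simp [Matrix.IsHermitian, hK.eq]
    · exact cfc_predicate (cap R) (hp B)
  have hd : ∀ x ∈ Icc (-X0) X0, HasDerivWithinAt (fun t => A t - star (A t)) 0 (Icc (-X0) X0) x := by
    intro x hx
    have := (h.2 x hx).sub (h.2 x hx).star
    rwa [star_eq_conjTranspose (field R W K x (A x)), (hf x (A x)).eq, sub_self] at this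
  intro x hx
  have hcst := constant_of_has_deriv_right_zero (fun t ht => (hd t ht).continuousWithinAt)
    (fun t ht => (hd t (Ico_subset_Icc_self ht)).mono_of_mem_nhdsWithin
      (mem_of_superset (Icc_mem_nhdsGE ht.2) (Icc_subset_Icc ht.1 le_rfl))) x hx
  simp only [h.1, star_eq_conjTranspose, hK.eq, sub_self] at hcst
  exact (sub_eq_zero.mp hcst).symm

lemma nsq_shift {K : CMat N} (hK : K.IsHermitian) (v : Fin N → ℂ) (s : ℝ) :
    nsq (K *ᵥ v + s • v) = nsq (K *ᵥ v) + 2 * s * qf K v + s ^ 2 * nsq v := by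
  have h1 : star (K *ᵥ v) = star v ᵥ* K := by rw [star_mulVec, hK.eq]
  simp [nsq, qf, star_add, dotProduct_add, add_dotProduct, star_smul, smul_dotProduct,
    dotProduct_smul, h1, ← dotProduct_mulVec, Complex.real_smul]
  ring

theorem core (hX : 0 < X0) (hW : Continuous (Function.uncurry W))
    (hpsd : ∀ Q x, (W Q x).PosSemidef) {C : ℝ} (hC : 0 ≤ C)
    (hup : ∀ Q x v, qf (W Q x) v ≤ C * nsq v) :
    ∃ (K : CMat N) (A : ℝ → CMat N), K.PosSemidef ∧ A (-X0) = K ∧ A X0 = -K ∧
      (∀ x ∈ Icc (-X0) X0,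
        HasDerivWithinAt A (K * K - A x * A x - W (K * K) x) (Icc (-X0) X0) x) ∧
      ∀ x ∈ Icc (-X0) X0,
        (A x).IsHermitian ∧ (K - A x).PosSemidef ∧ (K + A x).PosSemidef := by
  set R := X0 * C + 1 with hRdef
  have hR : 0 ≤ R := by positivity
  obtain ⟨X, A, hA, hXA⟩ := exists_fixedPoint (R := R) hR hX hW
  set K := cfc (clampR R) (hp X) with hKdef
  have hKh : K.IsHermitian := cfc_predicate (clampR R) (hp X)
  have hlm : (-X0) ∈ Icc (-X0) X0 := left_mem_Icc.mpr (by linarith)
  have hrm : X0 ∈ Icc (-X0) X0 := right_mem_Icc.mpr (by linarith)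
  have hAh := isHermitian_sol (fun Q x => (hpsd Q x).isHermitian) hKh hA
  have hXh : X.IsHermitian := by rw [hXA]; exact (hAh X0 hrm).neg
  have hpX : hp X = X := hp_of_isHermitian hXh
  have hKX : K = X := by
    have hspec : ∀ i, clampR R (hXh.eigenvalues i) = hXh.eigenvalues i := by
      intro i
      set l := hXh.eigenvalues i
      set v : Fin N → ℂ := ⇑(hXh.eigenvectorBasis i)
      have hv : X *ᵥ v = l • v := hXh.mulVec_eigenvectorBasis i
      have hne : v ≠ 0 := fun h =>
        hXh.eigenvectorBasis.orthonormal.ne_zero i (by ext j; exact congrFun h j)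
      have hn := nsq_pos hne
      have hKv : K *ᵥ v = clampR R l • v := by rw [hKdef, hpX]; exact cfc_mulVec hXh _ hv
      have hKK : qf (K * K) v = clampR R l ^ 2 * nsq v := by
        rw [qf_mul_of_mulVec hKv, qf_of_mulVec hKv]; ring
      have h0 : qf (A (-X0)) v = clampR R l * nsq v := by rw [hA.1, qf_of_mulVec hKv]
      have h1 : qf (A X0) v = -l * nsq v := by
        rw [show A X0 = -X by rw [hXA, neg_neg], qf_neg, qf_of_mulVec hv]; ring
      have hd : ∀ x ∈ Icc (-X0) X0, HasDerivWithinAt (fun t => qf (A t) v)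
          (qf (field R W K x (A x)) v) (Icc (-X0) X0) x :=
        fun x hx => hasDerivWithinAt_qf (hA.2 x hx) v
      have hc : ContinuousOn (fun t => qf (A t) v) (Icc (-X0) X0) :=
        fun x hx => (hd x hx).continuousWithinAt
      rcases lt_trichotomy l 0 with hl | hl | hl
      · exfalso
        have e : clampR R l = 0 := max_eq_left ((min_le_left _ _).trans hl.le)
        have hanti := antitoneOn_of_hasDerivWithinAt_nonpos (convex_Icc _ _) hc
          (fun x hx => (hd x (interior_subset hx)).mono interior_subset) fun x _ => by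
            simp only [field, qf_sub, hKK, e]
            have a1 := le_qf_cfc (hp_isHermitian (A x)) (f := cap R) (c := 0)
              (fun a => le_min (sq_nonneg _) (sq_nonneg _)) v
            have a2 := (posSemidef_iff_qf.mp (hpsd (K * K) x)).2 v
            linarith
        have := hanti hlm hrm (by linarith)
        simp only [h0, h1, e] at this
        nlinarith
      · rw [hl, clampR, min_eq_left hR, max_self]
      · rcases le_or_gt l R with hlR | hlR
        · rw [clampR, min_eq_left hlR, max_eq_right hl.le]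
        · exfalso
          have e : clampR R l = R := by rw [clampR, min_eq_right hlR.le, max_eq_right hR]
          have hmono := monotoneOn_of_hasDerivWithinAt_nonneg (convex_Icc (-X0) X0)
            (hc.add (continuousOn_id.const_smul (C * nsq v)))
            (fun x hx => ((hd x (interior_subset hx)).add
              ((hasDerivWithinAt_id x _).const_smul (C * nsq v))).mono interior_subset) fun x _ => by
              simp only [field, qf_sub, hKK, e, smul_eq_mul, mul_one]
              have a1 := qf_cfc_le (hp_isHermitian (A x)) (f := cap R)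
                (fun a => (le_abs_self _).trans (abs_cap_le R a)) v
              have a2 := hup (K * K) x v
              linarith
          have h2 := hmono hlm hrm (by linarith)
          simp only [Pi.add_apply, Pi.smul_apply, id_eq, smul_eq_mul, h0, h1, e] at h2
          nlinarith
    have e1 : cfc (clampR R) X = cfc (fun a : ℝ => a) X := by
      rw [cfc_eq_conj hXh, cfc_eq_conj hXh]
      simp only [hspec]
    rw [hKdef, hpX, e1]
    exact cfc_id' ℝ X hXh.isSelfAdjoint
  have hend : A X0 = -K := by rw [hKX, hXA, neg_neg]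
  have hKq : ∀ v, 0 ≤ qf K v ∧ qf K v ≤ R * nsq v := fun v =>
    ⟨(zero_mul (nsq v)).symm.trans_le
      (le_qf_cfc (hp_isHermitian X) (f := clampR R) (c := 0) (fun a => (clampR_mem hR a).1) v),
    qf_cfc_le (hp_isHermitian X) (f := clampR R) (fun a => (clampR_mem hR a).2) v⟩
  have hKKq : ∀ v, qf (K * K) v ≤ R ^ 2 * nsq v := by
    intro v
    have hc : Continuous (clampR R) := by unfold clampR; fun_prop
    rw [show K * K = cfc (fun a => clampR R a * clampR R a) (hp X) from
      (cfc_mul (clampR R) (clampR R) (hp X) hc.continuousOn hc.continuousOn).symm]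
    refine qf_cfc_le (hp_isHermitian X) (fun a => ?_) v
    rw [← sq]
    exact pow_le_pow_left₀ (clampR_mem hR a).1 (clampR_mem hR a).2 2
  have hR1 : ((R • 1 : CMat N)).IsHermitian := by simp [Matrix.IsHermitian]
  have hneg : ∀ x ∈ Icc (-X0) X0, ∀ v : Fin N → ℂ, ∀ r : ℝ, R ^ 2 ≤ r ^ 2 →
      A x *ᵥ v = r • v → qf (field R W K x (A x)) v ≤ 0 := by
    intro x hx v r hr hv
    have hcf : cfc (cap R) (hp (A x)) *ᵥ v = R ^ 2 • v := by
      rw [hp_of_isHermitian (hAh x hx), cfc_mulVec (hAh x hx) _ hv, cap, min_eq_right hr]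
    simp only [field, qf_sub, qf_of_mulVec hcf]
    linarith [hKKq v, (posSemidef_iff_qf.mp (hpsd (K * K) x)).2 v]
  have hupR : ∀ x ∈ Icc (-X0) X0, ((R • 1 : CMat N) - A x).PosSemidef := by
    refine nonneg_of_touch (P' := fun x => -field R W K x (A x))
      (fun x hx => (hA.2 x hx).const_sub _) (fun x hx => hR1.sub (hAh x hx)) ?_ ?_
    · refine posSemidef_iff_qf.mpr ⟨hR1.sub (hAh _ hlm), fun v => ?_⟩
      simp only [hA.1, qf_sub, qf_smul, qf_one]
      linarith [(hKq v).2]
    · intro x hx v s hs hv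
      rw [qf_neg, neg_nonneg]
      refine hneg x hx v (R + s) (by nlinarith) ?_
      rw [sub_mulVec, smul_mulVec, one_mulVec, neg_smul, sub_eq_iff_eq_add] at hv
      rw [add_smul]
      conv_rhs => rw [hv]
      abel
  have hloR : ∀ x ∈ Icc (-X0) X0, ((R • 1 : CMat N) + A x).PosSemidef := by
    refine nonneg_of_touch_rev (P' := fun x => field R W K x (A x))
      (fun x hx => (hA.2 x hx).const_add _) (fun x hx => hR1.add (hAh x hx)) ?_ ?_
    · refine posSemidef_iff_qf.mpr ⟨hR1.add (hAh _ hrm), fun v => ?_⟩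
      simp only [hend, qf_add, qf_neg, qf_smul, qf_one]
      linarith [(hKq v).2]
    · intro x hx v s hs hv
      refine hneg x hx v (-(R + s)) (by nlinarith) ?_
      rw [add_mulVec, smul_mulVec, one_mulVec] at hv
      rw [neg_smul, add_smul, neg_add, ← neg_smul s v, ← hv]
      abel
  have hsol : ∀ x ∈ Icc (-X0) X0,
      HasDerivWithinAt A (K * K - A x * A x - W (K * K) x) (Icc (-X0) X0) x := by
    intro x hx
    have e : cfc (cap R) (hp (A x)) = A x * A x := by
      rw [hp_of_isHermitian (hAh x hx)]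
      exact cfc_min_sq_eq (hAh x hx) (hupR x hx) (hloR x hx)
    have := hA.2 x hx
    unfold field at this
    rwa [e] at this
  have hsig : ∀ x ∈ Icc (-X0) X0, ∀ v : Fin N → ℂ, ∀ s : ℝ, 0 < s →
      nsq (A x *ᵥ v) = nsq (K *ᵥ v + s • v) →
      qf (K * K - A x * A x - W (K * K) x) v ≤ 0 := by
    intro x hx v s hs h
    simp only [qf_sub, qf_mul_self hKh, qf_mul_self (hAh x hx), h, nsq_shift hKh]
    nlinarith [(hKq v).1, nsq_nonneg v, (posSemidef_iff_qf.mp (hpsd (K * K) x)).2 v,
      mul_nonneg hs.le (hKq v).1, mul_nonneg (sq_nonneg s) (nsq_nonneg v)]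
  refine ⟨K, A, posSemidef_iff_qf.mpr ⟨hKh, fun v => (hKq v).1⟩, hA.1, hend, hsol,
    fun x hx => ⟨hAh x hx, ?_, ?_⟩⟩
  · refine nonneg_of_touch (P' := fun x => -(K * K - A x * A x - W (K * K) x))
      (fun x hx => (hsol x hx).const_sub _) (fun x hx => hKh.sub (hAh x hx))
      (by rw [hA.1, sub_self]; exact PosSemidef.zero) ?_ x hx
    intro x hx v s hs hv
    rw [qf_neg, neg_nonneg]
    refine hsig x hx v s hs ?_
    rw [sub_mulVec, neg_smul, sub_eq_iff_eq_add] at hv
    congr 1
    conv_rhs => rw [hv]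
    abel
  · refine nonneg_of_touch_rev (P' := fun x => K * K - A x * A x - W (K * K) x)
      (fun x hx => (hsol x hx).const_add _) (fun x hx => hKh.add (hAh x hx))
      (by rw [hend, add_neg_cancel]; exact PosSemidef.zero) ?_ x hx
    intro x hx v s hs hv
    refine hsig x hx v s hs ?_
    rw [add_mulVec, neg_smul] at hv
    rw [show A x *ᵥ v = -(K *ᵥ v + s • v) by
      rw [eq_neg_iff_add_eq_zero, ← add_assoc, add_comm (A x *ᵥ v), hv]; abel]
    simp [nsq]
    ring

theorem posDef_of_path (hX : 0 < X0) {K : CMat N} {A : ℝ → CMat N}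
    (hpsd : ∀ Q x, (W Q x).PosSemidef) (hsupp : ∀ Q x, X0 ≤ |x| → W Q x = 0)
    (hpos : ∀ Q (v : Fin N → ℂ), v ≠ 0 → ∃ x, 0 < qf (W Q x) v)
    (hK : K.PosSemidef) (hA0 : A (-X0) = K) (hA1 : A X0 = -K)
    (hsol : ∀ x ∈ Icc (-X0) X0,
      HasDerivWithinAt A (K * K - A x * A x - W (K * K) x) (Icc (-X0) X0) x)
    (hAh : ∀ x ∈ Icc (-X0) X0, (A x).IsHermitian) : K.PosDef := by
  refine PosDef.of_dotProduct_mulVec_pos hK.isHermitian fun v hv => ?_
  refine lt_of_le_of_ne (hK.dotProduct_mulVec_nonneg v) fun h0 => ?_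
  have hKv : K *ᵥ v = 0 := (hK.dotProduct_mulVec_zero_iff v).mp h0.symm
  obtain ⟨x0, hx0⟩ := hpos (K * K) v hv
  set a := fun t => qf (A t) v
  have hd : ∀ x ∈ Icc (-X0) X0, HasDerivWithinAt a
      (qf (K * K - A x * A x - W (K * K) x) v) (Icc (-X0) X0) x :=
    fun x hx => hasDerivWithinAt_qf (hsol x hx) v
  have hKK : qf (K * K) v = 0 := by simp [qf, ← mulVec_mulVec, hKv]
  have hanti := antitoneOn_of_hasDerivWithinAt_nonpos (convex_Icc (-X0) X0)
    (fun x hx => (hd x hx).continuousWithinAt)
    (fun x hx => (hd x (interior_subset hx)).mono interior_subset) fun x hx => by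
      simp only [qf_sub, hKK, qf_mul_self (hAh x (interior_subset hx))]
      linarith [nsq_nonneg (A x *ᵥ v), (posSemidef_iff_qf.mp (hpsd (K * K) x)).2 v]
  have hlm : (-X0) ∈ Icc (-X0) X0 := left_mem_Icc.mpr (by linarith)
  have hrm : X0 ∈ Icc (-X0) X0 := right_mem_Icc.mpr (by linarith)
  have hconst : ∀ x ∈ Icc (-X0) X0, a x = 0 := by
    intro x hx
    have e0 : a (-X0) = 0 := by simp [a, hA0, qf, hKv]
    have e1 : a X0 = 0 := by simp [a, hA1, qf, hKv, neg_mulVec]
    exact le_antisymm (e0 ▸ hanti hlm hx hx.1) (e1 ▸ hanti hx hrm hx.2)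
  rcases le_or_gt X0 |x0| with h | h
  · simp [hsupp _ _ h] at hx0
  · have hx : x0 ∈ Ioo (-X0) X0 := abs_lt.mp h
    have h1 : HasDerivAt a _ x0 := (hd x0 (Ioo_subset_Icc_self hx)).hasDerivAt
      (Icc_mem_nhds hx.1 hx.2)
    have h2 : HasDerivAt a 0 x0 := (hasDerivAt_const x0 (0 : ℝ)).congr_of_eventuallyEq
      (eventually_of_mem (Icc_mem_nhds hx.1 hx.2) hconst)
    have := h1.unique h2
    simp only [qf_sub, hKK, qf_mul_self (hAh x0 (Ioo_subset_Icc_self hx))] at this
    linarith [nsq_nonneg (A x0 *ᵥ v)]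

theorem multiplierExists : MultiplierExists := by
  intro N X0 hX W hW hpsd ⟨M, hM⟩ hsupp hpos
  obtain ⟨K, A, hK, hA0, hA1, hsol, hbd⟩ := core (W := W) hX hW hpsd (C := max M 0)
    (le_max_right _ _) fun Q x v => qf_le_opNorm ((hM Q x).trans (le_max_left _ _)) v
  have hlm : (-X0) ∈ Icc (-X0) X0 := left_mem_Icc.mpr (by linarith)
  have hrm : X0 ∈ Icc (-X0) X0 := right_mem_Icc.mpr (by linarith)
  set c : ℝ → ℝ := fun x => max (-X0) (min x X0) with hc
  have hcmem : ∀ x, c x ∈ Icc (-X0) X0 := fun x =>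
    ⟨le_max_left _ _, max_le (by linarith) (min_le_right _ _)⟩
  have hcin : ∀ x ∈ Icc (-X0) X0, c x = x := fun x hx => by
    simp only [hc]; rw [min_eq_left hx.2, max_eq_right hx.1]
  have hcl : ∀ x, x ≤ -X0 → c x = -X0 := fun x hx => by
    simp only [hc]; rw [min_eq_left (by linarith), max_eq_left hx]
  have hcr : ∀ x, X0 ≤ x → c x = X0 := fun x hx => by
    simp only [hc]; rw [min_eq_right hx, max_eq_right (by linarith)]
  refine ⟨K * K, K, fun x => A (c x),
    posDef_of_path hX hpsd hsupp hpos hK hA0 hA1 hsol fun x hx => (hbd x hx).1, rfl,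
    fun x => (hbd _ (hcmem x)).1, fun x hx => ?_, fun x hx => ?_, fun x => ?_,
    fun x => (hbd _ (hcmem x)).2⟩
  · simp only [hcl x hx, hA0]
  · simp only [hcr x hx, hA1]
  have hout : X0 ≤ |x| → K * K - A (c x) * A (c x) - W (K * K) x = 0 := by
    intro h
    rw [hsupp _ _ h, sub_zero]
    rcases le_abs'.mp h with h' | h'
    · rw [hcl x h', hA0, sub_self]
    · rw [hcr x h', hA1, neg_mul_neg, sub_self]
  have hleft : x ≤ -X0 → HasDerivWithinAt (fun t => A (c t))
      (K * K - A (c x) * A (c x) - W (K * K) x) (Iic (-X0)) x := by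
    intro h
    rw [hout (le_abs'.mpr (Or.inl h))]
    exact (hasDerivWithinAt_const x (Iic (-X0)) K).congr (fun t ht => by rw [hcl t ht, hA0])
      (by rw [hcl x h, hA0])
  have hright : X0 ≤ x → HasDerivWithinAt (fun t => A (c t))
      (K * K - A (c x) * A (c x) - W (K * K) x) (Ici X0) x := by
    intro h
    rw [hout (le_abs'.mpr (Or.inr h))]
    exact (hasDerivWithinAt_const x (Ici X0) (-K)).congr (fun t ht => by rw [hcr t ht, hA1])
      (by rw [hcr x h, hA1])
  have hmid : x ∈ Icc (-X0) X0 → HasDerivWithinAt (fun t => A (c t))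
      (K * K - A (c x) * A (c x) - W (K * K) x) (Icc (-X0) X0) x := by
    intro h
    rw [hcin x h]
    exact (hsol x h).congr (fun t ht => by rw [hcin t ht]) (by rw [hcin x h])
  rcases lt_trichotomy x (-X0) with h | h | h
  · exact (hleft h.le).hasDerivAt (Iic_mem_nhds h)
  · refine ((hleft h.le).union (hmid (h ▸ hlm))).hasDerivAt ?_
    refine mem_of_superset (Iio_mem_nhds (show x < X0 by linarith)) fun t ht => ?_
    rcases le_total t (-X0) with ht' | ht'
    · exact Or.inl ht'
    · exact Or.inr ⟨ht', le_of_lt ht⟩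
  · rcases lt_trichotomy x X0 with h' | h' | h'
    · exact (hmid ⟨h.le, h'.le⟩).hasDerivAt (Icc_mem_nhds h h')
    · refine ((hmid ⟨h.le, h'.le⟩).union (hright h'.ge)).hasDerivAt ?_
      refine mem_of_superset (Ioi_mem_nhds h) fun t ht => ?_
      rcases le_total t X0 with ht' | ht'
      · exact Or.inl ⟨le_of_lt ht, ht'⟩
      · exact Or.inr ht'
    · exact (hright h'.le).hasDerivAt (Ici_mem_nhds h')

end Vale.Agent.P371.Full.Multiplier
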