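import Mathlib
import Vale.Agent.P371.Sharp
import Vale.Agent.P371.Full.Defs

/-!
The value of the calibration constant and the optimiser `ℓ (ℓ + 1) sech²`.
-/

namespace Vale.Agent.P371.Full

open MeasureTheory Finset Matrix Filter Topology
open scoped ComplexOrder ComplexConjugate

/-! ### Powers of `1 / cosh` -/

/-- `(cosh x)^(-a)` -/
noncomputable def sechPow (a x : ℝ) : ℝ := Real.cosh x ^ (-a)

lemma sechPow_pos (a x : ℝ) : 0 < sechPow a x := Real.rpow_pos_of_pos (Real.cosh_pos x) _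

lemma continuous_sechPow (a : ℝ) : Continuous (sechPow a) :=
  Real.continuous_cosh.rpow_const fun x => Or.inl (Real.cosh_pos x).ne'

lemma sechPow_mul (a b x : ℝ) : sechPow a x * sechPow b x = sechPow (a + b) x := by
  simp only [sechPow, ← Real.rpow_add (Real.cosh_pos x)]
  ring_nf

lemma sechPow_two (x : ℝ) : sechPow 2 x = ((Real.cosh x)⁻¹) ^ 2 := by
  rw [sechPow, Real.rpow_neg (Real.cosh_pos x).le, Real.rpow_two, inv_pow]

lemma sechPow_rpow (a b x : ℝ) : sechPow a x ^ b = sechPow (a * b) x := by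
  rw [sechPow, sechPow, ← Real.rpow_mul (Real.cosh_pos x).le]
  ring_nf

lemma sechPow_le {a : ℝ} (ha : 0 < a) (x : ℝ) :
    sechPow a x ≤ 2 ^ a * max 1 (2 / a ^ 2) * (1 + x ^ 2)⁻¹ := by
  have h1 : Real.exp |x| / 2 ≤ Real.cosh x := by
    rw [← Real.cosh_abs x, Real.cosh_eq]
    have := Real.exp_pos (-|x|)
    linarith
  have h2 : sechPow a x ≤ (Real.exp |x| / 2) ^ (-a) :=
    Real.rpow_le_rpow_of_nonpos (by positivity) h1 (by linarith)
  have h3 : (Real.exp |x| / 2) ^ (-a) = 2 ^ a / Real.exp (a * |x|) := by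
    rw [Real.div_rpow (Real.exp_pos _).le zero_le_two, Real.rpow_neg zero_le_two,
      Real.rpow_neg (Real.exp_pos _).le, ← Real.exp_mul, mul_comm |x| a]
    field_simp
  refine h2.trans (h3.trans_le ?_)
  set C := max 1 (2 / a ^ 2)
  have hC : 0 < C := lt_of_lt_of_le one_pos (le_max_left _ _)
  have hC1 : 1 + x ^ 2 ≤ C * Real.exp (a * |x|) := by
    have h4 := Real.quadratic_le_exp_of_nonneg (show 0 ≤ a * |x| by positivity)
    have h5 : (a * |x|) ^ 2 = a ^ 2 * x ^ 2 := by rw [mul_pow, sq_abs]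
    have h6 : 1 ≤ C := le_max_left _ _
    have h7 : x ^ 2 ≤ C * (a ^ 2 * x ^ 2 / 2) := by
      have h8 : 2 / a ^ 2 * (a ^ 2 * x ^ 2 / 2) = x ^ 2 := by field_simp
      exact h8.ge.trans (mul_le_mul_of_nonneg_right (le_max_right _ _) (by positivity))
    have h9 : 0 ≤ a * |x| := by positivity
    nlinarith [mul_le_mul_of_nonneg_left h4 hC.le, mul_nonneg hC.le h9]
  rw [mul_assoc, div_eq_mul_inv]
  refine mul_le_mul_of_nonneg_left ?_ (Real.rpow_nonneg zero_le_two _)
  rw [← one_div, ← div_eq_mul_inv, div_le_div_iff₀ (Real.exp_pos _) (by positivity)]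
  linarith

lemma integrable_sechPow {a : ℝ} (ha : 0 < a) : Integrable (sechPow a) :=
  (integrable_inv_one_add_sq.const_mul _).mono' (continuous_sechPow a).aestronglyMeasurable
    (Eventually.of_forall fun x => by
      rw [Real.norm_eq_abs, abs_of_pos (sechPow_pos a x)]
      exact sechPow_le ha x)

lemma tendsto_sechPow {a : ℝ} (ha : 0 < a) {l : Filter ℝ}
    (hl : Tendsto (fun x => |x|) l atTop) : Tendsto (sechPow a) l (𝓝 0) := by
  refine squeeze_zero (fun x => (sechPow_pos a x).le) (sechPow_le ha) ?_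
  have : Tendsto (fun x : ℝ => 1 + x ^ 2) l atTop := by
    refine tendsto_atTop_add_const_left _ _ ?_
    simpa [Function.comp_def, sq_abs] using (tendsto_pow_atTop two_ne_zero).comp hl
  simpa using this.inv_tendsto_atTop.const_mul (2 ^ a * max 1 (2 / a ^ 2))

/-- `tanh` -/
noncomputable def th (x : ℝ) : ℝ := Real.sinh x / Real.cosh x

lemma th_sq (x : ℝ) : th x ^ 2 = 1 - sechPow 2 x := by
  rw [sechPow_two, th]
  have h := Real.cosh_sq x
  have hc := (Real.cosh_pos x).ne'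
  field_simp
  linarith

lemma abs_th_le (x : ℝ) : |th x| ≤ 1 := by
  have h := th_sq x
  have := sechPow_pos 2 x
  exact (sq_le_one_iff_abs_le_one _).1 (by linarith)

lemma hasDerivAt_th (x : ℝ) : HasDerivAt th (sechPow 2 x) x := by
  refine ((Real.hasDerivAt_sinh x).div (Real.hasDerivAt_cosh x) (Real.cosh_pos x).ne').congr_deriv ?_
  rw [sechPow_two, inv_pow, ← one_div]
  have h := Real.cosh_sq x
  have hc := (Real.cosh_pos x).ne'
  field_simp
  linarith

lemma continuous_th : Continuous th :=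
  continuous_iff_continuousAt.mpr fun x => (hasDerivAt_th x).continuousAt

lemma hasDerivAt_sechPow (a x : ℝ) :
    HasDerivAt (sechPow a) (-a * th x * sechPow a x) x := by
  refine ((Real.hasDerivAt_cosh x).rpow_const (p := -a) (Or.inl (Real.cosh_pos x).ne')).congr_deriv ?_
  simp only [sechPow, th]
  rw [Real.rpow_sub_one (Real.cosh_pos x).ne']
  ring

lemma tendsto_th_atTop : Tendsto th atTop (𝓝 1) := by
  have h : Tendsto (fun x => 1 - sechPow 1 x ^ 2) atTop (𝓝 (1 - 0 ^ 2)) :=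
    ((tendsto_sechPow one_pos tendsto_abs_atTop_atTop).pow 2).const_sub 1
  have h2 := h.sqrt
  norm_num at h2
  refine h2.congr' ((eventually_ge_atTop 0).mono fun x hx => ?_)
  have e : sechPow 1 x ^ 2 = sechPow 2 x := by rw [sq, sechPow_mul]; norm_num
  rw [e, ← th_sq, Real.sqrt_sq (show 0 ≤ th x from div_nonneg (Real.sinh_nonneg_iff.2 hx) (Real.cosh_pos x).le)]

lemma tendsto_th_atBot : Tendsto th atBot (𝓝 (-1)) := by
  have := (tendsto_th_atTop.comp tendsto_neg_atBot_atTop).neg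
  refine this.congr fun x => ?_
  simp [th, neg_div]

/-- `∫ sech^(2ℓ+2) = sphInt ℓ`, by the substitution `τ = tanh x`. -/
lemma integral_sechPow_eq_sphInt {ℓ : ℝ} (hℓ : 0 ≤ ℓ) :
    ∫ x, sechPow (2 * ℓ + 2) x = sphInt ℓ := by
  set g : ℝ → ℝ := fun τ => (1 - τ ^ 2) ^ ℓ
  have hg : Continuous g := (by fun_prop : Continuous fun τ : ℝ => 1 - τ ^ 2).rpow_const fun _ => Or.inr hℓ
  set G : ℝ → ℝ := fun u => ∫ τ in (0 : ℝ)..u, g τ
  have hG : ∀ u, HasDerivAt G (g u) u := fun u => hg.integral_hasStrictDerivAt 0 u |>.hasDerivAt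
  have hd : ∀ x, HasDerivAt (fun x => G (th x)) (sechPow (2 * ℓ + 2) x) x := by
    intro x
    refine ((hG (th x)).comp x (hasDerivAt_th x)).congr_deriv ?_
    simp only [g]
    rw [show 1 - th x ^ 2 = sechPow 2 x by rw [th_sq]; ring, sechPow_rpow, sechPow_mul]
  have hGc : Continuous G := continuous_iff_continuousAt.mpr fun u => (hG u).continuousAt
  rw [integral_of_hasDerivAt_of_tendsto hd (integrable_sechPow (by linarith))
    ((hGc.tendsto _).comp tendsto_th_atBot) ((hGc.tendsto _).comp tendsto_th_atTop)]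
  simp only [G, sphInt]
  exact intervalIntegral.integral_interval_sub_left (hg.intervalIntegrable _ _)
    (hg.intervalIntegrable _ _)

/-- the recursion `(2ℓ + 1) ∫ sech^(2ℓ+2) = 2ℓ ∫ sech^(2ℓ)` -/
lemma integral_sechPow_rec {ℓ : ℝ} (hℓ : 0 < ℓ) :
    (2 * ℓ + 1) * ∫ x, sechPow (2 * ℓ + 2) x = 2 * ℓ * ∫ x, sechPow (2 * ℓ) x := by
  have hd : ∀ x, HasDerivAt (fun x => th x * sechPow (2 * ℓ) x)
      ((2 * ℓ + 1) * sechPow (2 * ℓ + 2) x - 2 * ℓ * sechPow (2 * ℓ) x) x := by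
    intro x
    refine ((hasDerivAt_th x).mul (hasDerivAt_sechPow (2 * ℓ) x)).congr_deriv ?_
    have e : sechPow (2 * ℓ + 2) x = sechPow 2 x * sechPow (2 * ℓ) x := by
      rw [sechPow_mul, add_comm]
    have e2 := th_sq x
    rw [e]
    linear_combination (-(2 * ℓ) * sechPow (2 * ℓ) x) * e2
  have i1 : Integrable fun x => (2 * ℓ + 1) * sechPow (2 * ℓ + 2) x :=
    (integrable_sechPow (by linarith)).const_mul _
  have i2 : Integrable fun x => 2 * ℓ * sechPow (2 * ℓ) x :=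
    (integrable_sechPow (by linarith)).const_mul _
  have hlim : ∀ l : Filter ℝ, Tendsto (fun x => |x|) l atTop →
      Tendsto (fun x => th x * sechPow (2 * ℓ) x) l (𝓝 0) := fun l hl =>
    squeeze_zero_norm (fun x => by
      rw [norm_mul, Real.norm_eq_abs, Real.norm_eq_abs, abs_of_pos (sechPow_pos _ x)]
      exact mul_le_of_le_one_left (sechPow_pos _ x).le (abs_th_le x))
      (tendsto_sechPow (by linarith) hl)
  have := integral_of_hasDerivAt_of_tendsto hd (i1.sub i2)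
    (hlim _ tendsto_abs_atBot_atTop) (hlim _ tendsto_abs_atTop_atTop)
  rw [integral_sub i1 i2, integral_const_mul, integral_const_mul] at this
  linarith

/-- `sphInt ℓ = √π Γ(ℓ+1) / Γ(ℓ+3/2)` -/
lemma sphInt_eq {ℓ : ℝ} (hℓ : 0 ≤ ℓ) :
    sphInt ℓ = Real.sqrt Real.pi * Real.Gamma (ℓ + 1) / Real.Gamma (ℓ + 3 / 2) := by
  have h1 : sphInt ℓ = 2 * 4 ^ ℓ * ∫ x in (0 : ℝ)..1, x ^ ℓ * (1 - x) ^ ℓ := by
    rw [sphInt]
    have h := intervalIntegral.integral_comp_mul_sub (a := (0 : ℝ)) (b := 1)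
      (fun τ : ℝ => (1 - τ ^ 2) ^ ℓ) (c := 2) two_ne_zero 1
    norm_num at h
    have e : ∫ x in (0 : ℝ)..1, (1 - (2 * x - 1) ^ 2) ^ ℓ =
        ∫ x in (0 : ℝ)..1, (4 : ℝ) ^ ℓ * (x ^ ℓ * (1 - x) ^ ℓ) := by
      refine intervalIntegral.integral_congr fun x hx => ?_
      rw [Set.uIcc_of_le zero_le_one] at hx
      rw [← Real.mul_rpow hx.1 (by linarith [hx.2]), ← Real.mul_rpow (by norm_num)
        (mul_nonneg hx.1 (by linarith [hx.2]))]
      congr 1; ring
    rw [e, intervalIntegral.integral_const_mul] at h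
    linarith
  have h2 : ∫ x in (0 : ℝ)..1, x ^ ℓ * (1 - x) ^ ℓ = ProbabilityTheory.beta (ℓ + 1) (ℓ + 1) := by
    rw [ProbabilityTheory.beta_eq_betaIntegralReal _ _ (by linarith) (by linarith), Complex.betaIntegral]
    have e : ∫ x in (0 : ℝ)..1, (x : ℂ) ^ (((ℓ + 1 : ℝ) : ℂ) - 1) * (1 - (x : ℂ)) ^ (((ℓ + 1 : ℝ) : ℂ) - 1)
        = ∫ x in (0 : ℝ)..1, ((x ^ ℓ * (1 - x) ^ ℓ : ℝ) : ℂ) := by
      refine intervalIntegral.integral_congr fun x hx => ?_
      rw [Set.uIcc_of_le zero_le_one] at hx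
      simp only [Complex.ofReal_mul, Complex.ofReal_cpow hx.1,
        Complex.ofReal_cpow (show 0 ≤ 1 - x by linarith [hx.2])]
      push_cast
      ring_nf
    rw [e, intervalIntegral.integral_ofReal, Complex.ofReal_re]
  have h3 := Real.Gamma_mul_Gamma_add_half (ℓ + 1)
  rw [show ℓ + 1 + 1 / 2 = ℓ + 3 / 2 by ring] at h3
  have h4 : (2 : ℝ) ^ (1 - 2 * (ℓ + 1)) = 1 / (2 * 4 ^ ℓ) := by
    rw [show 1 - 2 * (ℓ + 1) = -(1 + 2 * ℓ) by ring, Real.rpow_neg zero_le_two,
      Real.rpow_add two_pos, Real.rpow_one, Real.rpow_mul zero_le_two, Real.rpow_two]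
    norm_num
  rw [h4] at h3
  have g1 : 0 < Real.Gamma (ℓ + 1) := Real.Gamma_pos_of_pos (by linarith)
  have g2 : 0 < Real.Gamma (ℓ + 3 / 2) := Real.Gamma_pos_of_pos (by linarith)
  have g3 : 0 < Real.Gamma (2 * (ℓ + 1)) := Real.Gamma_pos_of_pos (by linarith)
  have g4 : (0 : ℝ) < 4 ^ ℓ := by positivity
  rw [h1, h2, ProbabilityTheory.beta, show ℓ + 1 + (ℓ + 1) = 2 * (ℓ + 1) by ring]
  field_simp at h3 ⊢
  linear_combination h3

/-- The calibration constant is Keller's constant. -/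
theorem calibConst_eq {γ : ℝ} (h1 : 1 / 2 < γ) : calibConst γ = oneStateConst γ := by
  obtain ⟨ℓ, rfl⟩ : ∃ ℓ, γ = ℓ + 1 / 2 := ⟨γ - 1 / 2, by ring⟩
  have hℓ : 0 < ℓ := by linarith
  rw [calibConst, oneStateConst, show ℓ + 1 / 2 - 1 / 2 = ℓ by ring,
    show ℓ + 1 / 2 + 1 / 2 = ℓ + 1 by ring, show ℓ + 1 / 2 + 1 = ℓ + 3 / 2 by ring,
    show ℓ + 1 / 2 + 3 / 2 = ℓ + 1 + 1 by ring, sphInt_eq hℓ.le,
    Real.Gamma_add_one (s := ℓ + 1) (by linarith), Real.div_rpow hℓ.le (by linarith),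
    Real.rpow_add_one (show (ℓ + 1 : ℝ) ≠ 0 by linarith)]
  have g1 : 0 < Real.Gamma (ℓ + 1) := Real.Gamma_pos_of_pos (by linarith)
  have g2 : 0 < Real.Gamma (ℓ + 3 / 2) := Real.Gamma_pos_of_pos (by linarith)
  have g3 : 0 < (ℓ + 1) ^ ℓ := Real.rpow_pos_of_pos (by linarith) _
  field_simp

/-! ### The optimiser -/

/-- `ℓ (ℓ + 1) sech²` with `m` copies of its ground state attains the constant. -/
theorem exists_optimizer {γ : ℝ} (hγ : 1 / 2 < γ) (m : ℕ) :
    ∃ W : ℝ → CMat m, IsPotential γ W ∧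
      potentialNorm γ W =
        m * (((γ - 1 / 2) * (γ + 1 / 2)) ^ (γ + 1 / 2) * sphInt (γ - 1 / 2)) ∧
      ∃ ψ : Fin m → ℝ → EuclideanSpace ℂ (Fin m), IsTrialFamily ψ ∧
        ∀ j k, formEntry W (ψ j) (ψ k) = if j = k then -(((γ - 1 / 2) ^ 2 : ℝ) : ℂ) else 0 := by
  obtain ⟨ℓ, rfl⟩ : ∃ ℓ, γ = ℓ + 1 / 2 := ⟨γ - 1 / 2, by ring⟩
  have hℓ : 0 < ℓ := by linarith
  rw [show ℓ + 1 / 2 - 1 / 2 = ℓ by ring, show ℓ + 1 / 2 + 1 / 2 = ℓ + 1 by ring]
  set w : ℝ → ℝ := fun x => ℓ * (ℓ + 1) * sechPow 2 x with hw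
  set W : ℝ → CMat m := fun x => (w x : ℂ) • 1 with hWdef
  have hw0 : ∀ x, 0 ≤ w x := fun x => mul_nonneg (by positivity) (sechPow_pos 2 x).le
  have hWp : ∀ x, (W x).PosSemidef := fun x =>
    Matrix.PosSemidef.one.smul (by rw [Complex.le_def]; simp [hw0 x])
  have hnorm : ∀ x, trRpow (W x) (ℓ + 1 / 2 + 1 / 2) =
      (m : ℝ) * (ℓ * (ℓ + 1)) ^ (ℓ + 1) * sechPow (2 * ℓ + 2) x := by
    intro x
    rw [trRpow, dif_pos (hWp x).isHermitian, show ℓ + 1 / 2 + 1 / 2 = ℓ + 1 by ring]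
    simp only [hWdef, eigenvalues_smul_one, sum_const, card_univ, Fintype.card_fin, nsmul_eq_mul, hw]
    rw [Real.mul_rpow (by positivity) (sechPow_pos 2 x).le, sechPow_rpow]
    ring_nf
  set I0 := ∫ x, sechPow (2 * ℓ) x with hI0
  have hI0pos : 0 < I0 := by
    refine (integral_pos_iff_support_of_nonneg (fun x => (sechPow_pos _ x).le)
      (integrable_sechPow (by linarith))).2 ?_
    have : Function.support (sechPow (2 * ℓ)) = Set.univ :=
      Set.eq_univ_of_forall fun x => (sechPow_pos _ x).ne'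
    rw [this]; simp
  set c := (Real.sqrt I0)⁻¹ with hc
  have hc2 : c ^ 2 * I0 = 1 := by
    rw [hc, inv_pow, Real.sq_sqrt hI0pos.le]
    field_simp
  set f : ℝ → ℝ := fun x => c * sechPow ℓ x with hf
  set f' : ℝ → ℝ := fun x => c * (-ℓ * th x * sechPow ℓ x) with hf'
  have hfd : ∀ x, HasDerivAt f (f' x) x := fun x => (hasDerivAt_sechPow ℓ x).const_mul c
  have hf2 : ∀ x, f x * f x = c ^ 2 * sechPow (2 * ℓ) x := fun x => by
    simp only [hf, two_mul ℓ, ← sechPow_mul]; ring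
  have hf'2 : ∀ x, f' x * f' x =
      c ^ 2 * ℓ ^ 2 * (sechPow (2 * ℓ) x - sechPow (2 * ℓ + 2) x) := fun x => by
    have e2 := th_sq x
    simp only [hf', two_mul ℓ, ← sechPow_mul]
    linear_combination (c ^ 2 * ℓ ^ 2 * sechPow ℓ x * sechPow ℓ x) * e2
  have hfc : Continuous f := continuous_const.mul (continuous_sechPow ℓ)
  have hf'c : Continuous f' :=
    continuous_const.mul ((continuous_const.mul continuous_th).mul (continuous_sechPow ℓ))
  have i0 : Integrable fun x => sechPow (2 * ℓ) x := integrable_sechPow (by linarith)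
  have i1 : Integrable fun x => sechPow (2 * ℓ + 2) x := integrable_sechPow (by linarith)
  set ψ : Fin m → ℝ → EuclideanSpace ℂ (Fin m) := fun j x =>
    (f x : ℂ) • EuclideanSpace.single j (1 : ℂ) with hψ
  have hψd : ∀ j x, HasDerivAt (ψ j) ((f' x : ℂ) • EuclideanSpace.single j (1 : ℂ)) x :=
    fun j x => ((hfd x).ofReal_comp).smul_const _
  have hd : ∀ j, deriv (ψ j) = fun x => (f' x : ℂ) • EuclideanSpace.single j (1 : ℂ) :=
    fun j => funext fun x => (hψd j x).deriv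
  have hmem : ∀ (g : ℝ → ℝ) (j : Fin m), Continuous g → Integrable (fun x => g x * g x) →
      MemLp (fun x => (g x : ℂ) • EuclideanSpace.single j (1 : ℂ)) 2 volume := by
    intro g j hg hi
    have : MemLp g 2 volume := (memLp_two_iff_integrable_sq hg.aestronglyMeasurable).mpr
      (by simpa only [sq] using hi)
    refine MemLp.of_le (g := g) this (by fun_prop) (Eventually.of_forall fun x => ?_)
    simp [norm_smul]
  have hinner : ∀ (g : ℝ → ℝ) (j k : Fin m),
      ∫ x, inner ℂ ((g x : ℂ) • EuclideanSpace.single j (1 : ℂ))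
        ((g x : ℂ) • EuclideanSpace.single k (1 : ℂ)) =
        if j = k then ((∫ x, g x * g x : ℝ) : ℂ) else 0 := by
    intro g j k
    simp only [inner_smul_left, inner_smul_right, EuclideanSpace.inner_single_left, map_one,
      Complex.conj_ofReal, one_mul, PiLp.single_apply]
    by_cases h : j = k
    · subst h
      simp only [if_true, mul_one]
      rw [← integral_complex_ofReal]
      exact integral_congr_ae (Eventually.of_forall fun x => by push_cast; ring)
    · simp [h]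
  refine ⟨W, ⟨fun a b => ?_, hWp, ?_⟩, ?_, ψ,
    ⟨fun j => ?_, fun j => hmem f j hfc ?_, fun j => ?_, fun j k => ?_⟩, fun j k => ?_⟩
  · have : Continuous w := continuous_const.mul (continuous_sechPow 2)
    simp only [hWdef, Matrix.smul_apply, smul_eq_mul]
    exact ((Complex.continuous_ofReal.comp this).mul continuous_const).measurable
  · simp only [hnorm]
    exact i1.const_mul _
  · unfold potentialNorm
    simp only [hnorm, integral_const_mul, integral_sechPow_eq_sphInt hℓ.le]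
    ring
  · refine contDiff_one_iff_deriv.mpr ⟨fun x => (hψd j x).differentiableAt, ?_⟩
    rw [hd j]
    fun_prop
  · simp only [hf2]; exact i0.const_mul _
  · rw [hd j]
    refine hmem f' j hf'c ?_
    simp only [hf'2]; exact (i0.sub i1).const_mul _
  · rw [hinner f j k]
    congr 1
    simp only [hf2, integral_const_mul, ← hI0, hc2, Complex.ofReal_one]
  · have e1 : ∫ x, ∑ a, ∑ b, conj (ψ j x a) * W x a b * ψ k x b =
        if j = k then ((∫ x, w x * (f x * f x) : ℝ) : ℂ) else 0 := by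
      have : ∀ x, (∑ a, ∑ b, conj (ψ j x a) * W x a b * ψ k x b) =
          if j = k then ((w x * (f x * f x) : ℝ) : ℂ) else 0 := by
        intro x
        simp only [hψ, hWdef, PiLp.smul_apply, PiLp.single_apply, Matrix.smul_apply, smul_eq_mul,
          Matrix.one_apply]
        rw [sum_eq_single j (fun a _ ha => by simp [ha]) (by simp),
          sum_eq_single k (fun b _ hb => by simp [hb]) (by simp)]
        by_cases h : j = k
        · subst h
          simp only [if_true, mul_one, Complex.conj_ofReal]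
          push_cast
          ring
        · simp [h]
      simp only [this]
      split_ifs with h
      · exact integral_complex_ofReal
      · simp
    rw [formEntry, e1, hd j, hd k, hinner f' j k]
    split_ifs with h
    · rw [← Complex.ofReal_sub, ← Complex.ofReal_neg]
      congr 1
      have e2 : ∀ x, w x * (f x * f x) = ℓ * (ℓ + 1) * c ^ 2 * sechPow (2 * ℓ + 2) x := by
        intro x
        rw [hf2, hw]
        simp only [add_comm (2 * ℓ) 2, ← sechPow_mul]
        ring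
      simp only [hf'2, e2, integral_const_mul, integral_sub i0 i1]
      have hrec := integral_sechPow_rec hℓ
      rw [← hI0] at hrec ⊢
      linear_combination (-(ℓ * c ^ 2)) * hrec + (-(ℓ ^ 2)) * hc2
    · simp

lemma ratio_eq {γ : ℝ} (hγ : 1 / 2 < γ) :
    ((γ - 1 / 2) ^ 2) ^ γ / (((γ - 1 / 2) * (γ + 1 / 2)) ^ (γ + 1 / 2) * sphInt (γ - 1 / 2)) =
      calibConst γ := by
  obtain ⟨ℓ, rfl⟩ : ∃ ℓ, γ = ℓ + 1 / 2 := ⟨γ - 1 / 2, by ring⟩
  have hℓ : 0 < ℓ := by linarith
  rw [calibConst, show ℓ + 1 / 2 - 1 / 2 = ℓ by ring, show ℓ + 1 / 2 + 1 / 2 = ℓ + 1 by ring,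
    Real.mul_rpow hℓ.le (by linarith), ← Real.rpow_natCast, ← Real.rpow_mul hℓ.le,
    show ((2 : ℕ) : ℝ) * (ℓ + 1 / 2) = (ℓ + 1) + ℓ by push_cast; ring, Real.rpow_add hℓ]
  have : 0 < ℓ ^ (ℓ + 1) := Real.rpow_pos_of_pos hℓ _
  field_simp

lemma sphInt_pos {ℓ : ℝ} (hℓ : 0 ≤ ℓ) : 0 < sphInt ℓ := by
  rw [sphInt_eq hℓ]
  have := Real.Gamma_pos_of_pos (show 0 < ℓ + 1 by linarith)
  have := Real.Gamma_pos_of_pos (show 0 < ℓ + 3 / 2 by linarith)
  positivity

/-- The constant is attained for every `m ≥ 1`. -/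
theorem calibConst_mem_ltRatios {γ : ℝ} (hγ : 1 / 2 < γ) {m : ℕ} (hm : 1 ≤ m) :
    calibConst γ ∈ ltRatios γ m := by
  obtain ⟨W, hW, hn, ψ, hψ, hq⟩ := exists_optimizer hγ m
  have hm' : (0 : ℝ) < m := Nat.cast_pos.mpr hm
  have hs := sphInt_pos (show 0 ≤ γ - 1 / 2 by linarith)
  have hg : (0 : ℝ) < (γ - 1 / 2) * (γ + 1 / 2) := mul_pos (by linarith) (by linarith)
  have hl : 0 < γ - 1 / 2 := by linarith
  refine ⟨W, hW, by rw [hn]; positivity, m, ψ, fun _ => (γ - 1 / 2) ^ 2, hψ,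
    fun _ => by positivity, hq, ?_⟩
  rw [hn, sum_const, card_univ, Fintype.card_fin, nsmul_eq_mul,
    mul_div_mul_left _ _ hm'.ne', ratio_eq hγ]

/-- The constant is attained by one bound state. -/
theorem calibConst_mem_oneStateRatios {γ : ℝ} (hγ : 1 / 2 < γ) :
    calibConst γ ∈ oneStateRatios γ := by
  obtain ⟨W, hW, hn, ψ, hψ, hq⟩ := exists_optimizer hγ 1
  have hs := sphInt_pos (show 0 ≤ γ - 1 / 2 by linarith)
  have hg : (0 : ℝ) < (γ - 1 / 2) * (γ + 1 / 2) := mul_pos (by linarith) (by linarith)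
  have hl : 0 < γ - 1 / 2 := by linarith
  refine ⟨W, hW, by rw [hn]; positivity, ψ, (γ - 1 / 2) ^ 2, hψ, by positivity,
    by rw [hq 0 0, if_pos rfl], ?_⟩
  rw [hn, Nat.cast_one, one_mul, ratio_eq hγ]

/-- One bound state is a special case of the general quotient. -/
theorem oneStateRatios_subset (γ : ℝ) : oneStateRatios γ ⊆ ltRatios γ 1 := by
  rintro r ⟨W, hW, hpos, ψ, e, hψ, he, hq, rfl⟩
  refine ⟨W, hW, hpos, 1, ψ, fun _ => e, hψ, fun _ => he, fun j k => ?_, by simp⟩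
  rw [Subsingleton.elim j 0, Subsingleton.elim k 0, if_pos rfl]
  exact hq

end Vale.Agent.P371.Full
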