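import Vale.Agent.P371.Full.JMatrix

/-!
`tr (A ^ p)`: conjugation invariance and continuity.
-/

namespace Vale.Agent.P371.Full

open Finset Matrix Polynomial
open scoped ComplexOrder ComplexConjugate Matrix.Norms.L2Operator

variable {N : ℕ}

/-- `tr (A ^ p)` only depends on the characteristic polynomial. -/
lemma trRpow_eq_roots {A : CMat N} (hA : A.IsHermitian) (p : ℝ) :
    trRpow A p = (A.charpoly.roots.map fun z => z.re ^ p).sum := by
  rw [trRpow, dif_pos hA, hA.roots_charpoly_eq_eigenvalues, Multiset.map_map,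
    Finset.sum_eq_multiset_sum]
  simp [Function.comp_def]

/-- `tr (U diag(d) Uᴴ) ^ p = ∑ dᵢ ^ p`. -/
theorem trRpow_conj_rdiag (U : CMat N) (hU : Uᴴ * U = 1) (d : Fin N → ℝ) (p : ℝ) :
    trRpow (U * rdiag d * Uᴴ) p = ∑ i, d i ^ p := by
  have hH : (U * rdiag d * Uᴴ).IsHermitian :=
    Matrix.isHermitian_mul_mul_conjTranspose U (rdiag_conjTranspose d)
  rw [trRpow_eq_roots hH, Matrix.mul_assoc, Matrix.charpoly_mul_comm, Matrix.mul_assoc, hU,
    Matrix.mul_one, rdiag, Matrix.charpoly_diagonal, Polynomial.roots_prod _ _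
      (Finset.prod_ne_zero_iff.mpr fun i _ => Polynomial.X_sub_C_ne_zero _)]
  simp [Finset.sum_eq_multiset_sum, Function.comp_def]

/-- `tr (A ^ p) = Re tr (cfc (· ^ p) A)`. -/
lemma trRpow_eq_trace_cfc_eigen {A : CMat N} (hA : A.IsHermitian) (p : ℝ) :
    trRpow A p = (trace (cfc (fun a : ℝ => a ^ p) A)).re := by
  rw [trRpow, dif_pos hA, hA.cfc_eq, Matrix.IsHermitian.cfc, Unitary.conjStarAlgAut_apply,
    trace_mul_cycle, Unitary.coe_star_mul_self, Matrix.one_mul, trace_diagonal, Complex.re_sum]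
  rfl

/-- `x ↦ tr (W x) ^ p` is continuous for continuous positive semidefinite `W`. -/
theorem continuous_trRpow_path {p : ℝ} (hp : 0 < p) {W : ℝ → CMat N} (hc : Continuous W)
    (hW : ∀ x, (W x).PosSemidef) : Continuous fun x => trRpow (W x) p := by
  have h : Continuous fun x => cfc (fun a : ℝ => a ^ p) (W x) :=
    Continuous.cfc_of_mem_nhdsSet (s := Set.univ) _ Filter.univ_mem hc
      (fun x => (hW x).isHermitian.isSelfAdjoint) (Real.continuous_rpow_const hp.le).continuousOn
  exact (Complex.continuous_re.comp (Continuous.matrix_trace h)).congr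
    fun x => (trRpow_eq_trace_cfc_eigen (hW x).isHermitian p).symm

end Vale.Agent.P371.Full
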