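import Vale.Agent.P371.Full.Criterion
import Vale.Agent.P371.Full.TrRpow
import Vale.Agent.P371.Full.Sharp

/-!
A Riccati path from `√Q` to `-√Q` bounds `tr Q^γ` by the potential.
-/

namespace Vale.Agent.P371.Full

open MeasureTheory Finset Matrix Filter Topology Set
open scoped ComplexOrder ComplexConjugate Matrix.Norms.L2Operator

variable {N : ℕ} {q : Fin N → ℝ}

lemma rtr_comm (B M : CMat N) : rtr B M = rtr M B := by
  rw [rtr_apply, rtr_apply, trace_mul_comm]

lemma abs_rtr_le (B M : CMat N) : |rtr B M| ≤ ‖rtr (1 : CMat N)‖ * (‖B‖ * ‖M‖) := by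
  have e : rtr B M = rtr 1 (B * M) := by simp [rtr_apply]
  rw [e, ← Real.norm_eq_abs]
  exact ((rtr (1 : CMat N)).le_opNorm _).trans
    (mul_le_mul_of_nonneg_left (norm_mul_le _ _) (norm_nonneg _))

lemma continuous_rtr {P : Type*} [TopologicalSpace P] {f g : P → CMat N} (hf : Continuous f)
    (hg : Continuous g) : Continuous fun p => rtr (f p) (g p) :=
  (Complex.continuous_re.comp (hf.matrix_mul hg).matrix_trace)

lemma continuous_jmat_max {A : CMat N} (h : Dom q A) :
    Continuous fun s => jmat q A (max s 0) :=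
  continuous_jmat continuous_const (by fun_prop) (fun _ => h) fun s => le_max_right s 0

lemma pairing_integrable {ℓ : ℝ} (h0 : 0 < ℓ) (h1 : ℓ < 1) {A : CMat N} (h : Dom q A) (B : CMat N) :
    IntegrableOn (fun s => s ^ (ℓ - 1) * (rtr B 1 - s * rtr B (jmat q A s))) (Ioi 0) := by
  obtain ⟨c, hc, hb⟩ := jmat_asymp h
  have hcont : ContinuousOn (fun s => rtr B 1 - s * rtr B (jmat q A s)) (Ici 0) := by
    have : Continuous fun s => rtr B 1 - s * rtr B (jmat q A (max s 0)) :=
      continuous_const.sub (continuous_id.mul ((rtr B).continuous.comp (continuous_jmat_max h)))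
    refine this.continuousOn.congr fun s (hs : 0 ≤ s) => ?_
    simp [max_eq_left hs]
  refine integrableOn_weight h0 h1 (c := ‖rtr B‖ * c) hcont fun s hs => ?_
  have hs0 : 0 < s := by linarith
  have h2 := (hb s hs B).2
  have e : rtr B 1 - s * rtr B (jmat q A s) = -(s * (rtr B (jmat q A s) - rtr B 1 / s)) := by
    field_simp; ring
  rw [e, abs_neg, abs_mul, abs_of_pos hs0]
  refine (mul_le_mul_of_nonneg_left h2 hs0.le).trans (le_of_eq ?_)
  field_simp

lemma pairing_sub {ℓ : ℝ} (h0 : 0 < ℓ) (h1 : ℓ < 1) {A : CMat N} (h : Dom q A) (B B' : CMat N) :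
    pairing ℓ q A (B - B') = pairing ℓ q A B - pairing ℓ q A B' := by
  unfold pairing
  rw [← integral_sub (pairing_integrable h0 h1 h B) (pairing_integrable h0 h1 h B')]
  refine integral_congr_ae (Eventually.of_forall fun s => ?_)
  simp only [rtr_apply, Matrix.sub_mul, trace_sub, Complex.sub_re]
  ring

lemma pairing_smul {ℓ : ℝ} {A : CMat N} (r : ℝ) (B : CMat N) :
    pairing ℓ q A (r • B) = r * pairing ℓ q A B := by
  unfold pairing
  rw [← integral_const_mul]
  refine integral_congr_ae (Eventually.of_forall fun s => ?_)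
  simp only [rtr_apply, Matrix.smul_mul, trace_smul, Complex.real_smul, Complex.re_ofReal_mul]
  ring

/-- The potential `Φ` before integrating in `s`. -/
noncomputable def fpot (q : Fin N → ℝ) (A : CMat N) (s : ℝ) : ℝ :=
  rtr 1 A - s / 2 * ∫ t in (-1 : ℝ)..1, rtr (kap q s)⁻¹ (A * (xmat q A s t)⁻¹)

lemma fpot_diff {a b : ℝ} (hab : a ≤ b) {P P' : ℝ → CMat N} (hd : ∀ x, Dom q (P x))
    (hP : Continuous P) (hP' : Continuous P') (hder : ∀ x ∈ Ioo a b, HasDerivAt P (P' x) x)
    {s : ℝ} (hs : 0 ≤ s) :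
    (∫ x in a..b, (rtr (P' x) 1 - s * rtr (P' x) (jmat q (P x) s))) =
      fpot q (P b) s - fpot q (P a) s := by
  set τ : ℝ → ℝ := fun t => max (-1) (min t 1) with hτ
  have hτm : ∀ t, τ t ∈ Icc (-1 : ℝ) 1 := fun t =>
    ⟨le_max_left _ _, max_le (by norm_num) (min_le_right _ _)⟩
  have hτe : ∀ t ∈ Icc (-1 : ℝ) 1, τ t = t := fun t ht => by
    simp [hτ, max_eq_right ht.1, min_eq_left ht.2]
  set g : ℝ → ℝ → ℝ := fun x t =>
    rtr (P' x) ((xmat q (P x) s (τ t))⁻¹ * (xmat q (P x) s (τ t))⁻¹) with hg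
  have hinv : Continuous fun z : ℝ × ℝ => (xmat q (P z.1) s (τ z.2))⁻¹ := by
    refine continuous_iff_continuousAt.mpr fun z =>
      continuousAt_inv ?_ ((hd z.1).isUnit_xmat hs (hτm _))
    exact (continuous_const.add ((show Continuous fun z : ℝ × ℝ => τ z.2 by fun_prop).smul
      (hP.comp continuous_fst))).continuousAt
  have hgc : Continuous (Function.uncurry g) :=
    continuous_rtr (hP'.comp continuous_fst) (hinv.mul hinv)
  have hgi : IntegrableOn (Function.uncurry g) (Set.uIoc a b ×ˢ Set.uIoc (-1 : ℝ) 1) :=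
    (hgc.continuousOn.integrableOn_compact (isCompact_uIcc.prod isCompact_uIcc)).mono_set
      (Set.prod_mono Set.uIoc_subset_uIcc Set.uIoc_subset_uIcc)
  have e1 : ∀ x, rtr (P' x) (jmat q (P x) s) = (1 / 2 : ℝ) * ∫ t in (-1 : ℝ)..1, g x t := by
    intro x
    rw [(hd x).clm_jmat hs, smul_eq_mul]
    refine congrArg ((1 / 2 : ℝ) * ·) (intervalIntegral.integral_congr fun t ht => ?_)
    rw [Set.uIcc_of_le (by norm_num)] at ht
    simp [hg, hτe t ht]
  have e2 : ∀ t, (∫ x in a..b, g x t) =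
      rtr (kap q s)⁻¹ (P b * (xmat q (P b) s (τ t))⁻¹) -
        rtr (kap q s)⁻¹ (P a * (xmat q (P a) s (τ t))⁻¹) := by
    intro t
    refine intervalIntegral.integral_eq_sub_of_hasDerivAt_of_le hab
      (f := fun x => rtr (kap q s)⁻¹ (P x * (xmat q (P x) s (τ t))⁻¹)) ?_ ?_
      (hgc.comp (continuous_id.prodMk continuous_const) |>.intervalIntegrable _ _)
    · exact ((rtr (kap q s)⁻¹).continuous.comp
        (hP.mul (hinv.comp (continuous_id.prodMk continuous_const)))).continuousOn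
    · intro x hx
      have hu := (hd x).isUnit_xmat hs (hτm t)
      have hX : HasDerivAt (fun y => xmat q (P y) s (τ t)) (τ t • P' x) x :=
        ((hder x hx).const_smul (τ t)).const_add (kap q s)
      refine ((rtr (kap q s)⁻¹).hasFDerivAt.comp_hasDerivAt x
        ((hder x hx).mul (hasDerivAt_inv hX hu))).congr_deriv ?_
      set X := xmat q (P x) s (τ t) with hXdef
      have hk : kap q s = X - τ t • P x := by simp [hXdef, xmat]
      have hku : IsUnit (kap q s).det := by
        rw [← Matrix.isUnit_iff_isUnit_det]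
        exact (rdiag_posDef fun i => Real.sqrt_pos.mpr (by linarith [(hd x).pos i])).isUnit
      have key : X⁻¹ * (kap q s)⁻¹ - τ t • (X⁻¹ * (kap q s)⁻¹ * P x * X⁻¹) = X⁻¹ * X⁻¹ := by
        have h1 : (kap q s)⁻¹ * X - τ t • ((kap q s)⁻¹ * P x) = 1 := by
          rw [← Matrix.mul_smul, ← Matrix.mul_sub, ← hk, Matrix.nonsing_inv_mul _ hku]
        have h2 := congrArg (fun M => X⁻¹ * M * X⁻¹) h1
        simp only [Matrix.mul_sub, Matrix.sub_mul, Matrix.mul_smul, Matrix.smul_mul, Matrix.mul_one,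
          Matrix.mul_assoc, Matrix.mul_nonsing_inv _ hu] at h2
        simpa only [Matrix.mul_assoc] using h2
      simp only [hg, rtr_apply, ← hXdef, ← key, Matrix.mul_add, Matrix.mul_sub, Matrix.mul_neg,
        Matrix.mul_smul, Matrix.smul_mul, trace_add, trace_sub, trace_neg, trace_smul,
        Complex.add_re, Complex.sub_re, Complex.neg_re, Complex.real_smul, Complex.re_ofReal_mul]
      rw [← sub_eq_add_neg]
      congr 1
      · rw [trace_mul_comm (P' x), ← trace_mul_cycle]
        simp only [Matrix.mul_assoc]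
      · congr 2
        rw [← Matrix.mul_assoc, ← Matrix.mul_assoc, trace_mul_comm (P' x), trace_mul_cycle]
        simp only [Matrix.mul_assoc]
  have e3 : ∀ x, (∫ t in (-1 : ℝ)..1, rtr (kap q s)⁻¹ (P x * (xmat q (P x) s (τ t))⁻¹)) =
      ∫ t in (-1 : ℝ)..1, rtr (kap q s)⁻¹ (P x * (xmat q (P x) s t)⁻¹) := by
    intro x
    refine intervalIntegral.integral_congr fun t ht => ?_
    rw [Set.uIcc_of_le (by norm_num)] at ht
    simp [hτe t ht]
  have e4 : (∫ x in a..b, rtr (P' x) 1) = rtr 1 (P b) - rtr 1 (P a) := by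
    refine intervalIntegral.integral_eq_sub_of_hasDerivAt_of_le hab
      (f := fun x => rtr 1 (P x)) ((rtr 1).continuous.comp hP).continuousOn (fun x hx => ?_)
      ((continuous_rtr hP' continuous_const).intervalIntegrable _ _)
    exact ((rtr 1).hasFDerivAt.comp_hasDerivAt x (hder x hx)).congr_deriv (rtr_comm _ _)
  have hiJ : IntervalIntegrable (fun x => s * rtr (P' x) (jmat q (P x) s)) volume a b :=
    (continuous_const.mul (continuous_rtr hP' (continuous_jmat hP continuous_const hd fun _ => hs)))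
      |>.intervalIntegrable _ _
  rw [intervalIntegral.integral_sub ((continuous_rtr hP' continuous_const).intervalIntegrable _ _)
    hiJ, e4, intervalIntegral.integral_const_mul]
  simp only [e1, intervalIntegral.integral_const_mul]
  rw [intervalIntegral_intervalIntegral_swap hgi]
  simp only [e2]
  have hci : ∀ x, IntervalIntegrable
      (fun t => rtr (kap q s)⁻¹ (P x * (xmat q (P x) s (τ t))⁻¹)) volume (-1) 1 := fun x =>
    ((rtr (kap q s)⁻¹).continuous.comp (continuous_const.mul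
      (hinv.comp (continuous_const.prodMk continuous_id)))).intervalIntegrable _ _
  rw [intervalIntegral.integral_sub (hci b) (hci a), e3, e3]
  simp only [fpot]
  ring

/-- Chain rule for `Φ`. -/
lemma potential_chain {ℓ : ℝ} (h0 : 0 < ℓ) (h1 : ℓ < 1) (hq : ∀ i, 0 < q i) {a b : ℝ} (hab : a ≤ b)
    {P P' : ℝ → CMat N} (hd : ∀ x, Dom q (P x)) (hP : Continuous P) (hP' : Continuous P')
    (hder : ∀ x ∈ Ioo a b, HasDerivAt P (P' x) x) :
    IntervalIntegrable (fun x => pairing ℓ q (P x) (P' x)) volume a b ∧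
      (∫ x in a..b, pairing ℓ q (P x) (P' x)) =
        ∫ s in Ioi (0 : ℝ), s ^ (ℓ - 1) * (fpot q (P b) s - fpot q (P a) s) := by
  obtain ⟨Ba, hBa⟩ := (isCompact_Icc (a := a) (b := b)).exists_bound_of_continuousOn hP.continuousOn
  obtain ⟨Bp, hBp⟩ :=
    (isCompact_Icc (a := a) (b := b)).exists_bound_of_continuousOn hP'.continuousOn
  have hBa0 : 0 ≤ Ba := (norm_nonneg _).trans (hBa a ⟨le_rfl, hab⟩)
  have hBp0 : 0 ≤ Bp := (norm_nonneg _).trans (hBp a ⟨le_rfl, hab⟩)
  obtain ⟨c, s0, hs0, hc, hexp⟩ := jmat_expand q hq Ba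
  set h : ℝ × ℝ → ℝ := fun z =>
    rtr (P' z.1) 1 - max z.2 0 * rtr (P' z.1) (jmat q (P z.1) (max z.2 0)) with hh
  have hhc : Continuous h := (continuous_rtr (hP'.comp continuous_fst) continuous_const).sub
    ((by fun_prop : Continuous fun z : ℝ × ℝ => max z.2 0).mul
      (continuous_rtr (hP'.comp continuous_fst)
        (continuous_jmat (hP.comp continuous_fst) (by fun_prop) (fun _ => hd _)
          fun z => le_max_right _ _)))
  obtain ⟨B0, hB0⟩ := (isCompact_Icc (a := a) (b := b)).prod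
    (isCompact_Icc (a := (0 : ℝ)) (b := s0)) |>.exists_bound_of_continuousOn hhc.continuousOn
  have hB00 : 0 ≤ B0 := (norm_nonneg _).trans (hB0 (a, 0) ⟨⟨le_rfl, hab⟩, le_rfl, by linarith⟩)
  set K := B0 * (1 + s0) + 2 * (‖rtr (1 : CMat N)‖ * (Bp * (c + (‖rdiag q‖ + Ba * Ba)))) with hK
  have hK1 : ∀ x ∈ Icc a b, ∀ s, 0 < s → |h (x, s)| ≤ K * (1 / (1 + s)) := by
    intro x hx s hs
    rcases le_or_gt s s0 with hle | hgt
    · have h2 : |h (x, s)| ≤ B0 := by simpa using hB0 (x, s) ⟨hx, hs.le, hle⟩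
      refine h2.trans ?_
      rw [mul_one_div, le_div_iff₀ (by linarith)]
      have : 0 ≤ 2 * (‖rtr (1 : CMat N)‖ * (Bp * (c + (‖rdiag q‖ + Ba * Ba)))) := by positivity
      have h3 : B0 * (1 + s) ≤ B0 * (1 + s0) := mul_le_mul_of_nonneg_left (by linarith) hB00
      linarith
    · have hs1 : 1 ≤ s := by linarith
      have he := hexp (P x) (hd x) (hBa x hx) s hgt.le
      set J := jmat q (P x) s
      set R := rdiag q - P x * P x with hR
      have e : h (x, s) = -(s * rtr (P' x) (J - (1 / s) • (1 : CMat N))) := by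
        simp only [hh, max_eq_left hs.le, map_sub, _root_.map_smul, smul_eq_mul]
        field_simp
        ring
      have hRn : ‖R‖ ≤ ‖rdiag q‖ + Ba * Ba :=
        (norm_sub_le _ _).trans (add_le_add le_rfl ((norm_mul_le _ _).trans
          (mul_le_mul (hBa x hx) (hBa x hx) (norm_nonneg _) hBa0)))
      have hJ1 : ‖J - (1 / s) • (1 : CMat N)‖ ≤ (c + (‖rdiag q‖ + Ba * Ba)) / s ^ 2 := by
        have e2 : J - (1 / s) • (1 : CMat N) =
            (J - (1 / s) • (1 : CMat N) + (1 / s ^ 2) • R) - (1 / s ^ 2) • R := by abel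
        rw [e2, add_div]
        refine (norm_sub_le _ _).trans (add_le_add (he.trans ?_) ?_)
        · rw [div_eq_mul_inv c, ← Real.rpow_natCast, ← Real.rpow_neg hs.le]
          exact mul_le_mul_of_nonneg_left
            (Real.rpow_le_rpow_of_exponent_le hs1 (by norm_num)) hc
        · rw [norm_smul, Real.norm_eq_abs, abs_of_nonneg (by positivity), one_div, inv_mul_eq_div]
          gcongr
      rw [e, abs_neg, abs_mul, abs_of_pos hs]
      refine (mul_le_mul_of_nonneg_left ((abs_rtr_le _ _).trans (mul_le_mul_of_nonneg_left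
        (mul_le_mul (hBp x hx) hJ1 (norm_nonneg _) hBp0) (norm_nonneg _))) hs.le).trans ?_
      have hD : 0 ≤ ‖rtr (1 : CMat N)‖ * (Bp * (c + (‖rdiag q‖ + Ba * Ba))) := by positivity
      calc s * (‖rtr (1 : CMat N)‖ * (Bp * ((c + (‖rdiag q‖ + Ba * Ba)) / s ^ 2)))
          = (‖rtr (1 : CMat N)‖ * (Bp * (c + (‖rdiag q‖ + Ba * Ba)))) * (1 / s) := by field_simp
        _ ≤ (‖rtr (1 : CMat N)‖ * (Bp * (c + (‖rdiag q‖ + Ba * Ba)))) * (2 * (1 / (1 + s))) := by
            refine mul_le_mul_of_nonneg_left ?_ hD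
            rw [← mul_div_assoc, mul_one, div_le_div_iff₀ hs (by linarith)]
            linarith
        _ ≤ _ := by
            rw [hK, add_mul]
            have : 0 ≤ B0 * (1 + s0) * (1 / (1 + s)) := by positivity
            linarith
  set f : ℝ → ℝ → ℝ := fun x s => s ^ (ℓ - 1) * h (x, s) with hf
  have hw : IntegrableOn (fun s : ℝ => s ^ (ℓ - 1) * (K * (1 / (1 + s)))) (Ioi 0) := by
    refine integrableOn_weight h0 h1 (c := |K|) (continuousOn_const.mul
      (continuousOn_const.div (by fun_prop) fun s (hs : 0 ≤ s) => by linarith)) fun s hs => ?_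
    rw [abs_mul, abs_of_nonneg (show (0 : ℝ) ≤ 1 / (1 + s) by positivity), div_eq_mul_one_div |K| s]
    gcongr
    linarith
  have hfi : Integrable (Function.uncurry f)
      ((volume.restrict (Ioc a b)).prod (volume.restrict (Ioi (0 : ℝ)))) := by
    have hfin : IsFiniteMeasure (volume.restrict (Ioc a b)) := by
      refine ⟨?_⟩; simp
    refine Integrable.mono' ((integrable_const (1 : ℝ)).mul_prod hw) ?_ ?_
    · rw [Measure.prod_restrict]
      refine ContinuousOn.aestronglyMeasurable ?_ (measurableSet_Ioc.prod measurableSet_Ioi)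
      exact ((continuous_rpow_Ioi (ℓ - 1)).comp continuous_snd.continuousOn
        (fun z hz => hz.2)).mul hhc.continuousOn
    · rw [Measure.prod_restrict, ae_restrict_iff' (measurableSet_Ioc.prod measurableSet_Ioi)]
      refine Eventually.of_forall fun z hz => ?_
      rw [one_mul, Function.uncurry_def, Real.norm_eq_abs, hf, abs_mul,
        abs_of_nonneg (Real.rpow_nonneg (le_of_lt hz.2) _)]
      exact mul_le_mul_of_nonneg_left (hK1 z.1 (Ioc_subset_Icc_self hz.1) z.2 hz.2)
        (Real.rpow_nonneg (le_of_lt hz.2) _)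
  have e : ∀ x, pairing ℓ q (P x) (P' x) = ∫ s in Ioi (0 : ℝ), f x s := fun x =>
    setIntegral_congr_fun measurableSet_Ioi fun s (hs : 0 < s) => by
      simp [hf, hh, max_eq_left hs.le]
  constructor
  · simp only [e]
    rw [intervalIntegrable_iff_integrableOn_Ioc_of_le hab]
    exact hfi.integral_prod_left
  · simp only [e]
    rw [intervalIntegral.integral_of_le hab, integral_integral_swap hfi]
    refine setIntegral_congr_fun measurableSet_Ioi fun s (hs : 0 < s) => ?_
    simp only [hf, hh, max_eq_left hs.le]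
    rw [integral_const_mul, ← intervalIntegral.integral_of_le hab,
      fpot_diff hab hd hP hP' hder hs.le]

/-- The value of `P` on diagonal arguments is `R^ℓ`. -/
lemma pairing_diag {ℓ : ℝ} (h0 : 0 < ℓ) (h1 : ℓ < 1) (a k : Fin N → ℝ)
    (hd : Dom q (rdiag a)) (ha : ∀ i, |a i| < Real.sqrt (q i)) :
    pairing ℓ q (rdiag a) (rdiag k) = betaC ℓ * ∑ i, k i * (q i - a i ^ 2) ^ ℓ := by
  have hR : ∀ i, 0 < q i - a i ^ 2 := fun i => by
    have := Real.sq_sqrt (hd.pos i).le
    nlinarith [ha i, abs_nonneg (a i), sq_abs (a i)]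
  have hJ : ∀ s, 0 ≤ s →
      rtr (rdiag k) (jmat q (rdiag a) s) = ∑ i, k i / (q i - a i ^ 2 + s) := by
    intro s hs
    rw [hd.clm_jmat hs, smul_eq_mul]
    have hx : ∀ i, |a i| < Real.sqrt (q i + s) := fun i =>
      (ha i).trans_le (Real.sqrt_le_sqrt (by linarith))
    have hpos : ∀ t ∈ Icc (-1 : ℝ) 1, ∀ i, 0 < Real.sqrt (q i + s) + t * a i := fun t ht i => by
      have : |t * a i| ≤ |a i| := by
        rw [abs_mul]; exact mul_le_of_le_one_left (abs_nonneg _) (abs_le.mpr ⟨ht.1, ht.2⟩)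
      linarith [neg_abs_le (t * a i), hx i]
    have e : ∀ t ∈ Set.uIcc (-1 : ℝ) 1,
        rtr (rdiag k) ((xmat q (rdiag a) s t)⁻¹ * (xmat q (rdiag a) s t)⁻¹) =
          ∑ i, k i * ((Real.sqrt (q i + s) + t * a i) ^ 2)⁻¹ := by
      intro t ht
      rw [Set.uIcc_of_le (by norm_num)] at ht
      rw [xmat, kap, rdiag_smul, rdiag_add, rdiag_inv fun i => (hpos t ht i).ne', rdiag_mul,
        rtr_apply, rdiag_mul, rdiag, trace_diagonal, Complex.re_sum]
      refine sum_congr rfl fun i _ => ?_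
      rw [Complex.ofReal_re, sq, mul_inv]
    rw [intervalIntegral.integral_congr e, intervalIntegral.integral_finsetSum, mul_sum]
    · refine sum_congr rfl fun i _ => ?_
      rw [intervalIntegral.integral_const_mul, mul_left_comm, avg_inv_sq (hx i),
        Real.sq_sqrt (by linarith [hd.pos i]), div_eq_mul_inv]
      ring_nf
    · intro i _
      exact (continuousOn_const.mul (ContinuousOn.inv₀ (by fun_prop) fun t ht =>
        (pow_pos (hpos t (by rwa [Set.uIcc_of_le (by norm_num)] at ht) i) 2).ne')).intervalIntegrable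
  unfold pairing
  have e : ∀ s ∈ Ioi (0 : ℝ),
      s ^ (ℓ - 1) * (rtr (rdiag k) 1 - s * rtr (rdiag k) (jmat q (rdiag a) s)) =
        ∑ i, k i * (s ^ (ℓ - 1) * ((q i - a i ^ 2) / (q i - a i ^ 2 + s))) := by
    intro s (hs : 0 < s)
    have hk : rtr (rdiag k) 1 = ∑ i, k i := by simp [rtr_apply, rdiag, Complex.re_sum]
    rw [hk, hJ s hs.le, mul_sum, ← sum_sub_distrib, mul_sum]
    refine sum_congr rfl fun i _ => ?_
    have : q i - a i ^ 2 + s ≠ 0 := by linarith [hR i]
    field_simp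
    ring
  rw [setIntegral_congr_fun measurableSet_Ioi e, integral_finsetSum, mul_sum]
  · refine sum_congr rfl fun i _ => ?_
    rw [integral_const_mul, integral_weight_frac h0 (hR i).le]
    ring
  · intro i _
    refine (integrableOn_weight h0 h1 (c := q i - a i ^ 2) ?_ fun s hs => ?_).const_mul _
    · exact continuousOn_const.div (by fun_prop) fun s (hs : 0 ≤ s) => by linarith [hR i]
    · have := hR i
      rw [abs_of_nonneg (div_nonneg this.le (by linarith))]
      gcongr
      linarith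

lemma betaC_pos {ℓ : ℝ} (h0 : 0 < ℓ) (h1 : ℓ < 1) : 0 < betaC ℓ := by
  have hi : IntegrableOn (fun s : ℝ => s ^ (ℓ - 1) * (1 / (1 + s))) (Ioi 0) :=
    integrableOn_weight h0 h1 (c := 1)
      (continuousOn_const.div (by fun_prop) fun s (hs : 0 ≤ s) => by linarith) fun s hs => by
        rw [abs_of_nonneg (by positivity)]
        gcongr
        linarith
  have hpos : ∀ s ∈ Ioi (0 : ℝ), 0 < s ^ (ℓ - 1) * (1 / (1 + s)) := fun s (hs : 0 < s) =>
    mul_pos (Real.rpow_pos_of_pos hs _) (by positivity)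
  rw [betaC, setIntegral_pos_iff_support_of_nonneg_ae
    ((ae_restrict_iff' measurableSet_Ioi).mpr (Eventually.of_forall fun s hs => (hpos s hs).le)) hi]
  have : Ioi (0 : ℝ) ⊆ Function.support (fun s : ℝ => s ^ (ℓ - 1) * (1 / (1 + s))) :=
    fun s hs => (hpos s hs).ne'
  rw [Set.inter_eq_right.mpr this, Real.volume_Ioi]
  exact ENNReal.zero_lt_top

/-- `(w + σ)^(1+ℓ) ≤ w^(1+ℓ) + σ^ℓ w + σ (M+1)^ℓ`. -/
lemma shift_rpow_le {ℓ w σ M : ℝ} (h0 : 0 < ℓ) (h1 : ℓ < 1) (hw : 0 ≤ w) (hwM : w ≤ M)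
    (hσ : 0 ≤ σ) (hσ1 : σ ≤ 1) :
    (w + σ) ^ (ℓ + 1) ≤ w ^ (ℓ + 1) + σ ^ ℓ * w + σ * (M + 1) ^ ℓ := by
  rw [Real.rpow_add' (by linarith) (by linarith), Real.rpow_one,
    Real.rpow_add' hw (by linarith), Real.rpow_one, mul_add]
  refine add_le_add ?_ ?_
  · rw [← add_mul]
    exact mul_le_mul_of_nonneg_right (Real.rpow_add_le_add_rpow hw hσ h0.le h1.le) hw
  · rw [mul_comm σ]
    exact mul_le_mul_of_nonneg_right (Real.rpow_le_rpow (by linarith) (by linarith) h0.le) hσ

/-- The Riccati inequality for a diagonal end point, before letting `σ → 0`. -/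
lemma riccati_diag {ℓ : ℝ} (h0 : 0 < ℓ) (h1 : ℓ < 1) {X0 : ℝ} (hX : 0 < X0) {k : Fin N → ℝ}
    (hk : ∀ i, 0 < k i) {A W : ℝ → CMat N} (hWc : Continuous W) (hW : ∀ x, (W x).PosSemidef)
    (ha : A (-X0) = rdiag k) (hb : A X0 = -rdiag k)
    (hder : ∀ x, HasDerivAt A (rdiag (fun i => k i ^ 2) - A x * A x - W x) x)
    (hbd : ∀ x, (rdiag k - A x).PosSemidef ∧ (rdiag k + A x).PosSemidef)
    {σ : ℝ} (hσ : 0 < σ) (hσ1 : σ ≤ 1) :
    sphInt ℓ * ∑ i, (k i ^ 2) ^ (ℓ + 1 / 2) ≤ ℓ ^ ℓ / (ℓ + 1) ^ (ℓ + 1) *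
      ((∫ x in (-X0)..X0, trRpow (W x) (ℓ + 1)) +
        σ ^ ℓ * (∫ x in (-X0)..X0, (trace (W x)).re) +
          σ * ∫ x in (-X0)..X0, (N : ℝ) * ((trace (W x)).re + 1) ^ ℓ) := by
  set q : Fin N → ℝ := fun i => k i ^ 2 + σ with hq
  have hq0 : ∀ i, 0 < q i := fun i => by simp only [hq]; positivity
  have hkq : ∀ i, k i < Real.sqrt (q i) := fun i => by
    rw [Real.lt_sqrt (hk i).le]; simp only [hq]; linarith
  have hgap : (kap q 0 - rdiag k).PosDef := by
    rw [kap, rdiag_sub]
    exact rdiag_posDef fun i => by simp [hkq i]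
  have hdom : ∀ M : CMat N, (rdiag k - M).PosSemidef → (rdiag k + M).PosSemidef → Dom q M := by
    intro M hm hp
    refine ⟨hq0, ?_, ?_⟩
    · have e : kap q 0 + M = (kap q 0 - rdiag k) + (rdiag k + M) := by abel
      rw [e]; exact hgap.add_posSemidef hp
    · have e : kap q 0 - M = (kap q 0 - rdiag k) + (rdiag k - M) := by abel
      rw [e]; exact hgap.add_posSemidef hm
  have hdA : ∀ x, Dom q (A x) := fun x => hdom _ (hbd x).1 (hbd x).2
  have hAc : Continuous A := continuous_iff_continuousAt.mpr fun x => (hder x).continuousAt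
  set A' : ℝ → CMat N := fun x => rdiag (fun i => k i ^ 2) - A x * A x - W x with hA'
  have hA'c : Continuous A' := (continuous_const.sub (hAc.mul hAc)).sub hWc
  obtain ⟨hPi, hPe⟩ := potential_chain h0 h1 hq0 (show -X0 ≤ X0 by linarith) hdA hAc hA'c
    (fun x _ => hder x)
  -- the linear path
  set c : ℝ → ℝ := fun u => max (-1) (min u 1) with hcdef
  have hcm : ∀ u, |c u| ≤ 1 := fun u =>
    abs_le.mpr ⟨le_max_left _ _, max_le (by norm_num) (min_le_right _ _)⟩
  set L : ℝ → CMat N := fun u => rdiag fun i => c u * k i with hL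
  have hLd : ∀ u, Dom q (L u) := by
    intro u
    refine hdom _ ?_ ?_
    · simp only [hL]
      rw [rdiag_sub]
      refine rdiag_posSemidef fun i => ?_
      nlinarith [abs_le.mp (hcm u), hk i]
    · simp only [hL]
      rw [rdiag_add]
      refine rdiag_posSemidef fun i => ?_
      nlinarith [abs_le.mp (hcm u), hk i]
  have hLc : Continuous L := Continuous.matrix_diagonal (continuous_pi fun i =>
    Complex.continuous_ofReal.comp (by fun_prop))
  have hLder : ∀ u ∈ Ioo (-1 : ℝ) 1, HasDerivAt L (rdiag k) u := by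
    intro u hu
    have h2 : HasDerivAt (fun v : ℝ => v • rdiag k) (rdiag k) u := by
      simpa using (hasDerivAt_id u).smul_const (rdiag k)
    refine h2.congr_of_eventuallyEq ?_
    filter_upwards [Ioo_mem_nhds hu.1 hu.2] with v hv
    simp only [hL, hcdef]
    rw [rdiag_smul, min_eq_left hv.2.le, max_eq_right hv.1.le]
  obtain ⟨hLi, hLe⟩ := potential_chain h0 h1 hq0 (show (-1 : ℝ) ≤ 1 by norm_num) hLd hLc
    continuous_const hLder
  have hL1 : L 1 = rdiag k := by simp [hL, hcdef]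
  have hL2 : L (-1) = -rdiag k := by
    simp only [hL, hcdef]
    rw [show -rdiag k = (-1 : ℝ) • rdiag k by simp, rdiag_smul]
    norm_num
  have hneg : (∫ x in (-X0)..X0, pairing ℓ q (A x) (A' x)) =
      -∫ u in (-1 : ℝ)..1, pairing ℓ q (L u) (rdiag k) := by
    rw [hPe, hLe, hL1, hL2, ha, hb, ← integral_neg]
    refine integral_congr_ae (Eventually.of_forall fun s => ?_)
    ring
  -- lower bound along the linear path
  have hlow : betaC ℓ * (sphInt ℓ * ∑ i, (k i ^ 2) ^ (ℓ + 1 / 2)) ≤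
      ∫ u in (-1 : ℝ)..1, pairing ℓ q (L u) (rdiag k) := by
    have hcont : ContinuousOn (fun u : ℝ => (1 - u ^ 2) ^ ℓ) (Icc (-1) 1) :=
      (ContinuousOn.rpow_const (by fun_prop) fun u _ => Or.inr h0.le)
    have e : betaC ℓ * (sphInt ℓ * ∑ i, (k i ^ 2) ^ (ℓ + 1 / 2)) =
        ∫ u in (-1 : ℝ)..1, betaC ℓ * ((∑ i, (k i ^ 2) ^ (ℓ + 1 / 2)) * (1 - u ^ 2) ^ ℓ) := by
      rw [intervalIntegral.integral_const_mul, intervalIntegral.integral_const_mul, sphInt]
      ring
    rw [e]
    refine intervalIntegral.integral_mono_on (by norm_num)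
      (((continuousOn_const.mul (continuousOn_const.mul hcont)).intervalIntegrable_of_Icc
        (by norm_num))) hLi fun u hu => ?_
    have hcu : c u = u := by simp [hcdef, min_eq_left hu.2, max_eq_right hu.1]
    have hu1 : |u| ≤ 1 := abs_le.mpr ⟨hu.1, hu.2⟩
    have hlt : ∀ i, |c u * k i| < Real.sqrt (q i) := fun i => by
      rw [hcu, abs_mul, abs_of_pos (hk i)]
      exact lt_of_le_of_lt (mul_le_of_le_one_left (hk i).le hu1) (hkq i)
    rw [pairing_diag h0 h1 _ _ (hLd u) hlt, sum_mul]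
    refine mul_le_mul_of_nonneg_left (sum_le_sum fun i _ => ?_) (betaC_pos h0 h1).le
    have hu2 : 0 ≤ 1 - u ^ 2 := by nlinarith [hu.1, hu.2]
    have hk2 : (k i ^ 2) ^ (ℓ + 1 / 2) = k i * (k i ^ 2) ^ ℓ := by
      rw [Real.rpow_add (by have := hk i; positivity), ← Real.sqrt_eq_rpow, Real.sqrt_sq (hk i).le,
        mul_comm]
    rw [hk2, mul_assoc, ← Real.mul_rpow (sq_nonneg _) hu2, hcu]
    refine mul_le_mul_of_nonneg_left (Real.rpow_le_rpow (mul_nonneg (sq_nonneg _) hu2) ?_ h0.le)
      (hk i).le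
    simp only [hq]
    nlinarith
  -- upper bound along the Riccati path
  set c0 := ℓ ^ ℓ / (ℓ + 1) ^ (ℓ + 1) with hc0
  set G : ℝ → ℝ := fun x => trRpow (W x) (ℓ + 1) + σ ^ ℓ * (trace (W x)).re +
    σ * ((N : ℝ) * ((trace (W x)).re + 1) ^ ℓ) with hG
  have htrc : Continuous fun x => (trace (W x)).re := Complex.continuous_re.comp hWc.matrix_trace
  have htr0 : ∀ x, 0 ≤ (trace (W x)).re := fun x => (Complex.le_def.mp (hW x).trace_nonneg).1
  have hG1 : Continuous fun x => trRpow (W x) (ℓ + 1) := continuous_trRpow_path (by linarith) hWc hW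
  have hG3 : Continuous fun x => (N : ℝ) * ((trace (W x)).re + 1) ^ ℓ :=
    continuous_const.mul ((htrc.add continuous_const).rpow_const fun _ => Or.inr h0.le)
  have hGc : Continuous G :=
    (hG1.add (continuous_const.mul htrc)).add (continuous_const.mul hG3)
  have hup : ∀ x, -(betaC ℓ * c0 * G x) ≤ pairing ℓ q (A x) (A' x) := by
    intro x
    have hh := (hW x).1
    set w := hh.eigenvalues with hw
    set V : CMat N := (hh.eigenvectorUnitary : CMat N) with hV
    have hVV : Vᴴ * V = 1 := Unitary.coe_star_mul_self hh.eigenvectorUnitary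
    have hVV' : V * Vᴴ = 1 := Unitary.coe_mul_star_self hh.eigenvectorUnitary
    have hWe : W x = V * rdiag w * Vᴴ := by
      have e := hh.spectral_theorem
      simp only [Unitary.conjStarAlgAut_apply] at e
      exact e
    have hw0 : ∀ i, 0 ≤ w i := fun i => (hW x).eigenvalues_nonneg i
    have hsum : (trace (W x)).re = ∑ i, w i := by
      rw [hh.trace_eq_sum_eigenvalues]; simp [Complex.re_sum, hw]
    have hwM : ∀ i, w i ≤ (trace (W x)).re := fun i => by
      rw [hsum]; exact single_le_sum (fun j _ => hw0 j) (mem_univ i)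
    set r := ℓ / (ℓ + 1) with hr
    have hr0 : 0 < r := by positivity
    have hcr := criterion h0 h1 (hdA x) V hVV (fun i => r * (w i + σ))
      fun i => mul_nonneg hr0.le (by linarith [hw0 i])
    have hY : V * rdiag (fun i => r * (w i + σ)) * Vᴴ = r • (W x + σ • (1 : CMat N)) := by
      rw [hWe, ← rdiag_smul r (fun i => w i + σ), ← rdiag_add w fun _ => σ, Matrix.mul_smul,
        Matrix.smul_mul, Matrix.mul_add, Matrix.add_mul]
      congr 2
      rw [show (rdiag fun _ : Fin N => σ) = σ • (1 : CMat N) by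
        rw [← rdiag_one, rdiag_smul]; simp, Matrix.mul_smul, Matrix.smul_mul, Matrix.mul_one, hVV']
    rw [hY, pairing_smul] at hcr
    have hlr : (ℓ + 1) * r = ℓ := by rw [hr]; field_simp
    have hsplit : A' x = (rdiag q - A x * A x) - (W x + σ • (1 : CMat N)) := by
      have : rdiag q = rdiag (fun i => k i ^ 2) + σ • (1 : CMat N) := by
        rw [← rdiag_one, rdiag_smul, rdiag_add]; simp [hq]
      rw [this]
      simp only [hA']
      abel
    rw [hsplit, pairing_sub h0 h1 (hdA x)]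
    set PR := pairing ℓ q (A x) (rdiag q - A x * A x)
    set PW := pairing ℓ q (A x) (W x + σ • (1 : CMat N))
    have hs2 : ∑ i, (w i + σ) ^ (ℓ + 1) ≤ G x := by
      refine (sum_le_sum fun i _ => shift_rpow_le h0 h1 (hw0 i) (hwM i) hσ.le hσ1).trans
        (le_of_eq ?_)
      simp only [hG, trRpow, dif_pos hh, sum_add_distrib, ← mul_sum, hsum, sum_const, card_univ,
        Fintype.card_fin, nsmul_eq_mul, hw]
    have hs1 : ∑ i, (r * (w i + σ)) ^ (1 + ℓ) = r ^ (ℓ + 1) * ∑ i, (w i + σ) ^ (ℓ + 1) := by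
      rw [mul_sum, add_comm 1 ℓ]
      exact sum_congr rfl fun i _ => Real.mul_rpow hr0.le (by linarith [hw0 i])
    rw [hs1, ← mul_assoc (ℓ + 1), hlr] at hcr
    have hrc : r ^ (ℓ + 1) = ℓ * c0 := by
      rw [hc0, hr, Real.div_rpow h0.le (by linarith), Real.rpow_add h0 ℓ 1, Real.rpow_one]
      ring
    rw [hrc] at hcr
    have hb0 : 0 ≤ betaC ℓ * c0 := mul_nonneg (betaC_pos h0 h1).le (by positivity)
    have h2 := mul_le_mul_of_nonneg_left hs2 hb0
    have h3 : 0 ≤ ℓ * (PR - PW + betaC ℓ * c0 * ∑ i, (w i + σ) ^ (ℓ + 1)) := by linarith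
    have h4 := nonneg_of_mul_nonneg_right h3 h0
    linarith
  have hcG : Continuous fun x => -(betaC ℓ * c0 * G x) := (continuous_const.mul hGc).neg
  have hint := intervalIntegral.integral_mono_on (show -X0 ≤ X0 by linarith)
    (hcG.intervalIntegrable _ _) hPi fun x _ => hup x
  rw [intervalIntegral.integral_neg, intervalIntegral.integral_const_mul] at hint
  have hI : (∫ x in (-X0)..X0, G x) = (∫ x in (-X0)..X0, trRpow (W x) (ℓ + 1)) +
      σ ^ ℓ * (∫ x in (-X0)..X0, (trace (W x)).re) +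
        σ * ∫ x in (-X0)..X0, (N : ℝ) * ((trace (W x)).re + 1) ^ ℓ := by
    simp only [hG]
    have c2 : Continuous fun x => σ ^ ℓ * (trace (W x)).re := continuous_const.mul htrc
    have c3 : Continuous fun x => σ * ((N : ℝ) * ((trace (W x)).re + 1) ^ ℓ) :=
      continuous_const.mul hG3
    have c12 : Continuous fun x => trRpow (W x) (ℓ + 1) + σ ^ ℓ * (trace (W x)).re := hG1.add c2
    rw [intervalIntegral.integral_add (c12.intervalIntegrable _ _) (c3.intervalIntegrable _ _),
      intervalIntegral.integral_add (hG1.intervalIntegrable _ _) (c2.intervalIntegrable _ _),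
      intervalIntegral.integral_const_mul, intervalIntegral.integral_const_mul]
  rw [← hI]
  refine le_of_mul_le_mul_left ?_ (betaC_pos h0 h1)
  rw [hneg] at hint
  linarith

/-- Module A: the Riccati trace inequality. -/
theorem riccatiTrace : RiccatiTrace := by
  intro γ hγ1 hγ2 N X0 hX Q K A W hK hKQ hWc hW hAh ha hb hder hbd
  set ℓ := γ - 1 / 2 with hℓ
  have h0 : 0 < ℓ := by linarith
  have h1 : ℓ < 1 := by linarith
  have e1 : ℓ + 1 = γ + 1 / 2 := by linarith
  have e2 : ℓ + 1 / 2 = γ := by linarith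
  set k := hK.1.eigenvalues with hk
  set U : CMat N := (hK.1.eigenvectorUnitary : CMat N) with hU
  have hUU : Uᴴ * U = 1 := Unitary.coe_star_mul_self hK.1.eigenvectorUnitary
  have hUU' : U * Uᴴ = 1 := Unitary.coe_mul_star_self hK.1.eigenvectorUnitary
  have hKe : K = U * rdiag k * Uᴴ := by
    have e := hK.1.spectral_theorem
    simp only [Unitary.conjStarAlgAut_apply] at e
    exact e
  have hk0 : ∀ i, 0 < k i := fun i => hK.eigenvalues_pos i
  have hQe : Q = U * rdiag (fun i => k i ^ 2) * Uᴴ := by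
    rw [← hKQ, hKe]
    simp only [Matrix.mul_assoc]
    rw [← Matrix.mul_assoc Uᴴ U, hUU, Matrix.one_mul, ← Matrix.mul_assoc (rdiag k), rdiag_mul]
    simp only [sq]
  let L : CMat N →L[ℝ] CMat N := LinearMap.toContinuousLinearMap
    { toFun := fun M => Uᴴ * M * U
      map_add' := fun M M' => by simp [Matrix.mul_add, Matrix.add_mul]
      map_smul' := fun c M => by simp }
  have hKd : Uᴴ * K * U = rdiag k := by
    rw [hKe]
    simp only [Matrix.mul_assoc, hUU, Matrix.mul_one]
    rw [← Matrix.mul_assoc, hUU, Matrix.one_mul]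
  set A1 : ℝ → CMat N := fun x => Uᴴ * A x * U with hA1
  set W1 : ℝ → CMat N := fun x => Uᴴ * W x * U with hW1
  have hW1c : Continuous W1 := L.continuous.comp hWc
  have hW1p : ∀ x, (W1 x).PosSemidef := fun x => (hW x).conjTranspose_mul_mul_same U
  have htr : ∀ x, (trace (W1 x)).re = (trace (W x)).re := fun x => by
    simp only [hW1]
    rw [trace_mul_comm, ← Matrix.mul_assoc, hUU', Matrix.one_mul]
  have htp : ∀ x p, trRpow (W1 x) p = trRpow (W x) p := by
    intro x p
    have hh := (hW x).1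
    set V : CMat N := (hh.eigenvectorUnitary : CMat N)
    have hVV : Vᴴ * V = 1 := Unitary.coe_star_mul_self hh.eigenvectorUnitary
    have hWe : W x = V * rdiag hh.eigenvalues * Vᴴ := by
      have e := hh.spectral_theorem
      simp only [Unitary.conjStarAlgAut_apply] at e
      exact e
    have hUV : (Uᴴ * V)ᴴ * (Uᴴ * V) = 1 := by
      rw [conjTranspose_mul, conjTranspose_conjTranspose, Matrix.mul_assoc, ← Matrix.mul_assoc U,
        hUU', Matrix.one_mul, hVV]
    have e : W1 x = (Uᴴ * V) * rdiag hh.eigenvalues * (Uᴴ * V)ᴴ := by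
      simp only [hW1]
      rw [conjTranspose_mul, conjTranspose_conjTranspose]
      conv_lhs => rw [hWe]
      simp only [Matrix.mul_assoc]
    rw [e, trRpow_conj_rdiag _ hUV, trRpow, dif_pos hh]
  have hlim : ∀ σ ∈ Ioc (0 : ℝ) 1, sphInt ℓ * trRpow Q γ ≤ ℓ ^ ℓ / (ℓ + 1) ^ (ℓ + 1) *
      ((∫ x in (-X0)..X0, trRpow (W x) (γ + 1 / 2)) +
        σ ^ ℓ * (∫ x in (-X0)..X0, (trace (W x)).re) +
          σ * ∫ x in (-X0)..X0, (N : ℝ) * ((trace (W x)).re + 1) ^ ℓ) := by
    intro σ hσ
    have := riccati_diag (A := A1) h0 h1 hX hk0 hW1c hW1p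
      (by simp only [hA1]; rw [ha, hKd])
      (by simp only [hA1]; rw [hb, Matrix.mul_neg, Matrix.neg_mul, hKd])
      (fun x => by
        refine (L.hasFDerivAt.comp_hasDerivAt x (hder x)).congr_deriv ?_
        show Uᴴ * (Q - A x * A x - W x) * U = _
        simp only [hA1, hW1, Matrix.mul_sub, Matrix.sub_mul, hQe]
        simp only [Matrix.mul_assoc, hUU, Matrix.mul_one]
        simp only [← Matrix.mul_assoc, hUU, Matrix.one_mul]
        rw [Matrix.mul_assoc (Uᴴ * A x) U Uᴴ, hUU', Matrix.mul_one])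
      (fun x => by
        constructor
        · have h2 := (hbd x).1.conjTranspose_mul_mul_same U
          rwa [Matrix.mul_sub, Matrix.sub_mul, hKd] at h2
        · have h2 := (hbd x).2.conjTranspose_mul_mul_same U
          rwa [Matrix.mul_add, Matrix.add_mul, hKd] at h2)
      hσ.1 hσ.2
    rw [hQe, trRpow_conj_rdiag _ hUU]
    simpa only [htr, htp, e1, e2] using this
  set I0 := ∫ x in (-X0)..X0, trRpow (W x) (γ + 1 / 2)
  set I1 := ∫ x in (-X0)..X0, (trace (W x)).re
  set I2 := ∫ x in (-X0)..X0, (N : ℝ) * ((trace (W x)).re + 1) ^ ℓ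
  have hT : Tendsto (fun σ : ℝ => ℓ ^ ℓ / (ℓ + 1) ^ (ℓ + 1) * (I0 + σ ^ ℓ * I1 + σ * I2))
      (𝓝[>] (0 : ℝ)) (𝓝 (ℓ ^ ℓ / (ℓ + 1) ^ (ℓ + 1) * I0)) := by
    have hc : Continuous fun σ : ℝ => ℓ ^ ℓ / (ℓ + 1) ^ (ℓ + 1) * (I0 + σ ^ ℓ * I1 + σ * I2) :=
      continuous_const.mul ((continuous_const.add
        ((Real.continuous_rpow_const h0.le).mul continuous_const)).add
        (continuous_id.mul continuous_const))
    simpa [Real.zero_rpow h0.ne'] using (hc.tendsto 0).mono_left nhdsWithin_le_nhds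
  have hle := ge_of_tendsto hT (by
    filter_upwards [Ioc_mem_nhdsGT (zero_lt_one' ℝ)] with σ hσ using hlim σ hσ)
  have hS := sphInt_pos h0.le
  rw [calibConst, ← hℓ, ← e1, div_mul_eq_div_div, div_mul_eq_mul_div, le_div_iff₀ hS,
    mul_comm (trRpow Q γ)]
  simpa only [I0, e1] using hle

end Vale.Agent.P371.Full
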