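import Vale.Agent.P371.Full.UpperAlg

/-!
Testing the Riccati path on the trial functions.
-/

namespace Vale.Agent.P371.Full

open MeasureTheory Finset Matrix Filter Topology
open scoped ComplexOrder ComplexConjugate Matrix.Norms.L2Operator

variable {m N : ℕ}

/-- Entrywise derivative of a matrix valued function. -/
def EntryDeriv {a b : ℕ} (F : ℝ → Matrix (Fin a) (Fin b) ℂ) (F' : Matrix (Fin a) (Fin b) ℂ)
    (x : ℝ) : Prop :=
  ∀ i j, HasDerivAt (fun y => F y i j) (F' i j) x

lemma EntryDeriv.mul {a b c : ℕ} {F : ℝ → Matrix (Fin a) (Fin b) ℂ}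
    {K : ℝ → Matrix (Fin b) (Fin c) ℂ} {F' : Matrix (Fin a) (Fin b) ℂ}
    {K' : Matrix (Fin b) (Fin c) ℂ} {x : ℝ} (hF : EntryDeriv F F' x) (hK : EntryDeriv K K' x) :
    EntryDeriv (fun y => F y * K y) (F' * K x + F x * K') x := by
  intro i j
  simp only [Matrix.mul_apply, Matrix.add_apply, ← sum_add_distrib]
  exact HasDerivAt.fun_sum fun k _ => (hF i k).mul (hK k j)

lemma EntryDeriv.conjTranspose {a b : ℕ} {F : ℝ → Matrix (Fin a) (Fin b) ℂ}
    {F' : Matrix (Fin a) (Fin b) ℂ} {x : ℝ} (hF : EntryDeriv F F' x) :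
    EntryDeriv (fun y => (F y)ᴴ) F'ᴴ x := fun i j => (hF j i).star

lemma EntryDeriv.of_hasDerivAt {n : ℕ} {A : ℝ → CMat n} {A' : CMat n} {x : ℝ}
    (h : HasDerivAt A A' x) : EntryDeriv A A' x := fun i j =>
  ((LinearMap.toContinuousLinearMap (Matrix.entryLinearMap ℝ ℂ i j)).hasFDerivAt).comp_hasDerivAt
    x h

lemma h1_decay {u u' : ℝ → ℂ} (hu : ∀ x, HasDerivAt u (u' x) x)
    (h2 : MemLp u 2 volume) (h2' : MemLp u' 2 volume) :
    (∃ C, ∀ x, ‖u x‖ ≤ C) ∧ Tendsto u atTop (𝓝 0) ∧ Tendsto u atBot (𝓝 0) := by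
  set g : ℝ → ℂ := fun x => star (u x) * u x with hg
  set g' : ℝ → ℂ := fun x => star (u' x) * u x + star (u x) * u' x with hg'
  have hd : ∀ x, HasDerivAt g (g' x) x := fun x => (hu x).star.mul (hu x)
  have hi : Integrable g := (h2.star.integrable_mul h2)
  have hi' : Integrable g' := (h2'.star.integrable_mul h2).add (h2.star.integrable_mul h2')
  have ht : Tendsto g atTop (𝓝 0) := tendsto_zero_of_hasDerivAt_of_integrableOn_Ioi
    (a := 0) (fun x _ => hd x) hi'.integrableOn hi.integrableOn
  have hb : Tendsto g atBot (𝓝 0) := tendsto_zero_of_hasDerivAt_of_integrableOn_Iic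
    (a := 0) (fun x _ => hd x) hi'.integrableOn hi.integrableOn
  have hn : ∀ x, ‖g x‖ = ‖u x‖ ^ 2 := fun x => by simp [hg, sq]
  have key : ∀ l : Filter ℝ, Tendsto g l (𝓝 0) → Tendsto u l (𝓝 0) := by
    intro l hl
    rw [tendsto_zero_iff_norm_tendsto_zero]
    have := (tendsto_zero_iff_norm_tendsto_zero.mp hl).sqrt
    simpa [hn, Real.sqrt_sq (norm_nonneg _)] using this
  refine ⟨⟨Real.sqrt (∫ x, ‖g' x‖), fun x => ?_⟩, key _ ht, key _ hb⟩
  refine Real.le_sqrt_of_sq_le ?_
  rw [← hn]
  have := integral_Iic_of_hasDerivAt_of_tendsto' (fun y (_ : y ∈ Set.Iic x) => hd y)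
    hi'.integrableOn hb
  rw [sub_zero] at this
  rw [← this]
  refine (norm_integral_le_integral_norm _).trans ?_
  exact setIntegral_le_integral hi'.norm (Eventually.of_forall fun y => norm_nonneg _)

lemma integrable_trace_conj (B : CMat N) {Y : ℝ → Matrix (Fin N) (Fin m) ℂ}
    (hY2 : ∀ i a, MemLp (fun x => Y x i a) 2 volume) :
    Integrable fun x => (trace ((Y x)ᴴ * B * Y x)).re := by
  have : Integrable fun x => trace ((Y x)ᴴ * B * Y x) := by
    simp only [trace, Matrix.diag, Matrix.mul_apply, conjTranspose_apply, sum_mul]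
    refine integrable_finsetSum _ fun a _ => integrable_finsetSum _ fun j _ =>
      integrable_finsetSum _ fun i _ => ?_
    have h := ((hY2 i a).star.integrable_mul (hY2 j a)).const_mul (B i j)
    refine h.congr (Eventually.of_forall fun x => ?_)
    simp only [Pi.mul_apply, Pi.star_apply]
    ring
  exact this.re

lemma integral_trace_mul (X : CMat N) {F : ℝ → CMat N}
    (hF : ∀ j k, Integrable fun x => F x j k) :
    Integrable (fun x => (trace (X * F x)).re) ∧
      ∫ x, (trace (X * F x)).re = (trace (X * Matrix.of fun j k => ∫ x, F x j k)).re := by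
  have hi : Integrable fun x => trace (X * F x) := by
    simp only [trace, Matrix.diag, Matrix.mul_apply]
    exact integrable_finsetSum _ fun a _ => integrable_finsetSum _ fun b _ =>
      (hF b a).const_mul _
  refine ⟨hi.re, (integral_re hi).trans (congrArg Complex.re ?_)⟩
  simp only [trace, Matrix.diag, Matrix.mul_apply, Matrix.of_apply]
  refine (integral_finsetSum _ fun a _ =>
    integrable_finsetSum _ fun b _ => (hF b a).const_mul _).trans (sum_congr rfl fun a _ => ?_)
  refine (integral_finsetSum _ fun b _ => (hF b a).const_mul _).trans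
    (sum_congr rfl fun b _ => integral_const_mul _ _)

/-- Completing the square along the Riccati path. -/
theorem testing {A Wt : ℝ → CMat N} {Q K : CMat N} {X0 : ℝ} (hWc : Continuous Wt)
    (hWs : ∀ x, X0 ≤ |x| → Wt x = 0) (hA : ∀ x, (A x).IsHermitian)
    (hl : ∀ x, x ≤ -X0 → A x = K) (hr : ∀ x, X0 ≤ x → A x = -K)
    (hd : ∀ x, HasDerivAt A (Q - A x * A x - Wt x) x)
    {Y Y' : ℝ → Matrix (Fin N) (Fin m) ℂ} (hY : ∀ x, EntryDeriv Y (Y' x) x)
    (hY'c : Continuous Y') (hY2 : ∀ i a, MemLp (fun x => Y x i a) 2 volume)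
    (hY'2 : ∀ i a, MemLp (fun x => Y' x i a) 2 volume) :
    ∫ x, (trace ((Y x)ᴴ * Wt x * Y x)).re ≤
      (∫ x, (trace ((Y' x)ᴴ * Y' x)).re) + ∫ x, (trace ((Y x)ᴴ * Q * Y x)).re := by
  set f := fun x => (trace ((Y' x)ᴴ * Y' x)).re
  set g := fun x => (trace ((Y x)ᴴ * Q * Y x)).re
  set h := fun x => (trace ((Y x)ᴴ * Wt x * Y x)).re
  set G := fun x => (trace ((Y x)ᴴ * A x * Y x)).re with hG
  set A' := fun x => Q - A x * A x - Wt x
  set G' := fun x => (trace (((Y' x)ᴴ * A x + (Y x)ᴴ * A' x) * Y x + (Y x)ᴴ * A x * Y' x)).re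
  have hYc : Continuous Y := continuous_matrix fun i a =>
    continuous_iff_continuousAt.mpr fun x => (hY x i a).continuousAt
  have hAc : Continuous A := continuous_iff_continuousAt.mpr fun x => (hd x).continuousAt
  have hhc : Continuous h := Complex.continuous_re.comp
    ((hYc.matrix_conjTranspose.matrix_mul hWc).matrix_mul hYc).matrix_trace
  have hG'c : Continuous G' := by
    refine Complex.continuous_re.comp (Continuous.matrix_trace ?_)
    exact (((hY'c.matrix_conjTranspose.matrix_mul hAc).add (hYc.matrix_conjTranspose.matrix_mul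
      ((continuous_const.sub (hAc.matrix_mul hAc)).sub hWc))).matrix_mul hYc).add
        ((hYc.matrix_conjTranspose.matrix_mul hAc).matrix_mul hY'c)
  have hfi : Integrable f := by simpa [f] using integrable_trace_conj (1 : CMat N) hY'2
  have hgi : Integrable g := integrable_trace_conj Q hY2
  have hhi : Integrable h := hhc.integrable_of_hasCompactSupport
    (HasCompactSupport.intro (isCompact_Icc (a := -X0) (b := X0)) fun x hx => by
      have : X0 ≤ |x| := by
        by_contra hc
        exact hx ⟨(abs_lt.mp (not_le.mp hc)).1.le, (abs_lt.mp (not_le.mp hc)).2.le⟩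
      simp [h, hWs x this])
  have hGd : ∀ x, HasDerivAt G (G' x) x := by
    intro x
    have e := ((hY x).conjTranspose.mul (EntryDeriv.of_hasDerivAt (hd x))).mul (hY x)
    exact Complex.reCLM.hasFDerivAt.comp_hasDerivAt x
      (HasDerivAt.fun_sum fun a _ => e a a)
  have hpt : ∀ x, G' x ≤ f x + g x - h x := by
    intro x
    have hpos := (Complex.le_def.mp
      (posSemidef_conjTranspose_mul_self (Y' x - A x * Y x)).trace_nonneg).1
    simp only [conjTranspose_sub, conjTranspose_mul, (hA x).eq, Matrix.sub_mul, Matrix.mul_sub,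
      trace_sub, Complex.sub_re, Complex.zero_re] at hpos
    simp only [G', A', f, g, h, Matrix.add_mul, Matrix.sub_mul, Matrix.mul_sub,
      trace_add, trace_sub, Complex.add_re, Complex.sub_re, ← Matrix.mul_assoc] at hpos ⊢
    linarith
  have hfin : ∀ T : ℝ, 0 ≤ T → G T - G (-T) ≤ ∫ x in (-T)..T, (f x + g x - h x) := by
    intro T hT
    rw [← intervalIntegral.integral_eq_sub_of_hasDerivAt (fun x _ => hGd x)
      (hG'c.intervalIntegrable _ _)]
    exact intervalIntegral.integral_mono_on (by linarith) (hG'c.intervalIntegrable _ _)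
      ((hfi.add hgi).sub hhi).intervalIntegrable fun x _ => hpt x
  have hYt : ∀ l : Filter ℝ, (∀ i a, Tendsto (fun x => Y x i a) l (𝓝 0)) → ∀ B : CMat N,
      Tendsto (fun x => (trace ((Y x)ᴴ * B * Y x)).re) l (𝓝 0) := by
    intro l hl' B
    have ht : Tendsto Y l (𝓝 0) :=
      tendsto_pi_nhds.mpr fun i => tendsto_pi_nhds.mpr fun a => hl' i a
    have hF : Continuous fun Z : Matrix (Fin N) (Fin m) ℂ => (trace (Zᴴ * B * Z)).re :=
      Complex.continuous_re.comp
        ((continuous_id.matrix_conjTranspose.matrix_mul continuous_const).matrix_mul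
          continuous_id).matrix_trace
    simpa [Function.comp_def] using (hF.tendsto 0).comp ht
  have hGtop : Tendsto G atTop (𝓝 0) := by
    refine (hYt atTop (fun i a => (h1_decay (fun x => hY x i a) (hY2 i a) (hY'2 i a)).2.1)
      (-K)).congr' ?_
    filter_upwards [eventually_ge_atTop X0] with x hx
    simp [hG, hr x hx]
  have hGbot : Tendsto G atBot (𝓝 0) := by
    refine (hYt atBot (fun i a => (h1_decay (fun x => hY x i a) (hY2 i a) (hY'2 i a)).2.2)
      K).congr' ?_
    filter_upwards [eventually_le_atBot (-X0)] with x hx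
    simp [hG, hl x hx]
  have hlim := intervalIntegral_tendsto_integral ((hfi.add hgi).sub hhi)
    tendsto_neg_atTop_atBot tendsto_id
  have h0 : (0 : ℝ) ≤ ∫ x, (f x + g x - h x) := by
    refine le_of_tendsto_of_tendsto ?_ hlim ?_ (b := atTop) (f := fun T => G T - G (-T))
    · simpa using hGtop.sub (hGbot.comp tendsto_neg_atTop_atBot)
    · filter_upwards [eventually_ge_atTop 0] with T hT
      exact hfin T hT
  rw [integral_sub (f := fun x => f x + g x) (hfi.add hgi) hhi, integral_add hfi hgi] at h0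
  linarith

end Vale.Agent.P371.Full
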