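import Vale.Agent.P371.Full.UpperApprox
import Vale.Agent.P371.Full.UpperTest

/-!
Module D: the Lieb-Thirring upper bound from the Riccati trace inequality and the multiplier.
-/

namespace Vale.Agent.P371.Full

open MeasureTheory Finset Matrix Filter Topology
open scoped ComplexOrder ComplexConjugate Matrix.Norms.L2Operator

variable {m N : ℕ}

lemma calibConst_nonneg {γ : ℝ} (hγ : 1 / 2 < γ) : 0 ≤ calibConst γ := by
  refine div_nonneg (Real.rpow_nonneg (by linarith) _) (mul_nonneg (Real.rpow_nonneg (by linarith) _)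
    (intervalIntegral.integral_nonneg (by norm_num) fun τ hτ => Real.rpow_nonneg ?_ _))
  nlinarith [hτ.1, hτ.2]

/-- Hermitian part. -/
noncomputable def hermPart (Q : CMat N) : CMat N := (1 / 2 : ℂ) • (Q + Qᴴ)

lemma hermPart_isHermitian (Q : CMat N) : (hermPart Q).IsHermitian := by
  simp [hermPart, Matrix.IsHermitian, add_comm]

lemma hermPart_eq {Q : CMat N} (hQ : Q.IsHermitian) : hermPart Q = Q := by
  rw [hermPart, hQ.eq, ← two_smul ℂ Q, smul_smul]
  norm_num

lemma continuous_hermPart : Continuous (hermPart (N := N)) := by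
  unfold hermPart
  exact (continuous_id.add (continuous_id (X := CMat N)).matrix_conjTranspose).const_smul (1 / 2 : ℂ)

/-- The regularised inverse square root. -/
noncomputable def invSqrt (η : ℝ) : ℝ → ℝ := fun s => (Real.sqrt (max s 0 + η))⁻¹

lemma continuous_invSqrt {η : ℝ} (hη : 0 < η) : Continuous (invSqrt η) :=
  ((continuous_id.max continuous_const).add continuous_const).sqrt.inv₀ fun _ =>
    (Real.sqrt_pos.mpr (add_pos_of_nonneg_of_pos (le_max_right _ _) hη)).ne'

lemma cfc_sub_cfc {A : CMat N} (f g : ℝ → ℝ) :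
    cfc f A - cfc g A = cfc (fun t => f t - g t) A :=
  (cfc_sub f g A (Matrix.finite_real_spectrum.continuousOn _)
    (Matrix.finite_real_spectrum.continuousOn _)).symm

lemma cfc_add_cfc {A : CMat N} (f g : ℝ → ℝ) :
    cfc f A + cfc g A = cfc (fun t => f t + g t) A :=
  (cfc_add f g (Matrix.finite_real_spectrum.continuousOn _)
    (Matrix.finite_real_spectrum.continuousOn _) (a := A)).symm

lemma invSqrt_facts {S : CMat m} (hS : S.PosSemidef) {η : ℝ} (hη : 0 < η) :
    let R := cfc (invSqrt η) S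
    (1 - R * S * R).PosSemidef ∧ (R * S * (S * R) - S + η • (1 : CMat m)).PosSemidef := by
  intro R
  set hH := hS.isHermitian
  have hsa : IsSelfAdjoint S := hH
  have eS : cfc (fun t : ℝ => t) S = S := cfc_id' ℝ S hsa
  have e1 : cfc (fun _ : ℝ => (1 : ℝ)) S = 1 := cfc_const_one ℝ S hsa
  have eη : cfc (fun _ : ℝ => η) S = η • (1 : CMat m) := by
    rw [cfc_const η S hsa, Algebra.algebraMap_eq_smul_one]
  set f := invSqrt η
  have key : ∀ i, f (hH.eigenvalues i) * f (hH.eigenvalues i) = (hH.eigenvalues i + η)⁻¹ :=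
    fun i => by
      have h0 := hS.eigenvalues_nonneg i
      simp only [f, invSqrt, max_eq_left h0, ← mul_inv]
      rw [Real.mul_self_sqrt (by linarith)]
  have a1 : R * S = cfc (fun t => f t * t) S := by
    have a := cfc_mul_cfc (A := S) f (fun t => t)
    rwa [eS] at a
  have a2 : S * R = cfc (fun t => t * f t) S := by
    have a := cfc_mul_cfc (A := S) (fun t => t) f
    rwa [eS] at a
  constructor
  · have : 1 - R * S * R = cfc (fun t => 1 - f t * t * f t) S := by
      rw [a1, show R = cfc f S from rfl, cfc_mul_cfc, ← e1, cfc_sub_cfc]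
    rw [this]
    refine cfc_posSemidef hH fun i => ?_
    have h0 := hS.eigenvalues_nonneg i
    have hpos : 0 < hH.eigenvalues i + η := by linarith
    rw [show f (hH.eigenvalues i) * hH.eigenvalues i * f (hH.eigenvalues i) =
      (f (hH.eigenvalues i) * f (hH.eigenvalues i)) * hH.eigenvalues i by ring, key]
    rw [sub_nonneg, inv_mul_le_iff₀ hpos]
    linarith
  · have : R * S * (S * R) - S + η • (1 : CMat m) =
        cfc (fun t => f t * t * (t * f t) - t + η) S := by
      have b := cfc_sub_cfc (A := S) (fun t => f t * t * (t * f t)) (fun t => t)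
      rw [eS] at b
      rw [a1, a2, cfc_mul_cfc, ← eη, b, cfc_add_cfc]
    rw [this]
    refine cfc_posSemidef hH fun i => ?_
    have h0 := hS.eigenvalues_nonneg i
    have hpos : 0 < hH.eigenvalues i + η := by linarith
    set s := hH.eigenvalues i
    rw [show f s * s * (s * f s) = (f s * f s) * (s * s) by ring, key]
    have : (s + η)⁻¹ * (s * s) - s + η = η ^ 2 / (s + η) := by field_simp; ring
    rw [this]
    positivity

lemma norm_le_sum_single (A : CMat N) {B : ℝ} (hA : ∀ i j, ‖A i j‖ ≤ B) :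
    ‖A‖ ≤ ∑ i : Fin N, ∑ j : Fin N, B * ‖(Matrix.single i j (1 : ℂ) : CMat N)‖ := by
  conv_lhs => rw [matrix_eq_sum_single A]
  refine (norm_sum_le _ _).trans (sum_le_sum fun i _ => (norm_sum_le _ _).trans
    (sum_le_sum fun j _ => ?_))
  rw [show Matrix.single i j (A i j) = A i j • Matrix.single i j (1 : ℂ) by
    simp [Matrix.smul_single], norm_smul]
  exact mul_le_mul_of_nonneg_right (hA i j) (norm_nonneg _)

lemma contraction_entry_le {Z : Matrix (Fin m) (Fin N) ℂ} (hZ : (1 - Z * Zᴴ).PosSemidef)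
    (a : Fin m) (i : Fin N) : ‖Z a i‖ ≤ 1 := by
  have h := (Complex.le_def.mp ((one_sub_conj_posSemidef hZ).diag_nonneg (i := i))).1
  simp only [Matrix.sub_apply, Matrix.one_apply_eq, Complex.sub_re, Complex.one_re,
    Complex.zero_re, Matrix.mul_apply, Complex.re_sum, conjTranspose_apply] at h
  have e : ∀ b, (star (Z b i) * Z b i).re = ‖Z b i‖ ^ 2 := fun b => by
    simp [Complex.conj_mul', ← Complex.ofReal_pow]
  simp only [e] at h
  have := single_le_sum (f := fun b => ‖Z b i‖ ^ 2) (fun b _ => by positivity) (mem_univ a)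
  exact (pow_le_one_iff_of_nonneg (norm_nonneg _) two_ne_zero).mp (by linarith)

lemma trRpow_add_le {W : CMat m} (hW : W.PosSemidef) {Z : Matrix (Fin m) (Fin N) ℂ}
    (hZ : (1 - Z * Zᴴ).PosSemidef) {p c θ : ℝ} (hp : 1 ≤ p) (hc : 0 ≤ c) (hθ : 0 < θ)
    (hθ' : θ < 1) :
    trRpow (Zᴴ * W * Z + c • (1 : CMat N)) p ≤
      ((1 - θ)⁻¹) ^ p * trRpow W p + N * (c / θ) ^ p := by
  have hpsd : (Zᴴ * W * Z + c • (1 : CMat N)).PosSemidef :=
    (hW.conjTranspose_mul_mul_same Z).add (PosSemidef.one.smul hc)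
  set hH := hpsd.isHermitian
  set U := (hH.eigenvectorUnitary : CMat N)
  have hZU : (1 - Z * U * (Z * U)ᴴ).PosSemidef := by
    rw [conjTranspose_mul, Matrix.mul_assoc, ← Matrix.mul_assoc U Uᴴ, eigen_mul_star,
      Matrix.one_mul]
    exact hZ
  set a : Fin N → ℝ := fun i => (((Z * U)ᴴ * W * (Z * U)) i i).re
  have ha : ∀ i, 0 ≤ a i := fun i =>
    (Complex.le_def.mp (hW.conjTranspose_mul_mul_same _).diag_nonneg).1
  have hl : ∀ i, hH.eigenvalues i = a i + c := fun i => by
    rw [eigenvalues_eq_diag hH i]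
    simp only [a, U, Matrix.mul_add, Matrix.add_mul, Matrix.mul_smul, Matrix.smul_mul,
      eigen_star_mul, Matrix.add_apply, Matrix.smul_apply, Matrix.one_apply_eq,
      Complex.add_re, Complex.smul_re, Complex.one_re, smul_eq_mul, mul_one, conjTranspose_mul,
      Matrix.mul_assoc]
  have hs : ∀ i, hH.eigenvalues i ^ p ≤ ((1 - θ)⁻¹) ^ p * a i ^ p + (c / θ) ^ p := by
    intro i
    rw [hl, ← Real.mul_rpow (inv_nonneg.mpr (by linarith)) (ha i)]
    rcases le_or_gt c (θ * (a i + c)) with h | h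
    · refine le_add_of_le_of_nonneg (Real.rpow_le_rpow (by linarith [ha i]) ?_ (by linarith))
        (by positivity)
      rw [le_inv_mul_iff₀ (by linarith)]
      linarith
    · refine le_add_of_nonneg_of_le (Real.rpow_nonneg (mul_nonneg (inv_nonneg.mpr (by linarith))
        (ha i)) _) (Real.rpow_le_rpow (by linarith [ha i]) ?_ (by linarith))
      rw [le_div_iff₀ hθ]
      linarith
  rw [trRpow, dif_pos hH]
  refine (sum_le_sum fun i _ => hs i).trans ?_
  rw [sum_add_distrib, ← mul_sum, sum_const, card_univ, Fintype.card_fin, nsmul_eq_mul]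
  refine add_le_add_left (mul_le_mul_of_nonneg_left (sum_diag_rpow_le hW hp hZU)
    (Real.rpow_nonneg (inv_nonneg.mpr (by linarith)) _)) _ |>.trans_eq' ?_
  rfl

lemma tendsto_error (p γ C I J X0 : ℝ) (hp : 0 < p) (hγ : 0 < γ) (N : ℕ) :
    Tendsto (fun τ : ℝ => C * (((1 - Real.sqrt τ)⁻¹) ^ p * I + 2 * X0 * (N * Real.sqrt τ ^ p))
      + γ * τ * J + N * τ ^ γ) (𝓝[>] 0) (𝓝 (C * I)) := by
  have hs : Tendsto Real.sqrt (𝓝 0) (𝓝 0) := by simpa using Real.continuous_sqrt.tendsto 0
  have h1 : Tendsto (fun τ : ℝ => ((1 - Real.sqrt τ)⁻¹) ^ p) (𝓝 0) (𝓝 1) := by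
    simpa using ((tendsto_const_nhds (x := (1 : ℝ))).sub hs).inv₀ (by simp) |>.rpow_const
      (Or.inr hp.le) (p := p)
  have h2 : Tendsto (fun τ : ℝ => Real.sqrt τ ^ p) (𝓝 0) (𝓝 0) := by
    simpa [Real.zero_rpow hp.ne'] using hs.rpow_const (Or.inr hp.le) (p := p)
  have h3 : Tendsto (fun τ : ℝ => τ ^ γ) (𝓝 0) (𝓝 0) := by
    simpa [Real.zero_rpow hγ.ne'] using (tendsto_id (x := 𝓝 (0 : ℝ))).rpow_const (Or.inr hγ.le) (p := γ)
  have h4 : Tendsto (fun τ : ℝ => γ * τ * J) (𝓝 0) (𝓝 0) := by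
    simpa using ((tendsto_id (x := 𝓝 (0 : ℝ))).const_mul γ).mul_const J
  simpa using ((((h1.mul_const I).add ((h2.const_mul (N : ℝ)).const_mul (2 * X0))).const_mul C).add
    h4 |>.add (h3.const_mul (N : ℝ))).mono_left nhdsWithin_le_nhds

/-- A bump supported in `[-X0, X0]`. -/
noncomputable def bump (X0 : ℝ) : ℝ → ℝ := fun x => max 0 (1 - |x| / X0)

/-- The contraction `(V Vᴴ + τ)^(-1/2) V`. -/
noncomputable def regZ (τ : ℝ) (V : Matrix (Fin m) (Fin N) ℂ) : Matrix (Fin m) (Fin N) ℂ :=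
  cfc (invSqrt τ) (V * Vᴴ) * V

/-- The regularised potential seen by the trial functions. -/
noncomputable def regPot (τ c : ℝ) (W : CMat m) (V : Matrix (Fin m) (Fin N) ℂ) : CMat N :=
  (regZ τ V)ᴴ * W * regZ τ V + (τ * c) • (1 : CMat N)

lemma bump_facts {X0 : ℝ} (hX : 0 < X0) : Continuous (bump X0) ∧ bump X0 0 = 1 ∧
    (∀ x, 0 ≤ bump X0 x ∧ bump X0 x ≤ 1) ∧ ∀ x, X0 ≤ |x| → bump X0 x = 0 := by
  refine ⟨continuous_const.max (continuous_const.sub (continuous_abs.div_const _)), by simp [bump],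
    fun x => ⟨le_max_left _ _, max_le zero_le_one ?_⟩, fun x hx => max_eq_left ?_⟩
  · have : (0 : ℝ) ≤ |x| / X0 := by positivity
    linarith
  · rw [sub_nonpos, one_le_div hX]
    exact hx

lemma continuous_regZ {τ : ℝ} (hτ : 0 < τ) :
    Continuous (regZ (m := m) (N := N) τ) := by
  unfold regZ
  exact (continuous_cfc_herm (continuous_invSqrt hτ)
    (continuous_id.matrix_mul (continuous_id (X := Matrix (Fin m) (Fin N) ℂ)).matrix_conjTranspose)
    fun V => (posSemidef_self_mul_conjTranspose V).isHermitian).matrix_mul continuous_id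

lemma regZ_contraction {τ : ℝ} (hτ : 0 < τ) (V : Matrix (Fin m) (Fin N) ℂ) :
    (1 - regZ τ V * (regZ τ V)ᴴ).PosSemidef := by
  have h := (invSqrt_facts (posSemidef_self_mul_conjTranspose V) hτ).1
  have e : regZ τ V * (regZ τ V)ᴴ =
      cfc (invSqrt τ) (V * Vᴴ) * (V * Vᴴ) * cfc (invSqrt τ) (V * Vᴴ) := by
    rw [regZ, conjTranspose_mul, (cfc_isHermitian' _ _).eq]
    simp only [Matrix.mul_assoc]
  rw [e]
  exact h

lemma regPot_posSemidef {τ c : ℝ} (hτ : 0 < τ) (hc : 0 ≤ c) {W : CMat m} (hW : W.PosSemidef)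
    (V : Matrix (Fin m) (Fin N) ℂ) : (regPot τ c W V).PosSemidef :=
  (hW.conjTranspose_mul_mul_same _).add (PosSemidef.one.smul (mul_nonneg hτ.le hc))

lemma regPot_norm_le {τ c B : ℝ} (hτ : 0 < τ) (hτ' : τ ≤ 1) (hc : 0 ≤ c) (hc' : c ≤ 1)
    {W : CMat m} (hW : ∀ a b, ‖W a b‖ ≤ B) (V : Matrix (Fin m) (Fin N) ℂ) :
    ‖regPot τ c W V‖ ≤ ∑ i : Fin N, ∑ j : Fin N, ((∑ _b : Fin m, ∑ _a : Fin m, B) + 1) *
      ‖(Matrix.single i j (1 : ℂ) : CMat N)‖ := by
  refine norm_le_sum_single _ fun i j => ?_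
  have hZ := contraction_entry_le (regZ_contraction hτ V)
  simp only [regPot, Matrix.add_apply, Matrix.mul_apply, sum_mul]
  refine (norm_add_le _ _).trans (add_le_add ((norm_sum_le _ _).trans (sum_le_sum fun b _ =>
    (norm_sum_le _ _).trans (sum_le_sum fun a _ => ?_))) ?_)
  · rw [norm_mul, norm_mul, conjTranspose_apply, norm_star]
    calc ‖regZ τ V a i‖ * ‖W a b‖ * ‖regZ τ V b j‖ ≤ 1 * B * 1 :=
          mul_le_mul (mul_le_mul (hZ a i) (hW a b) (norm_nonneg _) zero_le_one) (hZ b j)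
            (norm_nonneg _) (by linarith [(norm_nonneg _).trans (hW a b)])
      _ = B := by ring
  · rw [Matrix.smul_apply, norm_smul, Real.norm_eq_abs, abs_of_nonneg (mul_nonneg hτ.le hc)]
    refine mul_le_one₀ (mul_le_one₀ hτ' hc hc') (norm_nonneg _) ?_
    rw [Matrix.one_apply]
    split_ifs <;> simp

lemma regPot_quad_pos {τ : ℝ} (hτ : 0 < τ) {W : CMat m} (hW : W.PosSemidef)
    (V : Matrix (Fin m) (Fin N) ℂ) {v : Fin N → ℂ} (hv : v ≠ 0) :
    0 < (star v ⬝ᵥ regPot τ 1 W V *ᵥ v).re := by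
  simp only [regPot, Matrix.add_mulVec, dotProduct_add, Complex.add_re, Matrix.smul_mulVec,
    Matrix.one_mulVec, dotProduct_smul, Complex.smul_re, mul_one, smul_eq_mul]
  exact add_pos_of_nonneg_of_pos ((hW.conjTranspose_mul_mul_same _).re_dotProduct_nonneg v)
    (mul_pos hτ (Complex.lt_def.mp (dotProduct_star_self_pos_iff.mpr hv)).1)

lemma regPot_trace_ge {τ c : ℝ} (hτ : 0 < τ) (hc : 0 ≤ c) {W : CMat m} (hW : W.PosSemidef)
    (V : Matrix (Fin m) (Fin N) ℂ) :
    (trace (W * (V * Vᴴ))).re - τ * (trace W).re ≤ (trace (V * regPot τ c W V * Vᴴ)).re := by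
  set R := cfc (invSqrt τ) (V * Vᴴ) with hR
  have hRh : Rᴴ = R := (cfc_isHermitian' _ _).eq
  have hS : (V * Vᴴ).PosSemidef := posSemidef_self_mul_conjTranspose _
  have hpos := trace_mul_nonneg' hW (invSqrt_facts hS hτ).2
  have ha : trace (V * ((regZ τ V)ᴴ * W * regZ τ V) * Vᴴ) =
      trace (W * (R * (V * Vᴴ) * (V * Vᴴ * R))) := by
    rw [regZ, ← hR, conjTranspose_mul, hRh,
      show V * (Vᴴ * R * W * (R * V)) * Vᴴ = (V * Vᴴ * R) * (W * (R * (V * Vᴴ))) by
        simp only [Matrix.mul_assoc], trace_mul_comm (V * Vᴴ * R)]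
    simp only [Matrix.mul_assoc]
  simp only [Matrix.mul_add, Matrix.mul_sub, Matrix.mul_smul, Matrix.mul_one, trace_add,
    trace_sub, trace_smul, Complex.add_re, Complex.sub_re, Complex.smul_re, smul_eq_mul,
    ← hR] at hpos
  simp only [regPot, Matrix.mul_add, Matrix.add_mul, Matrix.mul_smul, Matrix.smul_mul,
    Matrix.mul_one, trace_add, trace_smul, Complex.add_re, Complex.smul_re, smul_eq_mul, ha]
  have := mul_nonneg (mul_nonneg hτ.le hc) (Complex.le_def.mp hS.trace_nonneg).1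
  linarith

lemma integrable_of_support {E : Type*} [NormedAddCommGroup E] [NormedSpace ℝ E] {X0 : ℝ}
    {F : ℝ → E} (hF : Continuous F) (h0 : ∀ x, X0 ≤ |x| → F x = 0) : Integrable F := by
  refine hF.integrable_of_hasCompactSupport
    (HasCompactSupport.intro (isCompact_Icc (a := -X0) (b := X0)) fun x hx => h0 x ?_)
  by_contra hc
  exact hx ⟨(abs_lt.mp (not_le.mp hc)).1.le, (abs_lt.mp (not_le.mp hc)).2.le⟩

/-- The multiplier for a continuous compactly supported potential, at a fixed regularisation. -/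
theorem exists_regularised (h1 : RiccatiTrace) (h2 : MultiplierExists) {γ : ℝ} (hγ : 1 / 2 < γ)
    (hγ' : γ < 3 / 2) {X0 : ℝ} (hX : 0 < X0) {W : ℝ → CMat m} (hWc : Continuous W)
    (hWp : ∀ x, (W x).PosSemidef) (hWs : ∀ x, X0 ≤ |x| → W x = 0)
    {U : ℝ → Matrix (Fin m) (Fin N) ℂ} (hUc : Continuous U)
    (M : CMat N → CMat N) (hMc : Continuous M) {τ : ℝ} (hτ : 0 < τ) (hτ' : τ < 1) :
    ∃ (Q K : CMat N) (A : ℝ → CMat N), Q.PosSemidef ∧
      trRpow Q γ ≤ calibConst γ *
        (((1 - Real.sqrt τ)⁻¹) ^ (γ + 1 / 2) * (∫ x in (-X0)..X0, trRpow (W x) (γ + 1 / 2)) +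
          2 * X0 * (N * Real.sqrt τ ^ (γ + 1 / 2))) ∧
      (∀ x, (A x).IsHermitian) ∧ (∀ x, x ≤ -X0 → A x = K) ∧ (∀ x, X0 ≤ x → A x = -K) ∧
      Continuous (fun x => regPot τ (bump X0 x) (W x) (U x * M Q)) ∧
      (∀ x, X0 ≤ |x| → regPot τ (bump X0 x) (W x) (U x * M Q) = 0) ∧
      ∀ x, HasDerivAt A (Q - A x * A x - regPot τ (bump X0 x) (W x) (U x * M Q)) x := by
  obtain ⟨hφc, hφ00, hφ, hφs⟩ := bump_facts hX
  set Wt : CMat N → ℝ → CMat N := fun Q x => regPot τ (bump X0 x) (W x) (U x * M Q) with hWt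
  have hWtc : Continuous (Function.uncurry Wt) := by
    have hZc : Continuous fun q : CMat N × ℝ => regZ τ (U q.2 * M q.1) :=
      (continuous_regZ hτ).comp
        ((hUc.comp continuous_snd).matrix_mul (hMc.comp continuous_fst))
    exact ((hZc.matrix_conjTranspose.matrix_mul (hWc.comp continuous_snd)).matrix_mul hZc).add
      (((hφc.comp continuous_snd).const_mul τ).smul continuous_const)
  have hWtp : ∀ Q x, (Wt Q x).PosSemidef := fun Q x =>
    regPot_posSemidef hτ (hφ x).1 (hWp x) _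
  clear_value Wt
  obtain ⟨BW, hBW⟩ : ∃ B, ∀ x a b, ‖W x a b‖ ≤ B := by
    have : ∀ a b, ∃ B, ∀ x, ‖W x a b‖ ≤ B := fun a b => by
      refine (hWc.matrix_elem a b).bounded_above_of_compact_support ?_
      refine HasCompactSupport.intro (isCompact_Icc (a := -X0) (b := X0)) fun x hx => ?_
      have : X0 ≤ |x| := by
        by_contra hc
        exact hx ⟨(abs_lt.mp (not_le.mp hc)).1.le, (abs_lt.mp (not_le.mp hc)).2.le⟩
      simp [hWs x this]
    choose B hB using this
    refine ⟨∑ a, ∑ b, |B a b|, fun x a b => (hB a b x).trans ((le_abs_self _).trans ?_)⟩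
    exact (single_le_sum (f := fun b => |B a b|) (fun _ _ => abs_nonneg _) (mem_univ b)).trans
      (single_le_sum (f := fun a => ∑ b, |B a b|)
        (fun _ _ => sum_nonneg fun _ _ => abs_nonneg _) (mem_univ a))
  have hzero : ∀ Q x, X0 ≤ |x| → Wt Q x = 0 := fun Q x hx => by
    simp [hWt, regPot, hWs x hx, hφs x hx]
  obtain ⟨Q, K, A, hK, hKQ, hAh, hAl, hAr, hAd, hdom⟩ :=
    h2 N X0 hX Wt hWtc hWtp
      ⟨_, fun Q x => by
        rw [hWt]
        exact regPot_norm_le hτ hτ'.le (hφ x).1 (hφ x).2 (hBW x) _⟩ hzero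
      fun Q v hv => ⟨0, by
        simp only [hWt, hφ00]
        exact regPot_quad_pos hτ (hWp 0) _ hv⟩
  have hQ : Q.PosSemidef := by
    have h := posSemidef_conjTranspose_mul_self K
    rw [hK.isHermitian.eq, hKQ] at h
    exact h
  have hWtQc : Continuous (Wt Q) := hWtc.comp (continuous_const.prodMk continuous_id)
  refine ⟨Q, K, A, hQ, (h1 γ hγ hγ' N X0 hX Q K A (Wt Q) hK hKQ hWtQc (hWtp Q) hAh
    (hAl _ le_rfl) (hAr _ le_rfl) hAd hdom).trans
      (mul_le_mul_of_nonneg_left ?_ (calibConst_nonneg hγ)), hAh, hAl, hAr, ?_, ?_, ?_⟩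
  rotate_left
  · simpa [hWt] using hWtQc
  · simpa [hWt] using hzero Q
  · simpa [hWt] using hAd
  have hs0 : 0 < Real.sqrt τ := Real.sqrt_pos.mpr hτ
  have hs1 : Real.sqrt τ < 1 := by rw [Real.sqrt_lt' one_pos]; simpa using hτ'
  have hint : IntervalIntegrable (fun x => trRpow (W x) (γ + 1 / 2)) volume (-X0) X0 :=
    (continuous_trRpow (by linarith) hWc hWp).intervalIntegrable _ _
  calc ∫ x in (-X0)..X0, trRpow (Wt Q x) (γ + 1 / 2)
      ≤ ∫ x in (-X0)..X0, (((1 - Real.sqrt τ)⁻¹) ^ (γ + 1 / 2) * trRpow (W x) (γ + 1 / 2)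
          + N * Real.sqrt τ ^ (γ + 1 / 2)) := by
        refine intervalIntegral.integral_mono_on (by linarith)
          ((continuous_trRpow (by linarith) hWtQc (hWtp Q)).intervalIntegrable _ _)
          ((hint.const_mul _).add intervalIntegrable_const) fun x _ => ?_
        rw [hWt]
        refine (trRpow_add_le (hWp x) (regZ_contraction hτ _) (by linarith)
          (mul_nonneg hτ.le (hφ x).1) hs0 hs1).trans
          (add_le_add le_rfl (mul_le_mul_of_nonneg_left ?_ (Nat.cast_nonneg _)))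
        refine Real.rpow_le_rpow (div_nonneg (mul_nonneg hτ.le (hφ x).1) hs0.le) ?_ (by linarith)
        rw [div_le_iff₀ hs0, Real.mul_self_sqrt hτ.le]
        exact mul_le_of_le_one_right hτ.le (hφ x).2
    _ = _ := by
        rw [intervalIntegral.integral_add (hint.const_mul _) intervalIntegrable_const,
          intervalIntegral.integral_const_mul, intervalIntegral.integral_const, smul_eq_mul]
        ring

/-- The bound for a continuous compactly supported potential, at a fixed regularisation. -/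
theorem core_test (h1 : RiccatiTrace) (h2 : MultiplierExists) {γ : ℝ} (hγ : 1 / 2 < γ)
    (hγ' : γ < 3 / 2) {X0 : ℝ} (hX : 0 < X0) {W : ℝ → CMat m} (hWc : Continuous W)
    (hWp : ∀ x, (W x).PosSemidef) (hWs : ∀ x, X0 ≤ |x| → W x = 0)
    {U U' : ℝ → Matrix (Fin m) (Fin N) ℂ} (hU : ∀ x, EntryDeriv U (U' x) x)
    (hU'c : Continuous U') (hU2 : ∀ a j, MemLp (fun x => U x a j) 2 volume)
    (hU'2 : ∀ a j, MemLp (fun x => U' x a j) 2 volume)
    (horth : ∀ j k, ∫ x, ((U x)ᴴ * U x) j k = if j = k then 1 else 0)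
    (M : CMat N → CMat N) (hMc : Continuous M) (hMh : ∀ Q, (M Q).IsHermitian)
    {τ : ℝ} (hτ : 0 < τ) (hτ' : τ < 1) :
    ∃ Q : CMat N, Q.PosSemidef ∧
      trRpow Q γ ≤ calibConst γ *
        (((1 - Real.sqrt τ)⁻¹) ^ (γ + 1 / 2) * (∫ x in (-X0)..X0, trRpow (W x) (γ + 1 / 2)) +
          2 * X0 * (N * Real.sqrt τ ^ (γ + 1 / 2))) ∧
      (trace (M Q * M Q * Matrix.of fun j k =>
        (∫ x, ((U x)ᴴ * W x * U x) j k) - ∫ x, ((U' x)ᴴ * U' x) j k)).re ≤
      (trace (Q * (M Q * M Q))).re + τ * ∫ x, (trace (W x)).re := by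
  have hUc : Continuous U := continuous_matrix fun a j =>
    continuous_iff_continuousAt.mpr fun x => (hU x a j).continuousAt
  obtain ⟨Q, K, A, hQ, hQt, hAh, hAl, hAr, hWtc, hWts, hAd⟩ :=
    exists_regularised h1 h2 hγ hγ' hX hWc hWp hWs hUc M hMc hτ hτ'
  refine ⟨Q, hQ, hQt, ?_⟩
  set P := M Q
  have hPh : Pᴴ = P := (hMh Q).eq
  have hYd : ∀ x, EntryDeriv (fun y => (U y * P)ᴴ) (U' x * P)ᴴ x := fun x => by
    refine EntryDeriv.conjTranspose (F := fun y => U y * P) ?_
    intro a j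
    simp only [Matrix.mul_apply]
    exact HasDerivAt.fun_sum fun k _ => (hU x a k).mul_const _
  have hY2 : ∀ i a, MemLp (fun x => (U x * P)ᴴ i a) 2 volume := fun i a => by
    simp only [conjTranspose_apply, Matrix.mul_apply]
    exact (memLp_finsetSum _ fun k _ => (hU2 a k).mul_const _).star
  have hY'2 : ∀ i a, MemLp (fun x => (U' x * P)ᴴ i a) 2 volume := fun i a => by
    simp only [conjTranspose_apply, Matrix.mul_apply]
    exact (memLp_finsetSum _ fun k _ => (hU'2 a k).mul_const _).star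
  have key := testing hWtc hWts hAh hAl hAr hAd hYd
    (hU'c.matrix_mul continuous_const).matrix_conjTranspose hY2 hY'2
  simp only [conjTranspose_conjTranspose] at key
  have hUi : ∀ j k, Integrable fun x => ((U x)ᴴ * U x) j k := fun j k => by
    simp only [Matrix.mul_apply, conjTranspose_apply]
    exact integrable_finsetSum _ fun a _ => (hU2 a j).star.integrable_mul (hU2 a k)
  have hU'i : ∀ j k, Integrable fun x => ((U' x)ᴴ * U' x) j k := fun j k => by
    simp only [Matrix.mul_apply, conjTranspose_apply]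
    exact integrable_finsetSum _ fun a _ => (hU'2 a j).star.integrable_mul (hU'2 a k)
  have hWi : ∀ j k, Integrable fun x => ((U x)ᴴ * W x * U x) j k := fun j k =>
    integrable_of_support (X0 := X0) (((hUc.matrix_conjTranspose.matrix_mul hWc).matrix_mul hUc).matrix_elem j k)
      fun x hx => by simp [hWs x hx]
  have htrW : Integrable fun x => (trace (W x)).re :=
    integrable_of_support (X0 := X0) (Complex.continuous_re.comp hWc.matrix_trace)
      fun x hx => by simp [hWs x hx]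
  obtain ⟨hWUi, hWU⟩ := integral_trace_mul (P * P) hWi
  obtain ⟨-, hGG⟩ := integral_trace_mul (P * P) hU'i
  obtain ⟨-, hQU⟩ := integral_trace_mul (P * Q * P) hUi
  have e1 : ∀ x, trace (U' x * P * (U' x * P)ᴴ) = trace (P * P * ((U' x)ᴴ * U' x)) := fun x => by
    rw [conjTranspose_mul, hPh, Matrix.mul_assoc (U' x), trace_mul_comm (U' x)]
    simp only [Matrix.mul_assoc]
  have e2 : ∀ x, trace (U x * P * Q * (U x * P)ᴴ) = trace (P * Q * P * ((U x)ᴴ * U x)) := fun x => by
    rw [conjTranspose_mul, hPh, Matrix.mul_assoc (U x), Matrix.mul_assoc (U x),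
      trace_mul_comm (U x)]
    simp only [Matrix.mul_assoc]
  have e3 : ∀ x, trace (W x * (U x * P * (U x * P)ᴴ)) = trace (P * P * ((U x)ᴴ * W x * U x)) :=
    fun x => by
    rw [conjTranspose_mul, hPh, show W x * (U x * P * (P * (U x)ᴴ)) =
      (W x * U x) * (P * P * (U x)ᴴ) by simp only [Matrix.mul_assoc], trace_mul_comm (W x * U x)]
    simp only [Matrix.mul_assoc]
  simp only [e1, e2] at key
  rw [hGG, hQU] at key
  have hle : ∀ x, (trace (P * P * ((U x)ᴴ * W x * U x))).re - τ * (trace (W x)).re ≤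
      (trace (U x * P * regPot τ (bump X0 x) (W x) (U x * P) * (U x * P)ᴴ)).re := fun x => by
    rw [← e3]
    exact regPot_trace_ge hτ ((bump_facts hX).2.2.1 x).1 (hWp x) _
  have hWY : Integrable fun x =>
      (trace (U x * P * regPot τ (bump X0 x) (W x) (U x * P) * (U x * P)ᴴ)).re := by
    have hVc : Continuous fun x => U x * P := hUc.matrix_mul continuous_const
    exact integrable_of_support (X0 := X0) (Complex.continuous_re.comp
      ((hVc.matrix_mul hWtc).matrix_mul hVc.matrix_conjTranspose).matrix_trace)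
      fun x hx => by simp [P, hWts x hx]
  have hmono := (integral_mono (f := fun x =>
    (trace (P * P * ((U x)ᴴ * W x * U x))).re - τ * (trace (W x)).re)
    (hWUi.sub (htrW.const_mul τ)) hWY hle).trans key
  rw [integral_sub hWUi (htrW.const_mul τ), integral_const_mul, hWU] at hmono
  have eo : (Matrix.of fun j k => ∫ x, ((U x)ᴴ * U x) j k) = (1 : CMat N) := by
    ext j k
    simp [horth, Matrix.one_apply]
  rw [eo, Matrix.mul_one, trace_mul_cycle P Q P, trace_mul_comm (P * P) Q] at hmono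
  have e : (Matrix.of fun j k => (∫ x, ((U x)ᴴ * W x * U x) j k) - ∫ x, ((U' x)ᴴ * U' x) j k) =
      (Matrix.of fun j k => ∫ x, ((U x)ᴴ * W x * U x) j k) -
        Matrix.of fun j k => ∫ x, ((U' x)ᴴ * U' x) j k := rfl
  rw [e, Matrix.mul_sub, trace_sub, Complex.sub_re]
  linarith

lemma trace_conj_lower {H M : CMat N} (hM : M.IsHermitian) {d : Fin N → ℝ}
    (h : ∀ v : Fin N → ℂ, ∑ j, d j * ‖v j‖ ^ 2 ≤ (∑ j, ∑ k, conj (v j) * H j k * v k).re) :
    ∑ j, d j * ((M * M) j j).re ≤ (trace (M * M * H)).re := by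
  have e1 : ∀ j, ((M * M) j j).re = ∑ a, ‖M j a‖ ^ 2 := fun j => by
    rw [Matrix.mul_apply, Complex.re_sum]
    refine sum_congr rfl fun a _ => ?_
    rw [← hM.apply a j, Complex.star_def, Complex.mul_conj', ← Complex.ofReal_pow,
      Complex.ofReal_re]
  have e2 : trace (M * M * H) = ∑ a, ∑ j, ∑ k, conj (M j a) * H j k * M k a := by
    rw [Matrix.mul_assoc, trace_mul_comm, trace]
    refine sum_congr rfl fun a _ => ?_
    rw [Matrix.diag_apply, Matrix.mul_apply]
    simp only [Matrix.mul_apply, sum_mul]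
    rw [sum_comm]
    refine sum_congr rfl fun j _ => sum_congr rfl fun k _ => ?_
    rw [← hM.apply a j]
    rfl
  rw [e2, Complex.re_sum]
  simp only [e1, mul_sum]
  rw [sum_comm]
  exact sum_le_sum fun a _ => h fun j => M j a

/-- The bound for a continuous compactly supported potential. -/
theorem core (h1 : RiccatiTrace) (h2 : MultiplierExists) {γ : ℝ} (hγ : 1 / 2 < γ)
    (hγ' : γ < 3 / 2) {X0 : ℝ} (hX : 0 < X0) {W : ℝ → CMat m} (hWc : Continuous W)
    (hWp : ∀ x, (W x).PosSemidef) (hWs : ∀ x, X0 ≤ |x| → W x = 0)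
    {U U' : ℝ → Matrix (Fin m) (Fin N) ℂ} (hU : ∀ x, EntryDeriv U (U' x) x)
    (hU'c : Continuous U') (hU2 : ∀ a j, MemLp (fun x => U x a j) 2 volume)
    (hU'2 : ∀ a j, MemLp (fun x => U' x a j) 2 volume)
    (horth : ∀ j k, ∫ x, ((U x)ᴴ * U x) j k = if j = k then 1 else 0)
    {e : Fin N → ℝ} (he : ∀ j, 0 < e j) {δ : ℝ} (hδ : 0 < δ) (hδ' : δ < 1 / 2)
    (hlow : ∀ v : Fin N → ℂ, ∑ j, (1 - δ) * e j * ‖v j‖ ^ 2 ≤ (∑ j, ∑ k, conj (v j) *
      ((∫ x, ((U x)ᴴ * W x * U x) j k) - ∫ x, ((U' x)ᴴ * U' x) j k) * v k).re) :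
    (1 - 2 * δ) * ∑ j, e j ^ γ ≤
      calibConst γ * ∫ x in (-X0)..X0, trRpow (W x) (γ + 1 / 2) := by
  have hS0 : 0 ≤ ∑ j, e j ^ γ := sum_nonneg fun j _ => Real.rpow_nonneg (he j).le _
  set J := ∫ x, (trace (W x)).re
  have hJ : 0 ≤ J := integral_nonneg fun x => (Complex.le_def.mp (hWp x).trace_nonneg).1
  set I := ∫ x in (-X0)..X0, trRpow (W x) (γ + 1 / 2)
  refine ge_of_tendsto (tendsto_error (γ + 1 / 2) γ (calibConst γ) I J X0 (by linarith)
    (by linarith) N) ?_
  filter_upwards [Ioo_mem_nhdsGT (zero_lt_one' ℝ)] with τ hτ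
  have hP0 : 0 ≤ τ * J := mul_nonneg hτ.1.le hJ
  have hd0 : 0 ≤ (N : ℝ) * τ ^ γ := mul_nonneg (Nat.cast_nonneg _) (Real.rpow_nonneg hτ.1.le _)
  rcases le_or_gt 1 γ with hg | hg
  · set D : CMat N := diagonal fun j => ((e j ^ ((γ - 1) / 2) : ℝ) : ℂ)
    have hDh : D.IsHermitian := by
      simp [D, Matrix.IsHermitian, diagonal_conjTranspose, Pi.star_def]
    have hDD : D * D = diagonal fun j => ((e j ^ (γ - 1) : ℝ) : ℂ) := by
      simp only [D, diagonal_mul_diagonal, ← Complex.ofReal_mul, ← Real.rpow_add (he _),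
        add_halves]
    obtain ⟨Q, hQ, hQt, hQh⟩ := core_test h1 h2 hγ hγ' hX hWc hWp hWs hU hU'c hU2 hU'2 horth
      (fun _ => D) continuous_const (fun _ => hDh) hτ.1 hτ.2
    have hl := (trace_conj_lower hDh (d := fun j => (1 - δ) * e j) hlow).trans hQh
    have el : ∑ j, (1 - δ) * e j * ((D * D) j j).re = (1 - δ) * ∑ j, e j ^ γ := by
      rw [mul_sum]
      refine sum_congr rfl fun j _ => ?_
      rw [hDD, diagonal_apply_eq, Complex.ofReal_re, Real.rpow_sub_one (he j).ne']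
      field_simp [(he j).ne']
    have er : (trace (Q * (D * D))).re = ∑ j, (Q j j).re * e j ^ (γ - 1) := by
      rw [hDD, trace, Complex.re_sum]
      simp [mul_diagonal]
    rw [el, er] at hl
    have hy := sum_rpow_le_ge_one hQ hg e fun j => (he j).le
    have := mul_le_mul_of_nonneg_left hl (by linarith : (0 : ℝ) ≤ γ)
    nlinarith [mul_nonneg (mul_nonneg hδ.le hS0) (by linarith : (0 : ℝ) ≤ 2 - γ)]
  · set f : ℝ → ℝ := fun t => max t τ ^ ((γ - 1) / 2) with hf
    have hfc : Continuous f := (continuous_id.max continuous_const).rpow_const fun t =>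
      Or.inl (lt_max_of_lt_right hτ.1).ne'
    have hff : (fun t => f t * f t) = fun t : ℝ => max t τ ^ (γ - 1) := funext fun t => by
      simp only [hf, ← Real.rpow_add (lt_max_of_lt_right hτ.1 : (0 : ℝ) < max t τ), add_halves]
    obtain ⟨Q, hQ, hQt, hQh⟩ := core_test h1 h2 hγ hγ' hX hWc hWp hWs hU hU'c hU2 hU'2 horth
      (fun Q => cfc f (hermPart Q))
      (continuous_cfc_herm hfc continuous_hermPart hermPart_isHermitian)
      (fun Q => cfc_isHermitian' _ _) hτ.1 hτ.2
    rw [hermPart_eq hQ.isHermitian] at hQh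
    have hl := (trace_conj_lower (cfc_isHermitian' f Q) (d := fun j => (1 - δ) * e j)
      hlow).trans hQh
    rw [cfc_mul_cfc, hff] at hl
    obtain ⟨hy1, hy2⟩ := sum_rpow_le_lt_one hQ (by linarith : 0 < γ) hg.le hτ.1 e
      fun j => (he j).le
    simp only [mul_assoc, ← mul_sum] at hl
    have hP := trRpow_nonneg hQ γ
    set T := ∑ j, e j * (cfc (fun t : ℝ => max t τ ^ (γ - 1)) Q j j).re
    have s1 := mul_le_mul_of_nonneg_left hy2 (by linarith : (0 : ℝ) ≤ 1 - δ)
    have s2 := mul_le_mul_of_nonneg_left (hl.trans (add_le_add hy1 le_rfl))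
      (by linarith : (0 : ℝ) ≤ γ)
    nlinarith [mul_nonneg (mul_nonneg hδ.le (by linarith : (0 : ℝ) ≤ 1 - γ)) hP,
      mul_nonneg (mul_nonneg hδ.le (by linarith : (0 : ℝ) ≤ 1 - γ)) hd0,
      mul_nonneg (by linarith : (0 : ℝ) ≤ γ) hd0, mul_nonneg hδ.le hS0]

lemma sum_mul_conj_diag {e : Fin N → ℝ} (v : Fin N → ℂ) :
    (∑ j, ∑ k, conj (v j) * (if j = k then ((e j : ℝ) : ℂ) else 0) * v k).re =
      ∑ j, e j * ‖v j‖ ^ 2 := by
  rw [Complex.re_sum]
  refine sum_congr rfl fun j _ => ?_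
  simp only [mul_ite, mul_zero, ite_mul, zero_mul, Finset.sum_ite_eq, Finset.mem_univ, if_true]
  rw [show conj (v j) * (e j : ℂ) * v j = (e j : ℂ) * (conj (v j) * v j) by ring,
    Complex.conj_mul', ← Complex.ofReal_pow, ← Complex.ofReal_mul, Complex.ofReal_re]

/-- The Lieb-Thirring upper bound. -/
theorem upperBound (h1 : RiccatiTrace) (h2 : MultiplierExists) : UpperBound := by
  rintro γ hγ hγ' m r ⟨W, hW, hnorm, N, ψ, e, hψ, he, hform, rfl⟩
  rw [div_le_iff₀ hnorm]
  set U : ℝ → Matrix (Fin m) (Fin N) ℂ := fun x => Matrix.of fun a j => ψ j x a with hUdef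
  set U' : ℝ → Matrix (Fin m) (Fin N) ℂ :=
    fun x => Matrix.of fun a j => deriv (ψ j) x a with hU'def
  have hU : ∀ x, EntryDeriv U (U' x) x := fun x a j =>
    ((EuclideanSpace.proj (𝕜 := ℂ) a).restrictScalars ℝ).hasFDerivAt.comp_hasDerivAt x
      ((hψ.contDiff j).differentiable (by norm_num) x).hasDerivAt
  have hUc : Continuous U := continuous_matrix fun a j =>
    (EuclideanSpace.proj (𝕜 := ℂ) a).continuous.comp (hψ.contDiff j).continuous
  have hU'c : Continuous U' := continuous_matrix fun a j =>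
    (EuclideanSpace.proj (𝕜 := ℂ) a).continuous.comp ((hψ.contDiff j).continuous_deriv le_rfl)
  have hU2 : ∀ a j, MemLp (fun x => U x a j) 2 volume := fun a j =>
    (hψ.memLp j).continuousLinearMap_comp (EuclideanSpace.proj (𝕜 := ℂ) a)
  have hU'2 : ∀ a j, MemLp (fun x => U' x a j) 2 volume := fun a j =>
    (hψ.memLp_deriv j).continuousLinearMap_comp (EuclideanSpace.proj (𝕜 := ℂ) a)
  have horth : ∀ i j, ∫ x, ((U x)ᴴ * U x) i j = if i = j then 1 else 0 := by
    intro i j
    rw [← hψ.orthonormal i j]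
    refine integral_congr_ae (Eventually.of_forall fun x => ?_)
    simp [Matrix.mul_apply, hUdef, PiLp.inner_apply, mul_comm]
  have hUb : ∃ C, ∀ x a j, ‖U x a j‖ ≤ C := by
    choose C hC using fun a j => (h1_decay (fun x => hU x a j) (hU2 a j) (hU'2 a j)).1
    refine ⟨∑ b, ∑ k, |C b k|, fun x a j => (hC a j x).trans ((le_abs_self _).trans ?_)⟩
    exact (single_le_sum (f := fun k => |C a k|) (fun _ _ => abs_nonneg _) (mem_univ j)).trans
      (single_le_sum (f := fun b => ∑ k, |C b k|)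
        (fun _ _ => sum_nonneg fun _ _ => abs_nonneg _) (mem_univ a))
  have hent : ∀ j k, (∫ x, ((U x)ᴴ * W x * U x) j k) - (∫ x, ((U' x)ᴴ * U' x) j k) =
      if j = k then (e j : ℂ) else 0 := by
    intro j k
    have h := hform j k
    have a1 : ∫ x, ((U' x)ᴴ * U' x) j k = ∫ x, inner ℂ (deriv (ψ j) x) (deriv (ψ k) x) := by
      refine integral_congr_ae (Eventually.of_forall fun x => ?_)
      simp [Matrix.mul_apply, hU'def, PiLp.inner_apply, mul_comm]
    have a2 : ∫ x, ((U x)ᴴ * W x * U x) j k =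
        ∫ x, ∑ a, ∑ b, conj (ψ j x a) * W x a b * ψ k x b := by
      refine integral_congr_ae (Eventually.of_forall fun x => ?_)
      simp only [Matrix.mul_apply, sum_mul, conjTranspose_apply, hUdef, Matrix.of_apply]
      rw [sum_comm]
      rfl
    rw [formEntry, ← a1, ← a2] at h
    split_ifs at h ⊢ with hjk
    · linear_combination (-1 : ℂ) * h
    · linear_combination (-1 : ℂ) * h
  set S := ∑ j, e j ^ γ with hS
  have hS0 : 0 ≤ S := sum_nonneg fun j _ => Real.rpow_nonneg (he j).le _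
  have main : ∀ δ, 0 < δ → δ < 1 / 2 → (1 - 2 * δ) * S ≤ calibConst γ * potentialNorm γ W := by
    intro δ hδ hδ'
    rcases Nat.eq_zero_or_pos N with hN | hN
    · subst hN
      simp only [hS, Fin.sum_univ_zero, mul_zero]
      exact mul_nonneg (calibConst_nonneg hγ) hnorm.le
    have : Nonempty (Fin N) := Fin.pos_iff_nonempty.mp hN
    obtain ⟨j₀, hj₀⟩ := Finite.exists_min e
    have hN' : (0 : ℝ) < N := Nat.cast_pos.mpr hN
    obtain ⟨X0, hX, W', hW'c, hW'p, hW's, hW'n, hW'd⟩ := exists_approx hW (by linarith) U hUc hUb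
      hU2 (τ := δ * e j₀ / N) (by have := he j₀; positivity)
    refine le_trans (core h1 h2 hγ hγ' hX hW'c hW'p hW's hU hU'c hU2 hU'2 horth he hδ hδ' ?_)
      (mul_le_mul_of_nonneg_left hW'n (calibConst_nonneg hγ))
    intro v
    set d : Fin N → Fin N → ℂ := fun j k =>
      (∫ x, ((U x)ᴴ * W' x * U x) j k) - ∫ x, ((U x)ᴴ * W x * U x) j k
    have hsplit : (∑ j, ∑ k, conj (v j) *
        ((∫ x, ((U x)ᴴ * W' x * U x) j k) - ∫ x, ((U' x)ᴴ * U' x) j k) * v k).re =
        (∑ j, e j * ‖v j‖ ^ 2) + (∑ j, ∑ k, conj (v j) * d j k * v k).re := by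
      rw [← sum_mul_conj_diag, ← Complex.add_re, ← sum_add_distrib]
      congr 1
      refine sum_congr rfl fun j _ => ?_
      rw [← sum_add_distrib]
      refine sum_congr rfl fun k _ => ?_
      rw [← hent j k]
      simp only [d]
      ring
    have hd : |(∑ j, ∑ k, conj (v j) * d j k * v k).re| ≤
        δ * e j₀ * ∑ j, ‖v j‖ ^ 2 := by
      refine (Complex.abs_re_le_norm _).trans ((norm_sum_le _ _).trans ?_)
      refine (sum_le_sum fun j _ => (norm_sum_le _ _).trans (sum_le_sum fun k _ =>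
        (?_ : ‖conj (v j) * d j k * v k‖ ≤
          δ * e j₀ / N * ((‖v j‖ ^ 2 + ‖v k‖ ^ 2) / 2)))).trans (le_of_eq ?_)
      · rw [norm_mul, norm_mul, RCLike.norm_conj]
        calc ‖v j‖ * ‖d j k‖ * ‖v k‖ ≤ ‖v j‖ * (δ * e j₀ / N) * ‖v k‖ := by
              gcongr
              exact (hW'd j k).le
          _ = δ * e j₀ / N * (‖v j‖ * ‖v k‖) := by ring
          _ ≤ _ := by
              refine mul_le_mul_of_nonneg_left ?_ (by have := he j₀; positivity)
              nlinarith [sq_nonneg (‖v j‖ - ‖v k‖)]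
      · simp only [← mul_sum, add_div, sum_add_distrib, sum_const, card_univ, Fintype.card_fin,
          nsmul_eq_mul, ← sum_div]
        field_simp
        ring
    rw [hsplit]
    have hle : δ * e j₀ * ∑ j, ‖v j‖ ^ 2 ≤ ∑ j, δ * e j * ‖v j‖ ^ 2 := by
      rw [mul_sum]
      exact sum_le_sum fun j _ => mul_le_mul_of_nonneg_right
        (mul_le_mul_of_nonneg_left (hj₀ j) hδ.le) (by positivity)
    have := (abs_le.mp hd).1
    simp only [sub_mul, one_mul, sum_sub_distrib]
    linarith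
  have hlim : Tendsto (fun δ : ℝ => (1 - 2 * δ) * S) (𝓝[>] 0) (𝓝 S) := by
    have hc : Continuous fun δ : ℝ => (1 - 2 * δ) * S := by fun_prop
    simpa using (hc.tendsto 0).mono_left nhdsWithin_le_nhds
  refine le_of_tendsto hlim ?_
  filter_upwards [Ioo_mem_nhdsGT (half_pos one_pos : (0 : ℝ) < 1 / 2)] with δ hδ
  exact main δ hδ.1 hδ.2

end Vale.Agent.P371.Full
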