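import Vale.Agent.P371.Full.Defs

/-!
Matrix lemmas for the upper bound: functional calculus in an eigenbasis, trace inequalities.
-/

namespace Vale.Agent.P371.Full

open MeasureTheory Finset Matrix
open scoped ComplexOrder ComplexConjugate Matrix.Norms.L2Operator

variable {n k : ℕ}

lemma young_ge_one {p a μ : ℝ} (hp : 1 ≤ p) (ha : 0 ≤ a) (hμ : 0 ≤ μ) :
    p * a * μ ^ (p - 1) ≤ a ^ p + (p - 1) * μ ^ p := by
  have hp0 : 0 < p := lt_of_lt_of_le one_pos hp
  have h := Real.geom_mean_le_arith_mean2_weighted (w₁ := 1 / p) (w₂ := (p - 1) / p)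
    (p₁ := a ^ p) (p₂ := μ ^ p) (by positivity) (div_nonneg (by linarith) hp0.le)
    (Real.rpow_nonneg ha _) (Real.rpow_nonneg hμ _) (by field_simp; ring)
  rw [← Real.rpow_mul ha, ← Real.rpow_mul hμ] at h
  have e1 : p * (1 / p) = 1 := by field_simp
  have e2 : p * ((p - 1) / p) = p - 1 := by field_simp
  rw [e1, e2, Real.rpow_one] at h
  calc p * a * μ ^ (p - 1) = p * (a * μ ^ (p - 1)) := by ring
    _ ≤ p * (1 / p * a ^ p + (p - 1) / p * μ ^ p) := mul_le_mul_of_nonneg_left h hp0.le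
    _ = _ := by field_simp

lemma young_lt_one {g e μ : ℝ} (hg : 0 ≤ g) (hg' : g ≤ 1) (he : 0 ≤ e) (hμ : 0 < μ) :
    e ^ g ≤ g * (e * μ ^ (g - 1)) + (1 - g) * μ ^ g := by
  have h := Real.geom_mean_le_arith_mean2_weighted (w₁ := g) (w₂ := 1 - g)
    (p₁ := e * μ ^ (g - 1)) (p₂ := μ ^ g) hg (by linarith) (by positivity) (by positivity)
    (by ring)
  refine le_trans (le_of_eq ?_) h
  rw [Real.mul_rpow he (by positivity), ← Real.rpow_mul hμ.le, ← Real.rpow_mul hμ.le, mul_assoc,
    ← Real.rpow_add hμ, show (g - 1) * g + g * (1 - g) = 0 by ring, Real.rpow_zero, mul_one]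

lemma rpow_weighted_sum_le {ι : Type*} (s : Finset ι) {p : ℝ} (hp : 1 ≤ p) (w a : ι → ℝ)
    (hw : ∀ i ∈ s, 0 ≤ w i) (hw1 : ∑ i ∈ s, w i ≤ 1) (ha : ∀ i ∈ s, 0 ≤ a i) :
    (∑ i ∈ s, w i * a i) ^ p ≤ ∑ i ∈ s, w i * a i ^ p := by
  set μ := ∑ i ∈ s, w i * a i with hμ
  have hμ0 : 0 ≤ μ := sum_nonneg fun i hi => mul_nonneg (hw i hi) (ha i hi)
  have hp0 : 0 < p := lt_of_lt_of_le one_pos hp
  have h : ∑ i ∈ s, w i * (p * a i * μ ^ (p - 1)) ≤
      ∑ i ∈ s, w i * (a i ^ p + (p - 1) * μ ^ p) :=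
    sum_le_sum fun i hi => mul_le_mul_of_nonneg_left (young_ge_one hp (ha i hi) hμ0) (hw i hi)
  have e1 : ∑ i ∈ s, w i * (p * a i * μ ^ (p - 1)) = p * μ ^ p := by
    have e : ∀ i ∈ s, w i * (p * a i * μ ^ (p - 1)) = p * μ ^ (p - 1) * (w i * a i) :=
      fun i _ => by ring
    rw [sum_congr rfl e, ← mul_sum, ← hμ]
    conv_rhs => rw [show p = (p - 1) + 1 by ring,
      Real.rpow_add' hμ0 (by linarith), Real.rpow_one]
    ring
  simp only [mul_add, sum_add_distrib, ← sum_mul] at h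
  rw [e1] at h
  have h2 : (∑ i ∈ s, w i) * ((p - 1) * μ ^ p) ≤ (p - 1) * μ ^ p :=
    mul_le_of_le_one_left (mul_nonneg (by linarith) (Real.rpow_nonneg hμ0 p)) hw1
  linarith

lemma eigen_star_mul {A : CMat n} (hA : A.IsHermitian) :
    (hA.eigenvectorUnitary : CMat n)ᴴ * (hA.eigenvectorUnitary : CMat n) = 1 :=
  Unitary.coe_star_mul_self hA.eigenvectorUnitary

lemma eigen_mul_star {A : CMat n} (hA : A.IsHermitian) :
    (hA.eigenvectorUnitary : CMat n) * (hA.eigenvectorUnitary : CMat n)ᴴ = 1 :=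
  Unitary.coe_mul_star_self hA.eigenvectorUnitary

lemma cfc_eigen {A : CMat n} (hA : A.IsHermitian) (f : ℝ → ℝ) :
    cfc f A = (hA.eigenvectorUnitary : CMat n) *
      diagonal (fun i => ((f (hA.eigenvalues i) : ℝ) : ℂ)) *
        (hA.eigenvectorUnitary : CMat n)ᴴ := by
  rw [hA.cfc_eq, Matrix.IsHermitian.cfc, Unitary.conjStarAlgAut_apply]
  rfl

lemma eigen_decomp {A : CMat n} (hA : A.IsHermitian) :
    A = (hA.eigenvectorUnitary : CMat n) *
      diagonal (fun i => ((hA.eigenvalues i : ℝ) : ℂ)) * (hA.eigenvectorUnitary : CMat n)ᴴ := by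
  conv_lhs => rw [hA.spectral_theorem, Unitary.conjStarAlgAut_apply]
  rfl

lemma trace_cfc_re {A : CMat n} (hA : A.IsHermitian) (f : ℝ → ℝ) :
    (trace (cfc f A)).re = ∑ i, f (hA.eigenvalues i) := by
  rw [cfc_eigen hA, trace_mul_cycle, eigen_star_mul hA, Matrix.one_mul, trace_diagonal,
    Complex.re_sum]
  simp

lemma trace_mul_eigen {A : CMat n} (hA : A.IsHermitian) (B : CMat n) :
    (trace (A * B)).re = ∑ i, hA.eigenvalues i *
      (((hA.eigenvectorUnitary : CMat n)ᴴ * B * (hA.eigenvectorUnitary : CMat n)) i i).re := by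
  conv_lhs => rw [eigen_decomp hA]
  rw [Matrix.mul_assoc, Matrix.mul_assoc, trace_mul_comm, Matrix.mul_assoc, trace,
    Complex.re_sum]
  refine sum_congr rfl fun i _ => ?_
  simp [diagonal_mul]

lemma eigenvalues_eq_diag {A : CMat n} (hA : A.IsHermitian) (i : Fin n) :
    hA.eigenvalues i =
      (((hA.eigenvectorUnitary : CMat n)ᴴ * A * (hA.eigenvectorUnitary : CMat n)) i i).re := by
  set U := (hA.eigenvectorUnitary : CMat n)
  conv_rhs => rw [eigen_decomp hA]
  have : Uᴴ * (U * diagonal (fun i => ((hA.eigenvalues i : ℝ) : ℂ)) * Uᴴ) * U =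
      diagonal fun i => ((hA.eigenvalues i : ℝ) : ℂ) := by
    simp only [← Matrix.mul_assoc]
    rw [eigen_star_mul hA, Matrix.one_mul, Matrix.mul_assoc, eigen_star_mul hA, Matrix.mul_one]
  rw [this]
  simp

lemma trace_mul_nonneg' {A B : CMat n} (hA : A.PosSemidef) (hB : B.PosSemidef) :
    0 ≤ (trace (A * B)).re := by
  rw [trace_mul_eigen hA.isHermitian]
  exact sum_nonneg fun i _ => mul_nonneg (hA.eigenvalues_nonneg i)
    (Complex.le_def.mp (hB.conjTranspose_mul_mul_same _).diag_nonneg).1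

lemma cfc_posSemidef {A : CMat n} (hA : A.IsHermitian) {f : ℝ → ℝ}
    (hf : ∀ i, 0 ≤ f (hA.eigenvalues i)) : (cfc f A).PosSemidef := by
  rw [cfc_eigen hA]
  exact (PosSemidef.diagonal fun i => Complex.zero_le_real.mpr (hf i)).mul_mul_conjTranspose_same _

lemma cfc_isHermitian' (f : ℝ → ℝ) (A : CMat n) : (cfc f A).IsHermitian :=
  cfc_predicate f A

lemma cfc_mul_cfc {A : CMat n} (f g : ℝ → ℝ) :
    cfc f A * cfc g A = cfc (fun t => f t * g t) A :=
  (cfc_mul f g A (Matrix.finite_real_spectrum.continuousOn _)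
    (Matrix.finite_real_spectrum.continuousOn _)).symm

lemma normSq_sum_row {U : CMat n} (h : U * Uᴴ = 1) (j : Fin n) :
    ∑ i, Complex.normSq (U j i) = 1 := by
  have := congrArg (fun X : CMat n => (X j j).re) h
  simpa [Matrix.mul_apply, Complex.re_sum, Complex.mul_conj, Complex.normSq_apply,
    Matrix.one_apply_eq] using this

lemma normSq_sum_col {U : CMat n} (h : Uᴴ * U = 1) (i : Fin n) :
    ∑ j, Complex.normSq (U j i) = 1 := by
  have := congrArg (fun X : CMat n => (X i i).re) h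
  simpa [Matrix.mul_apply, Complex.re_sum, Complex.normSq_apply, Matrix.one_apply_eq] using this

lemma cfc_diag_re {A : CMat n} (hA : A.IsHermitian) (f : ℝ → ℝ) (j : Fin n) :
    (cfc f A j j).re =
      ∑ i, Complex.normSq ((hA.eigenvectorUnitary : CMat n) j i) * f (hA.eigenvalues i) := by
  rw [cfc_eigen hA, Matrix.mul_apply, Complex.re_sum]
  refine sum_congr rfl fun i _ => ?_
  rw [mul_diagonal, conjTranspose_apply, mul_right_comm, Complex.star_def, Complex.mul_conj,
    ← Complex.ofReal_mul, Complex.ofReal_re]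

lemma continuous_cfc_herm {X : Type*} [TopologicalSpace X] {f : ℝ → ℝ} (hf : Continuous f)
    {a : X → CMat n} (ha : Continuous a) (h : ∀ x, (a x).IsHermitian) :
    Continuous fun x => cfc f (a x) :=
  ha.cfc_of_mem_nhdsSet f (s := Set.univ) Filter.univ_mem (fun x => h x) hf.continuousOn

lemma trRpow_eq_trace_cfc {A : CMat n} (hA : A.PosSemidef) (p : ℝ) :
    trRpow A p = (trace (cfc (fun t : ℝ => max t 0 ^ p) A)).re := by
  rw [trRpow, dif_pos hA.isHermitian, trace_cfc_re hA.isHermitian]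
  exact sum_congr rfl fun i _ => by rw [max_eq_left (hA.eigenvalues_nonneg i)]

lemma continuous_trRpow {X : Type*} [TopologicalSpace X] {p : ℝ} (hp : 0 ≤ p) {W : X → CMat n}
    (hW : Continuous W) (hpos : ∀ x, (W x).PosSemidef) :
    Continuous fun x => trRpow (W x) p := by
  simp only [trRpow_eq_trace_cfc (hpos _)]
  exact Complex.continuous_re.comp (continuous_cfc_herm
    ((continuous_id.max continuous_const).rpow_const fun _ => Or.inr hp) hW
    fun x => (hpos x).isHermitian).matrix_trace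

lemma trRpow_nonneg {A : CMat n} (hA : A.PosSemidef) (p : ℝ) : 0 ≤ trRpow A p := by
  rw [trRpow, dif_pos hA.isHermitian]
  exact sum_nonneg fun i _ => Real.rpow_nonneg (hA.eigenvalues_nonneg i) _

lemma trRpow_zero {p : ℝ} (hp : p ≠ 0) : trRpow (0 : CMat n) p = 0 := by
  rw [trRpow_eq_trace_cfc PosSemidef.zero, cfc_apply_zero (R := ℝ)]
  simp [Real.zero_rpow hp]

lemma one_sub_conj_posSemidef {Z : Matrix (Fin n) (Fin k) ℂ}
    (h : (1 - Z * Zᴴ).PosSemidef) : (1 - Zᴴ * Z).PosSemidef := by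
  have e : (1 : CMat k) - Zᴴ * Z =
      (1 - Zᴴ * Z)ᴴ * (1 - Zᴴ * Z) + Zᴴ * (1 - Z * Zᴴ) * Z := by
    simp only [conjTranspose_sub, conjTranspose_one, conjTranspose_mul, conjTranspose_conjTranspose,
      Matrix.sub_mul, Matrix.mul_sub, Matrix.mul_one, Matrix.one_mul, Matrix.mul_assoc]
    abel
  rw [e]
  exact (posSemidef_conjTranspose_mul_self _).add (h.conjTranspose_mul_mul_same Z)

/-- Jensen for a contraction. -/
lemma sum_diag_rpow_le {A : CMat n} (hA : A.PosSemidef) {p : ℝ} (hp : 1 ≤ p)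
    {Z : Matrix (Fin n) (Fin k) ℂ} (hZ : (1 - Z * Zᴴ).PosSemidef) :
    ∑ i, ((Zᴴ * A * Z) i i).re ^ p ≤ trRpow A p := by
  set U := (hA.isHermitian.eigenvectorUnitary : CMat n)
  set a := hA.isHermitian.eigenvalues
  set B := Uᴴ * Z with hB
  have hcol : ∀ i, ∑ l, Complex.normSq (B l i) ≤ 1 := by
    intro i
    have h1 := (one_sub_conj_posSemidef hZ).diag_nonneg (i := i)
    have h2 : Zᴴ * Z = Bᴴ * B := by
      simp only [hB, conjTranspose_mul, conjTranspose_conjTranspose, Matrix.mul_assoc]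
      rw [← Matrix.mul_assoc U Uᴴ, eigen_mul_star, Matrix.one_mul]
    rw [h2] at h1
    have := (Complex.le_def.mp h1).1
    simpa [Matrix.mul_apply, Complex.re_sum, Complex.normSq_apply, Matrix.one_apply_eq] using this
  have hrow : ∀ l, ∑ i, Complex.normSq (B l i) ≤ 1 := by
    intro l
    have h1 := (hZ.conjTranspose_mul_mul_same U).diag_nonneg (i := l)
    have h2 : Uᴴ * (1 - Z * Zᴴ) * U = 1 - B * Bᴴ := by
      simp only [hB, conjTranspose_mul, conjTranspose_conjTranspose, Matrix.mul_sub,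
        Matrix.sub_mul, Matrix.mul_one, Matrix.mul_assoc]
      rw [eigen_star_mul]
    rw [h2] at h1
    have := (Complex.le_def.mp h1).1
    simpa [Matrix.mul_apply, Complex.re_sum, Complex.mul_conj, Complex.normSq_apply,
      Matrix.one_apply_eq] using this
  have hd : ∀ i, ((Zᴴ * A * Z) i i).re = ∑ l, Complex.normSq (B l i) * a l := by
    intro i
    have e : Zᴴ * A * Z = Bᴴ * diagonal (fun l => ((a l : ℝ) : ℂ)) * B := by
      conv_lhs => rw [eigen_decomp hA.isHermitian]
      simp only [hB, conjTranspose_mul, conjTranspose_conjTranspose, Matrix.mul_assoc]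
      rfl
    rw [e, Matrix.mul_apply, Complex.re_sum]
    refine sum_congr rfl fun l _ => ?_
    rw [mul_diagonal, conjTranspose_apply, mul_right_comm, Complex.star_def,
      ← Complex.normSq_eq_conj_mul_self, ← Complex.ofReal_mul, Complex.ofReal_re]
  calc ∑ i, ((Zᴴ * A * Z) i i).re ^ p
      ≤ ∑ i, ∑ l, Complex.normSq (B l i) * a l ^ p := sum_le_sum fun i _ => by
        rw [hd]
        exact rpow_weighted_sum_le _ hp _ _ (fun l _ => Complex.normSq_nonneg _) (hcol i)
          fun l _ => hA.eigenvalues_nonneg l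
    _ = ∑ l, (∑ i, Complex.normSq (B l i)) * a l ^ p := by
        rw [sum_comm]
        simp only [sum_mul]
    _ ≤ ∑ l, a l ^ p := sum_le_sum fun l _ => mul_le_of_le_one_left
        (Real.rpow_nonneg (hA.eigenvalues_nonneg l) _) (hrow l)
    _ = trRpow A p := by rw [trRpow, dif_pos hA.isHermitian]

lemma trace_re_eq_sum_eigenvalues {A : CMat n} (hA : A.IsHermitian) :
    (trace A).re = ∑ i, hA.eigenvalues i := by
  rw [hA.trace_eq_sum_eigenvalues, Complex.re_sum]
  simp

/-- Young's inequality in matrix form, `g ≥ 1`. -/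
lemma sum_rpow_le_ge_one {Q : CMat n} (hQ : Q.PosSemidef) {g : ℝ} (hg : 1 ≤ g) (e : Fin n → ℝ)
    (he : ∀ j, 0 ≤ e j) :
    g * ∑ j, (Q j j).re * e j ^ (g - 1) ≤ trRpow Q g + (g - 1) * ∑ j, e j ^ g := by
  have h := sum_diag_rpow_le hQ hg (Z := (1 : CMat n)) (by simp [PosSemidef.zero])
  simp only [conjTranspose_one, Matrix.one_mul, Matrix.mul_one] at h
  calc g * ∑ j, (Q j j).re * e j ^ (g - 1)
      = ∑ j, g * (Q j j).re * e j ^ (g - 1) := by
        rw [mul_sum]
        simp only [mul_assoc]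
    _ ≤ ∑ j, ((Q j j).re ^ g + (g - 1) * e j ^ g) := sum_le_sum fun j _ =>
        young_ge_one hg (Complex.le_def.mp hQ.diag_nonneg).1 (he j)
    _ ≤ _ := by
        rw [sum_add_distrib, ← mul_sum]
        linarith

/-- Young's inequality in matrix form, `g < 1`. -/
lemma sum_rpow_le_lt_one {Q : CMat n} (hQ : Q.PosSemidef) {g d : ℝ} (hg : 0 < g) (hg' : g ≤ 1)
    (hd : 0 < d) (e : Fin n → ℝ) (he : ∀ j, 0 ≤ e j) :
    (trace (Q * cfc (fun t => max t d ^ (g - 1)) Q)).re ≤ trRpow Q g ∧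
    ∑ j, e j ^ g ≤ g * ∑ j, e j * (cfc (fun t => max t d ^ (g - 1)) Q j j).re +
      (1 - g) * (trRpow Q g + n * d ^ g) := by
  set hH := hQ.isHermitian
  set q := hH.eigenvalues
  have hq : ∀ i, 0 ≤ q i := hQ.eigenvalues_nonneg
  set μ : Fin n → ℝ := fun i => max (q i) d with hμ
  have hμ0 : ∀ i, 0 < μ i := fun i => lt_max_of_lt_right hd
  constructor
  · have : Q * cfc (fun t => max t d ^ (g - 1)) Q = cfc (fun t => t * max t d ^ (g - 1)) Q := by
      rw [← cfc_mul_cfc (fun t => t), cfc_id' ℝ Q (show IsSelfAdjoint Q from hH)]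
    rw [this, trace_cfc_re hH, trRpow, dif_pos hH]
    refine sum_le_sum fun i _ => ?_
    rcases (hq i).eq_or_lt with h | h
    · rw [show hH.eigenvalues i = 0 from h.symm, Real.zero_rpow hg.ne', zero_mul]
    · calc q i * max (q i) d ^ (g - 1) ≤ q i * q i ^ (g - 1) := mul_le_mul_of_nonneg_left
            (Real.rpow_le_rpow_of_nonpos h (le_max_left _ _) (by linarith)) (hq i)
        _ = q i ^ g := by
            rw [Real.rpow_sub_one h.ne']
            field_simp
  · have hμb : ∑ i, μ i ^ g ≤ trRpow Q g + n * d ^ g := by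
      calc ∑ i, μ i ^ g ≤ ∑ i, (q i ^ g + d ^ g) := sum_le_sum fun i _ => by
            rcases max_cases (q i) d with ⟨h, -⟩ | ⟨h, -⟩ <;> rw [hμ] <;> simp only [h]
            · exact le_add_of_nonneg_right (Real.rpow_nonneg hd.le _)
            · exact le_add_of_nonneg_left (Real.rpow_nonneg (hq i) _)
        _ = _ := by
            rw [sum_add_distrib, trRpow, dif_pos hH, sum_const, card_univ, Fintype.card_fin,
              nsmul_eq_mul]
    set w : Fin n → Fin n → ℝ := fun j i =>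
      Complex.normSq ((hH.eigenvectorUnitary : CMat n) j i) with hw
    have hr : ∀ j, ∑ i, w j i = 1 := normSq_sum_row (eigen_mul_star hH)
    have hc : ∀ i, ∑ j, w j i = 1 := normSq_sum_col (eigen_star_mul hH)
    calc ∑ j, e j ^ g = ∑ j, ∑ i, w j i * e j ^ g := by simp only [← sum_mul, hr, one_mul]
      _ ≤ ∑ j, ∑ i, w j i * (g * (e j * μ i ^ (g - 1)) + (1 - g) * μ i ^ g) :=
          sum_le_sum fun j _ => sum_le_sum fun i _ => mul_le_mul_of_nonneg_left
            (young_lt_one hg.le hg' (he j) (hμ0 i)) (Complex.normSq_nonneg _)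
      _ = g * ∑ j, e j * (cfc (fun t => max t d ^ (g - 1)) Q j j).re +
            (1 - g) * ∑ i, μ i ^ g := by
          simp only [mul_add, sum_add_distrib, cfc_diag_re hH, mul_sum]
          congr 1
          · refine sum_congr rfl fun j _ => sum_congr rfl fun i _ => ?_
            simp only [hw, hμ, q]
            ring
          · rw [sum_comm]
            refine sum_congr rfl fun i _ => ?_
            rw [← sum_mul, hc, one_mul]
      _ ≤ _ := by
          have : 0 ≤ 1 - g := by linarith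
          gcongr

end Vale.Agent.P371.Full
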