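import Vale.Agent.P371.Full.UpperAlg

/-!
Approximation of a potential by continuous compactly supported ones.
-/

namespace Vale.Agent.P371.Full

open MeasureTheory Finset Matrix Filter Topology
open scoped ComplexOrder ComplexConjugate Matrix.Norms.L2Operator

variable {m : ℕ}

lemma norm_entry_le_trRpow {A : CMat m} (hA : A.PosSemidef) {p : ℝ} (hp : 1 ≤ p) (a b : Fin m) :
    ‖A a b‖ ≤ m + trRpow A p := by
  set hH := hA.isHermitian
  set U := (hH.eigenvectorUnitary : CMat m)
  have hU : ∀ j i, ‖U j i‖ ≤ 1 := by
    intro j i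
    have h := (single_le_sum (f := fun i => Complex.normSq (U j i))
      (fun _ _ => Complex.normSq_nonneg _) (mem_univ i)).trans
      (normSq_sum_row (eigen_mul_star hH) j).le
    simp only [Complex.normSq_eq_norm_sq] at h
    exact (pow_le_one_iff_of_nonneg (norm_nonneg _) two_ne_zero).mp h
  calc ‖A a b‖ = ‖∑ l, U a l * (hH.eigenvalues l : ℂ) * Uᴴ l b‖ := by
        conv_lhs => rw [eigen_decomp hH, Matrix.mul_apply]
        simp only [mul_diagonal]
        rfl
    _ ≤ ∑ l, (1 + hH.eigenvalues l ^ p) := by
        refine (norm_sum_le _ _).trans (sum_le_sum fun l _ => ?_)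
        rw [norm_mul, norm_mul, conjTranspose_apply, norm_star, Complex.norm_real,
          Real.norm_eq_abs, abs_of_nonneg (hA.eigenvalues_nonneg l)]
        calc ‖U a l‖ * hH.eigenvalues l * ‖U b l‖ ≤ 1 * hH.eigenvalues l * 1 :=
              mul_le_mul (mul_le_mul_of_nonneg_right (hU a l) (hA.eigenvalues_nonneg l)) (hU b l)
                (norm_nonneg _) (by simpa using hA.eigenvalues_nonneg l)
          _ = hH.eigenvalues l := by ring
          _ ≤ 1 + hH.eigenvalues l ^ p := by
            rcases le_total (hH.eigenvalues l) 1 with h | h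
            · linarith [Real.rpow_nonneg (hA.eigenvalues_nonneg l) p]
            · linarith [Real.self_le_rpow_of_one_le h hp]
    _ = _ := by
        rw [sum_add_distrib, trRpow, dif_pos hH]
        simp

/-- Truncation to `[-R, R]`. -/
noncomputable def trunc (W : ℝ → CMat m) (R : ℝ) : ℝ → CMat m :=
  (Set.Icc (-R) R).indicator W

lemma trunc_apply (W : ℝ → CMat m) (R t : ℝ) (a b : Fin m) :
    trunc W R t a b = (Set.Icc (-R) R).indicator (fun t => W t a b) t := by
  unfold trunc
  by_cases h : t ∈ Set.Icc (-R) R <;> simp [h]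

/-- Sliding average of the truncation. -/
noncomputable def slide (W : ℝ → CMat m) (R h : ℝ) (x : ℝ) : CMat m :=
  Matrix.of fun a b => (h⁻¹ : ℝ) • ∫ t in x..x + h, trunc W R t a b

variable {γ : ℝ} {W : ℝ → CMat m}

lemma trunc_posSemidef (hW : IsPotential γ W) (R t : ℝ) : (trunc W R t).PosSemidef := by
  unfold trunc
  by_cases h : t ∈ Set.Icc (-R) R
  · rw [Set.indicator_of_mem h]; exact hW.posSemidef t
  · rw [Set.indicator_of_notMem h]; exact PosSemidef.zero

lemma trRpow_trunc_le (hW : IsPotential γ W) (hp : 1 ≤ γ + 1 / 2) (R t : ℝ) :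
    trRpow (trunc W R t) (γ + 1 / 2) ≤ trRpow (W t) (γ + 1 / 2) := by
  unfold trunc
  by_cases h : t ∈ Set.Icc (-R) R
  · rw [Set.indicator_of_mem h]
  · rw [Set.indicator_of_notMem h, trRpow_zero (by linarith)]
    exact trRpow_nonneg (hW.posSemidef t) _

lemma trunc_measurable (hW : IsPotential γ W) (R : ℝ) (a b : Fin m) :
    Measurable fun t => trunc W R t a b := by
  simp only [trunc_apply]
  exact (hW.measurable a b).indicator measurableSet_Icc

lemma trunc_integrable (hW : IsPotential γ W) (hp : 1 ≤ γ + 1 / 2) (R : ℝ) (a b : Fin m) :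
    Integrable fun t => trunc W R t a b := by
  have hg : IntegrableOn (fun t => (m : ℝ) + trRpow (W t) (γ + 1 / 2)) (Set.Icc (-R) R) :=
    (integrableOn_const measure_Icc_lt_top.ne).add hW.integrable.integrableOn
  simp only [trunc_apply]
  exact (integrable_indicator_iff measurableSet_Icc).mpr
    (hg.mono' (hW.measurable a b).aestronglyMeasurable
      (Eventually.of_forall fun t => norm_entry_le_trRpow (hW.posSemidef t) hp a b))

lemma slide_continuous (hW : IsPotential γ W) (hp : 1 ≤ γ + 1 / 2) (R h : ℝ) :
    Continuous (slide W R h) := by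
  refine continuous_matrix fun a b => Continuous.const_smul ?_ (h⁻¹ : ℝ)
  have hi := trunc_integrable hW hp R a b
  have hF : Continuous fun y => ∫ t in (0 : ℝ)..y, trunc W R t a b :=
    intervalIntegral.continuous_primitive (fun _ _ => hi.intervalIntegrable) 0
  have e : (fun x => ∫ t in x..x + h, trunc W R t a b) = fun x =>
      (∫ t in (0 : ℝ)..x + h, trunc W R t a b) - ∫ t in (0 : ℝ)..x, trunc W R t a b := by
    funext x
    rw [intervalIntegral.integral_interval_sub_left hi.intervalIntegrable hi.intervalIntegrable]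
  rw [e]
  exact (hF.comp (continuous_id.add continuous_const)).sub hF

lemma slide_eq_zero {R h x : ℝ} (hh : 0 < h) (hx : R + h < |x|) : slide W R h x = 0 := by
  ext a b
  have : ∫ t in x..x + h, trunc W R t a b = 0 := by
    rw [intervalIntegral.integral_congr (g := fun _ => (0 : ℂ)) fun t ht => ?_,
      intervalIntegral.integral_zero]
    rw [Set.uIcc_of_le (by linarith)] at ht
    rw [trunc_apply, Set.indicator_of_notMem]
    rintro ⟨h1, h2⟩
    rcases lt_abs.mp hx with h3 | h3 <;> linarith [ht.1, ht.2]
  show (h⁻¹ : ℝ) • ∫ t in x..x + h, trunc W R t a b = 0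
  rw [this, smul_zero]

lemma conj_slide_apply (hW : IsPotential γ W) (hp : 1 ≤ γ + 1 / 2) {k : ℕ} (R h x : ℝ)
    (Z : Matrix (Fin m) (Fin k) ℂ) (i : Fin k) :
    (Zᴴ * slide W R h x * Z) i i = (h⁻¹ : ℝ) • ∫ t in x..x + h, (Zᴴ * trunc W R t * Z) i i := by
  simp only [Matrix.mul_apply, sum_mul]
  rw [intervalIntegral.integral_finsetSum fun b _ =>
    (integrable_finsetSum _ fun a _ =>
      (((trunc_integrable hW hp R a b).const_mul _).mul_const _)).intervalIntegrable, smul_sum]
  refine sum_congr rfl fun b _ => ?_
  rw [intervalIntegral.integral_finsetSum fun a _ =>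
    (((trunc_integrable hW hp R a b).const_mul _).mul_const _).intervalIntegrable, smul_sum]
  refine sum_congr rfl fun a _ => ?_
  rw [intervalIntegral.integral_mul_const, intervalIntegral.integral_const_mul]
  simp only [slide, Matrix.of_apply, Complex.real_smul]
  ring

lemma conj_slide_re (hW : IsPotential γ W) (hp : 1 ≤ γ + 1 / 2) {k : ℕ} (R h x : ℝ)
    (Z : Matrix (Fin m) (Fin k) ℂ) (i : Fin k) :
    ((Zᴴ * slide W R h x * Z) i i).re =
      h⁻¹ * ∫ t in x..x + h, ((Zᴴ * trunc W R t * Z) i i).re := by
  rw [conj_slide_apply hW hp]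
  have hi : Integrable fun t => (Zᴴ * trunc W R t * Z) i i := by
    simp only [Matrix.mul_apply, sum_mul]
    exact integrable_finsetSum _ fun b _ => integrable_finsetSum _ fun a _ =>
      ((trunc_integrable hW hp R a b).const_mul _).mul_const _
  rw [Complex.real_smul, Complex.re_ofReal_mul]
  exact congrArg (h⁻¹ * ·)
    (Complex.reCLM.intervalIntegral_comp_comm hi.intervalIntegrable).symm

lemma slide_posSemidef (hW : IsPotential γ W) (hp : 1 ≤ γ + 1 / 2) {R h : ℝ} (hh : 0 < h)
    (x : ℝ) : (slide W R h x).PosSemidef := by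
  have hH : (slide W R h x).IsHermitian := by
    ext a b
    simp only [slide, conjTranspose_apply, Matrix.of_apply, Complex.real_smul, Complex.star_def,
      map_mul, Complex.conj_ofReal, ← intervalIntegral.intervalIntegral_conj]
    refine congrArg _ (intervalIntegral.integral_congr fun t _ => ?_)
    exact (trunc_posSemidef hW R t).isHermitian.apply a b
  refine PosSemidef.of_dotProduct_mulVec_nonneg hH fun v => ?_
  set Z : Matrix (Fin m) (Fin 1) ℂ := Matrix.of fun a _ => v a with hZ
  have e : ∀ A : CMat m, (Zᴴ * A * Z) 0 0 = star v ⬝ᵥ A *ᵥ v := by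
    intro A
    rw [Matrix.mul_assoc]
    rfl
  rw [Complex.le_def]
  refine ⟨?_, ?_⟩
  · rw [Complex.zero_re, ← e, conj_slide_re hW hp]
    refine mul_nonneg (inv_nonneg.mpr hh.le)
      (intervalIntegral.integral_nonneg (by linarith) fun t _ => ?_)
    exact (Complex.le_def.mp ((trunc_posSemidef hW R t).conjTranspose_mul_mul_same Z).diag_nonneg).1
  · exact (hH.im_star_dotProduct_mulVec_self v).symm

lemma trRpow_slide_le (hW : IsPotential γ W) (hp : 1 ≤ γ + 1 / 2) {R h : ℝ} (hh : 0 < h) (x : ℝ) :
    trRpow (slide W R h x) (γ + 1 / 2) ≤ h⁻¹ * ∫ t in x..x + h, trRpow (W t) (γ + 1 / 2) := by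
  set p := γ + 1 / 2
  have hpsd := slide_posSemidef hW hp hh x (R := R)
  set hH := hpsd.isHermitian
  set U := (hH.eigenvectorUnitary : CMat m)
  have hU : (1 - U * Uᴴ).PosSemidef := by rw [eigen_mul_star, sub_self]; exact PosSemidef.zero
  set q : Fin m → ℝ → ℝ := fun i t => ((Uᴴ * trunc W R t * U) i i).re
  have hq0 : ∀ i t, 0 ≤ q i t := fun i t =>
    (Complex.le_def.mp ((trunc_posSemidef hW R t).conjTranspose_mul_mul_same U).diag_nonneg).1
  have hle : ∀ t, ∑ i, q i t ^ p ≤ trRpow (W t) p := fun t =>
    (sum_diag_rpow_le (trunc_posSemidef hW R t) hp hU).trans (trRpow_trunc_le hW hp R t)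
  have hqi : ∀ i, Integrable (q i) := fun i => by
    have : Integrable fun t => (Uᴴ * trunc W R t * U) i i := by
      simp only [Matrix.mul_apply, sum_mul]
      exact integrable_finsetSum _ fun b _ => integrable_finsetSum _ fun a _ =>
        ((trunc_integrable hW hp R a b).const_mul _).mul_const _
    exact this.re
  have hqp : ∀ i, Integrable fun t => q i t ^ p := fun i => by
    refine hW.integrable.mono' (((hqi i).aestronglyMeasurable.aemeasurable.pow_const p).aestronglyMeasurable)
      (Eventually.of_forall fun t => ?_)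
    rw [Real.norm_eq_abs, abs_of_nonneg (Real.rpow_nonneg (hq0 i t) _)]
    exact (single_le_sum (fun j _ => Real.rpow_nonneg (hq0 j t) p) (mem_univ i)).trans (hle t)
  have hj : ∀ i, h * hH.eigenvalues i ^ p ≤ ∫ t in x..x + h, q i t ^ p := by
    intro i
    set μ := hH.eigenvalues i
    have hμ0 : 0 ≤ μ := hpsd.eigenvalues_nonneg i
    have hμ : ∫ t in x..x + h, q i t = h * μ := by
      have : μ = h⁻¹ * ∫ t in x..x + h, q i t := by
        rw [show μ = ((Uᴴ * slide W R h x * U) i i).re from eigenvalues_eq_diag hH i,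
          conj_slide_re hW hp]
      rw [this]
      field_simp
    have h1 : ∫ t in x..x + h, p * q i t * μ ^ (p - 1) ≤
        ∫ t in x..x + h, (q i t ^ p + (p - 1) * μ ^ p) :=
      intervalIntegral.integral_mono_on (by linarith)
        (((hqi i).const_mul p).mul_const _).intervalIntegrable
        ((hqp i).intervalIntegrable.add intervalIntegrable_const)
        fun t _ => young_ge_one hp (hq0 i t) hμ0
    rw [intervalIntegral.integral_mul_const, intervalIntegral.integral_const_mul, hμ,
      intervalIntegral.integral_add (hqp i).intervalIntegrable intervalIntegrable_const,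
      intervalIntegral.integral_const, smul_eq_mul, show x + h - x = h by ring] at h1
    have e : μ * μ ^ (p - 1) = μ ^ p := by
      conv_rhs => rw [show p = 1 + (p - 1) by ring, Real.rpow_add' hμ0 (by linarith), Real.rpow_one]
    have : p * (h * μ) * μ ^ (p - 1) = h * (p * μ ^ p) := by rw [← e]; ring
    linarith
  rw [trRpow, dif_pos hH, le_inv_mul_iff₀ hh, mul_sum]
  refine (sum_le_sum fun i _ => hj i).trans ?_
  rw [← intervalIntegral.integral_finsetSum fun i _ => (hqp i).intervalIntegrable]
  exact intervalIntegral.integral_mono_on (by linarith)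
    (integrable_finsetSum _ fun i _ => hqp i).intervalIntegrable hW.integrable.intervalIntegrable
    fun t _ => hle t

lemma integral_trRpow_slide_le (hW : IsPotential γ W) (hp : 1 ≤ γ + 1 / 2) {R h X : ℝ}
    (hh : 0 < h) (hX : 0 < X) :
    ∫ x in (-X)..X, trRpow (slide W R h x) (γ + 1 / 2) ≤ potentialNorm γ W := by
  set T := fun t => trRpow (W t) (γ + 1 / 2)
  have hT0 : ∀ t, 0 ≤ T t := fun t => trRpow_nonneg (hW.posSemidef t) _
  have hTi : ∀ a b, IntervalIntegrable T volume a b := fun a b => hW.integrable.intervalIntegrable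
  set G := fun y => ∫ t in (0 : ℝ)..y, T t with hG
  have hGc : Continuous G := intervalIntegral.continuous_primitive hTi 0
  have hGd : ∀ a b, G b - G a = ∫ t in a..b, T t := fun a b =>
    intervalIntegral.integral_interval_sub_left (hTi _ _) (hTi _ _)
  have hGm : Monotone G := fun a b hab => by
    have := hGd a b
    linarith [intervalIntegral.integral_nonneg (μ := volume) hab fun t _ => hT0 t]
  have hGi : ∀ a b, IntervalIntegrable G volume a b := fun a b => hGc.intervalIntegrable a b
  calc ∫ x in (-X)..X, trRpow (slide W R h x) (γ + 1 / 2)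
      ≤ ∫ x in (-X)..X, h⁻¹ * (G (x + h) - G x) := by
        refine intervalIntegral.integral_mono_on (by linarith)
          ((continuous_trRpow (by linarith) (slide_continuous hW hp R h)
            (slide_posSemidef hW hp hh)).intervalIntegrable _ _)
          ((((hGc.comp (continuous_id.add continuous_const)).sub hGc).const_mul _).intervalIntegrable
            _ _) fun x _ => ?_
        rw [hGd]
        exact trRpow_slide_le hW hp hh x
    _ = h⁻¹ * ((∫ x in X..X + h, G x) - ∫ x in (-X)..(-X + h), G x) := by
        rw [intervalIntegral.integral_const_mul, intervalIntegral.integral_sub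
          (f := fun x => G (x + h)) (g := G)
          ((hGc.comp (continuous_id.add continuous_const)).intervalIntegrable _ _) (hGi _ _),
          intervalIntegral.integral_comp_add_right G h,
          intervalIntegral.integral_interval_sub_interval_comm' (hGi _ _) (hGi _ _) (hGi _ _)]
    _ ≤ h⁻¹ * ((∫ _x in X..X + h, G (X + h)) - ∫ _x in (-X)..(-X + h), G (-X)) := by
        refine mul_le_mul_of_nonneg_left (sub_le_sub
          (intervalIntegral.integral_mono_on (by linarith) (hGi _ _) intervalIntegrable_const
            fun x hx => hGm hx.2)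
          (intervalIntegral.integral_mono_on (by linarith) intervalIntegrable_const (hGi _ _)
            fun x hx => hGm hx.1)) (inv_nonneg.mpr hh.le)
    _ = ∫ t in (-X)..X + h, T t := by
        rw [intervalIntegral.integral_const, intervalIntegral.integral_const, ← hGd]
        simp only [smul_eq_mul, add_sub_cancel_left]
        field_simp
    _ ≤ potentialNorm γ W := by
        rw [intervalIntegral.integral_of_le (by linarith)]
        exact setIntegral_le_integral hW.integrable (Eventually.of_forall hT0)

lemma tendsto_slide_pairing {u w : ℝ → ℂ} (hu : Continuous u) {C : ℝ} (hC : ∀ x, ‖u x‖ ≤ C)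
    (hw : Integrable w) (hwm : Measurable w) :
    Tendsto (fun h : ℝ => ∫ x, u x * ((h⁻¹ : ℝ) • ∫ t in x..x + h, w t)) (𝓝[>] 0)
      (𝓝 (∫ x, u x * w x)) := by
  set Φ : ℝ → ℂ := fun s => ∫ x, u x * w (x + s) with hΦ
  have hΦ' : Φ = fun s => ∫ t, u (t - s) * w t := by
    funext s
    rw [hΦ]
    simp only
    rw [← integral_add_right_eq_self (fun t => u (t - s) * w t) s]
    simp
  have hΦc : Continuous Φ := by
    rw [hΦ']
    refine continuous_of_dominated (bound := fun t => C * ‖w t‖) (fun s => ?_) (fun s => ?_)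
      (hw.norm.const_mul C) ?_
    · exact ((hu.comp (continuous_id.sub continuous_const)).aestronglyMeasurable).mul
        hw.aestronglyMeasurable
    · exact Eventually.of_forall fun t => by
        rw [norm_mul]; exact mul_le_mul_of_nonneg_right (hC _) (norm_nonneg _)
    · exact Eventually.of_forall fun t =>
        (hu.comp (continuous_const.sub continuous_id)).mul continuous_const
  have hswap : ∀ h, 0 < h → ∫ x, u x * ∫ t in x..x + h, w t = ∫ s in (0 : ℝ)..h, Φ s := by
    intro h hh
    have hint : Integrable (Function.uncurry fun s x => u x * w (x + s))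
        ((volume.restrict (Set.uIoc 0 h)).prod volume) := by
      have hmeas : AEStronglyMeasurable (Function.uncurry fun s x => u x * w (x + s))
          ((volume.restrict (Set.uIoc 0 h)).prod (volume : Measure ℝ)) :=
        ((hu.measurable.comp measurable_snd).mul
          (hwm.comp (measurable_snd.add measurable_fst))).aestronglyMeasurable
      refine (integrable_prod_iff hmeas).mpr ⟨Eventually.of_forall fun s => ?_, ?_⟩
      · exact (hw.comp_add_right s).bdd_mul hu.aestronglyMeasurable (Eventually.of_forall hC)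
      · have : IsFiniteMeasure ((volume : Measure ℝ).restrict (Set.uIoc 0 h)) :=
          ⟨by rw [Measure.restrict_apply_univ, Set.uIoc_of_le hh.le]; exact measure_Ioc_lt_top⟩
        refine (integrable_const (C * ∫ t, ‖w t‖)).mono'
          hmeas.norm.integral_prod_right' (Eventually.of_forall fun s => ?_)
        rw [Real.norm_eq_abs, abs_of_nonneg (integral_nonneg fun _ => norm_nonneg _),
          ← integral_const_mul, ← integral_add_right_eq_self (fun t => C * ‖w t‖) s]
        refine integral_mono_of_nonneg (Eventually.of_forall fun _ => norm_nonneg _)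
          ((hw.comp_add_right s).norm.const_mul C) (Eventually.of_forall fun x => ?_)
        simp only [Function.uncurry, norm_mul]
        exact mul_le_mul_of_nonneg_right (hC _) (norm_nonneg _)
    rw [show (∫ s in (0 : ℝ)..h, Φ s) = ∫ s in (0 : ℝ)..h, ∫ x, u x * w (x + s) from rfl,
      intervalIntegral_integral_swap hint]
    refine integral_congr_ae (Eventually.of_forall fun x => ?_)
    simp only [intervalIntegral.integral_const_mul, intervalIntegral.integral_comp_add_left,
      add_zero]
  have hd := ((hΦc.integral_hasStrictDerivAt 0 0).hasDerivAt).tendsto_slope_zero_right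
  simp only [zero_add, intervalIntegral.integral_same, sub_zero] at hd
  have h0 : Φ 0 = ∫ x, u x * w x := by simp [hΦ]
  rw [← h0]
  refine hd.congr' ?_
  filter_upwards [self_mem_nhdsWithin] with h hh
  rw [← hswap h hh, ← integral_smul]
  refine integral_congr_ae (Eventually.of_forall fun x => ?_)
  simp only [Complex.real_smul]
  ring

lemma tendsto_trunc_pairing (hW : IsPotential γ W) (hp : 1 ≤ γ + 1 / 2) {u : ℝ → ℂ}
    (hu : Continuous u) {C : ℝ} (hC : ∀ x, ‖u x‖ ≤ C) (hui : Integrable u) (a b : Fin m) :
    Integrable (fun x => u x * W x a b) ∧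
      Tendsto (fun R : ℝ => ∫ x, u x * trunc W R x a b) atTop (𝓝 (∫ x, u x * W x a b)) := by
  set B := fun x => C * trRpow (W x) (γ + 1 / 2) + (m : ℝ) * ‖u x‖
  have hB : Integrable B := (hW.integrable.const_mul C).add (hui.norm.const_mul _)
  have hb : ∀ x, ‖u x * W x a b‖ ≤ B x := fun x => by
    rw [norm_mul]
    calc ‖u x‖ * ‖W x a b‖ ≤ ‖u x‖ * (m + trRpow (W x) (γ + 1 / 2)) :=
          mul_le_mul_of_nonneg_left (norm_entry_le_trRpow (hW.posSemidef x) hp a b) (norm_nonneg _)
      _ ≤ B x := by
          have := mul_le_mul_of_nonneg_right (hC x)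
            (trRpow_nonneg (hW.posSemidef x) (γ + 1 / 2))
          simp only [B]
          linarith
  refine ⟨hB.mono' (hu.measurable.mul (hW.measurable a b)).aestronglyMeasurable
    (Eventually.of_forall hb), ?_⟩
  refine tendsto_integral_filter_of_dominated_convergence B
    (Eventually.of_forall fun R =>
      (hu.measurable.mul (trunc_measurable hW R a b)).aestronglyMeasurable)
    (Eventually.of_forall fun R => Eventually.of_forall fun x => ?_) hB
    (Eventually.of_forall fun x => ?_)
  · refine le_trans ?_ (hb x)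
    rw [trunc_apply, norm_mul, norm_mul]
    exact mul_le_mul_of_nonneg_left
      (norm_indicator_le_norm_self (fun t => W t a b) x) (norm_nonneg _)
  · refine tendsto_const_nhds.congr' ?_
    filter_upwards [eventually_ge_atTop |x|] with R hR
    have hmem : x ∈ Set.Icc (-R) R := abs_le.mp hR
    rw [trunc_apply, Set.indicator_of_mem hmem]

/-- A potential can be replaced by a continuous compactly supported one. -/
theorem exists_approx {N : ℕ} (hW : IsPotential γ W) (hp : 1 ≤ γ + 1 / 2)
    (U : ℝ → Matrix (Fin m) (Fin N) ℂ) (hUc : Continuous U)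
    (hUb : ∃ C, ∀ x a j, ‖U x a j‖ ≤ C) (hU2 : ∀ a j, MemLp (fun x => U x a j) 2 volume)
    {τ : ℝ} (hτ : 0 < τ) :
    ∃ X0 > 0, ∃ W' : ℝ → CMat m, Continuous W' ∧ (∀ x, (W' x).PosSemidef) ∧
      (∀ x, X0 ≤ |x| → W' x = 0) ∧
      (∫ x in (-X0)..X0, trRpow (W' x) (γ + 1 / 2)) ≤ potentialNorm γ W ∧
      ∀ j k, ‖(∫ x, ((U x)ᴴ * W' x * U x) j k) - ∫ x, ((U x)ᴴ * W x * U x) j k‖ < τ := by
  obtain ⟨C, hC⟩ := hUb
  set u : Fin N → Fin N → Fin m → Fin m → ℝ → ℂ :=
    fun j k a b x => star (U x a j) * U x b k with hu
  have huc : ∀ j k a b, Continuous (u j k a b) := fun j k a b =>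
    (continuous_star.comp (hUc.matrix_elem a j)).mul (hUc.matrix_elem b k)
  have hub : ∀ j k a b x, ‖u j k a b x‖ ≤ C * C := fun j k a b x => by
    rw [hu, norm_mul, norm_star]
    exact mul_le_mul (hC x a j) (hC x b k) (norm_nonneg _) ((norm_nonneg _).trans (hC x a j))
  have hui : ∀ j k a b, Integrable (u j k a b) := fun j k a b =>
    (hU2 a j).star.integrable_mul (hU2 b k)
  have hexp : ∀ V : ℝ → CMat m, (∀ j k a b, Integrable fun x => u j k a b x * V x a b) →
      ∀ j k, ∫ x, ((U x)ᴴ * V x * U x) j k = ∑ b, ∑ a, ∫ x, u j k a b x * V x a b := by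
    intro V hV j k
    simp only [Matrix.mul_apply, sum_mul, conjTranspose_apply]
    have e : ∀ a b x, star (U x a j) * V x a b * U x b k = u j k a b x * V x a b :=
      fun a b x => by simp only [hu]; ring
    simp only [e]
    rw [integral_finsetSum _ fun b _ => integrable_finsetSum _ fun a _ => hV j k a b]
    exact sum_congr rfl fun b _ => integral_finsetSum _ fun a _ => hV j k a b
  have hiW := fun j k a b => (tendsto_trunc_pairing hW hp (huc j k a b) (hub j k a b)
    (hui j k a b) a b).1
  have hiR : ∀ R j k a b, Integrable fun x => u j k a b x * trunc W R x a b := fun R j k a b =>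
    (trunc_integrable hW hp R a b).bdd_mul (huc j k a b).aestronglyMeasurable
      (Eventually.of_forall (hub j k a b))
  have hiS : ∀ R h, 0 < h → ∀ j k a b, Integrable fun x => u j k a b x * slide W R h x a b := by
    intro R h hh j k a b
    refine (hui j k a b).mul_bdd (c := h⁻¹ * ∫ t, ‖trunc W R t a b‖)
      ((slide_continuous hW hp R h).matrix_elem a b).aestronglyMeasurable
      (Eventually.of_forall fun x => ?_)
    simp only [slide, Matrix.of_apply, norm_smul, Real.norm_eq_abs, abs_inv, abs_of_pos hh]
    refine mul_le_mul_of_nonneg_left ?_ (inv_nonneg.mpr hh.le)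
    exact (intervalIntegral.norm_integral_le_integral_norm_uIoc).trans
      (setIntegral_le_integral (trunc_integrable hW hp R a b).norm
        (Eventually.of_forall fun _ => norm_nonneg _))
  have hR : ∀ j k, Tendsto (fun R : ℝ => ∫ x, ((U x)ᴴ * trunc W R x * U x) j k) atTop
      (𝓝 (∫ x, ((U x)ᴴ * W x * U x) j k)) := by
    intro j k
    rw [hexp W hiW]
    simp only [hexp _ (hiR _)]
    exact tendsto_finsetSum _ fun b _ => tendsto_finsetSum _ fun a _ =>
      (tendsto_trunc_pairing hW hp (huc j k a b) (hub j k a b) (hui j k a b) a b).2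
  have hev : ∀ᶠ R : ℝ in atTop, 0 < R ∧ ∀ j k,
      dist (∫ x, ((U x)ᴴ * trunc W R x * U x) j k) (∫ x, ((U x)ᴴ * W x * U x) j k) < τ / 2 :=
    (eventually_gt_atTop 0).and (eventually_all.2 fun j => eventually_all.2 fun k =>
      (Metric.tendsto_nhds.mp (hR j k)) (τ / 2) (half_pos hτ))
  obtain ⟨R, hR0, hRd⟩ := hev.exists
  have hh : ∀ j k, Tendsto (fun h : ℝ => ∫ x, ((U x)ᴴ * slide W R h x * U x) j k) (𝓝[>] 0)
      (𝓝 (∫ x, ((U x)ᴴ * trunc W R x * U x) j k)) := by
    intro j k
    rw [hexp _ (hiR R)]
    refine Tendsto.congr' ?_ (tendsto_finsetSum _ fun b _ => tendsto_finsetSum _ fun a _ =>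
      tendsto_slide_pairing (huc j k a b) (hub j k a b)
        (trunc_integrable hW hp R a b) (trunc_measurable hW R a b))
    filter_upwards [self_mem_nhdsWithin] with h hh
    exact (hexp _ (hiS R h hh) j k).symm
  have hev' : ∀ᶠ h : ℝ in 𝓝[>] 0, 0 < h ∧ ∀ j k,
      dist (∫ x, ((U x)ᴴ * slide W R h x * U x) j k)
        (∫ x, ((U x)ᴴ * trunc W R x * U x) j k) < τ / 2 :=
    (eventually_mem_nhdsWithin (a := (0 : ℝ))).and (eventually_all.2 fun j => eventually_all.2 fun k =>
      (Metric.tendsto_nhds.mp (hh j k)) (τ / 2) (half_pos hτ))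
  obtain ⟨h, hh0, hhd⟩ := hev'.exists
  refine ⟨R + h + 1, by linarith, slide W R h, slide_continuous hW hp R h,
    slide_posSemidef hW hp hh0, fun x hx => slide_eq_zero hh0 (by linarith),
    integral_trRpow_slide_le hW hp hh0 (by linarith), fun j k => ?_⟩
  rw [← dist_eq_norm]
  exact (dist_triangle _ _ _).trans_lt (by linarith [hRd j k, hhd j k])

end Vale.Agent.P371.Full
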